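import Crest.Agent.N207.NP.Wt

/-!
# Row 207, block P (helper85): weighted energy inequality on the neck (Caccioppoli + Hardy)
-/

set_option autoImplicit false
set_option linter.dupNamespace false
set_option linter.unusedSectionVars false
open Set MeasureTheory Filter Topology
open scoped ContDiff

noncomputable section

namespace Crest.Agent.N207.NP

/-! ### a smooth positive part -/

/-- smooth convex function, `0` on `u ≤ -1`, `u + const` on `u ≥ 0` -/
def Gp (u : ℝ) : ℝ := ∫ v in (-1 : ℝ)..u, Real.smoothTransition (v + 1)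

theorem st_cont : Continuous fun v : ℝ => Real.smoothTransition (v + 1) :=
  Real.smoothTransition.continuous.comp (by fun_prop)

theorem Gp_deriv : deriv Gp = fun u => Real.smoothTransition (u + 1) :=
  funext fun u => (st_cont.integral_hasStrictDerivAt (-1) u).hasDerivAt.deriv

theorem Gp_cd : ContDiff ℝ ∞ Gp := by
  rw [contDiff_infty_iff_deriv, Gp_deriv]
  exact ⟨fun u => (st_cont.integral_hasStrictDerivAt (-1) u).hasDerivAt.differentiableAt,
    Real.smoothTransition.contDiff.comp (by fun_prop)⟩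

theorem Gp_dd (u : ℝ) : 0 ≤ deriv (deriv Gp) u := by
  rw [Gp_deriv]
  exact Monotone.deriv_nonneg fun x y h => Real.smoothTransition.monotone (by linarith)

theorem Gp_zero {u : ℝ} (h : u ≤ -1) : Gp u = 0 := by
  rw [Gp, intervalIntegral.integral_congr (g := fun _ => 0), intervalIntegral.integral_zero]
  intro v hv
  rw [uIcc_of_ge h] at hv
  exact Real.smoothTransition.zero_of_nonpos (by linarith [hv.2])

theorem Gp_nonneg (u : ℝ) : 0 ≤ Gp u := by
  rcases le_total u (-1) with h | h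
  · rw [Gp_zero h]
  · exact intervalIntegral.integral_nonneg h fun v _ => Real.smoothTransition.nonneg _

theorem Gp_le {u : ℝ} (h : -1 ≤ u) : Gp u ≤ u + 1 := by
  have := intervalIntegral.integral_mono_on h (st_cont.intervalIntegrable (μ := volume) _ _)
    (intervalIntegrable_const (c := (1 : ℝ))) fun v _ => Real.smoothTransition.le_one _
  simpa [Gp] using this

theorem Gp_le' {u z : ℝ} (hz : 0 ≤ z) (h : u + 1 ≤ z) : Gp u ≤ z := by
  rcases le_total u (-1) with h1 | h1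
  · rwa [Gp_zero h1]
  · exact (Gp_le h1).trans h

theorem le_Gp (u : ℝ) : u ≤ Gp u := by
  rcases le_total u 0 with h | h
  · exact h.trans (Gp_nonneg u)
  · have h1 := intervalIntegral.integral_add_adjacent_intervals
      (st_cont.intervalIntegrable (μ := volume) (-1) 0) (st_cont.intervalIntegrable 0 u)
    have h2 : ∫ v in (0 : ℝ)..u, Real.smoothTransition (v + 1) = u := by
      rw [intervalIntegral.integral_congr (g := fun _ => 1)]
      · simp
      · intro v hv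
        rw [uIcc_of_le h] at hv
        exact Real.smoothTransition.one_of_one_le (by linarith [hv.1])
    have h3 : 0 ≤ ∫ v in (-1 : ℝ)..0, Real.smoothTransition (v + 1) := Gp_nonneg 0
    rw [Gp, ← h1, h2]; linarith

theorem mul_deriv_Gp (u : ℝ) : deriv Gp u * u ≤ Gp u := by
  rw [Gp_deriv]
  have h1 := Real.smoothTransition.nonneg (u + 1)
  have h2 := Real.smoothTransition.le_one (u + 1)
  rcases le_total u 0 with h | h
  · nlinarith [Gp_nonneg u]
  · nlinarith [le_Gp u]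

variable {M : Type*} [TopologicalSpace M] [CompactSpace M] [MeasurableSpace M] {H : HC M}
variable {s0 s1 lo hi del : ℝ} {b b' f f' V W W' X X' : ℝ → M → ℝ}

/-- the smooth positive part of `f - β W` is a subsolution -/
theorem sub_Gp (A : H.Alg) (hs : H.St s0 s1) {CW β : ℝ} (G : Wg H s0 s1 lo hi CW b V W W')
    (T : Tm H s0 s1 f f') (hβ : 0 ≤ β) (hV : ∀ t ∈ Icc s0 s1, ∀ x, 0 ≤ V t x)
    (hf : ∀ t ∈ Icc s0 s1, ∀ x, box H f f' t x ≤ V t x * f t x) :
    ∃ X', Tm H s0 s1 (fun t x => Gp (f t x - β * W t x)) X' ∧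
      ∀ t ∈ Icc s0 s1, ∀ x, lo ≤ b t x → b t x ≤ hi →
        box H (fun t x => Gp (f t x - β * W t x)) X' t x ≤ V t x * Gp (f t x - β * W t x) := by
  have T1 := T.sub A (G.tm.cmul A β)
  refine ⟨_, T1.comp A isOpen_univ Gp_cd.contDiffOn fun _ _ _ => mem_univ _, fun t ht x l u => ?_⟩
  rw [box_comp A hs ht x isOpen_univ Gp_cd.contDiffOn (fun _ _ _ => mem_univ _) T1,
    box_sub A hs ht x T (G.tm.cmul A β), box_cmul A hs ht x β G.tm]
  have h1 := mul_nonneg (Gp_dd (f t x - β * W t x)) (A.gam_nonneg t (hs.mem ht) (T1.fix A ht) x)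
  have h2 : box H f f' t x - β * box H W W' t x ≤ V t x * (f t x - β * W t x) := by
    nlinarith [hf t ht x, mul_le_mul_of_nonneg_left (G.sup t ht x l u) hβ]
  have h3 : 0 ≤ deriv Gp (f t x - β * W t x) := by
    rw [Gp_deriv]; exact Real.smoothTransition.nonneg _
  nlinarith [mul_le_mul_of_nonneg_left h2 h3,
    mul_le_mul_of_nonneg_left (mul_deriv_Gp (f t x - β * W t x)) (hV t ht x)]

/-- nonnegative subsolutions with a small Hardy potential -/
structure Xc (H : HC M) (s0 s1 lo hi ν : ℝ) (b X X' : ℝ → M → ℝ) : Prop where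
  tm : Tm H s0 s1 X X'
  nn : ∀ t ∈ Icc s0 s1, ∀ x, 0 ≤ X t x
  sub : ∀ t ∈ Icc s0 s1, ∀ x, lo ≤ b t x → b t x ≤ hi → box H X X' t x ≤ ν / b t x * X t x
  R : ∀ t ∈ Icc s0 s1, ∀ x, lo ≤ b t x → b t x ≤ hi → |H.R t x| ≤ ν / b t x

/-- the density of the dissipation -/
def mm (del ν : ℝ) (h : ℝ → ℝ) (y : ℝ) : ℝ :=
  ((2 - 8 * del - 3 * ν) * h y ^ 2 - (8 + 9 * del) * (y * deriv h y) ^ 2) / y

theorem cd_log : ContDiffOn ℝ ∞ Real.log (Ioi 0) :=
  Real.contDiffOn_log.mono fun _ h => ne_of_gt h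

theorem en_alg {del ν y e e1 X X1 LX R b1 Lb G gff gfL : ℝ} (hy : 0 < y) (hX : 0 ≤ X)
    (h1 : X1 - LX ≤ ν / y * X) (h2 : |R| ≤ ν / y) (h3 : |G - 4 * y| ≤ 4 * del * y)
    (h4 : |Lb - 8| ≤ del) (h5 : |b1| ≤ del)
    (h6 : 0 ≤ gff + 2 * (e * X / 2) * gfL + (e * X / 2) ^ 2 * (y⁻¹ ^ 2 * G)) :
    2 * (e * X) * (e1 * b1 * X + e * X1) - R * (e * X) ^ 2 ≤
      -(((2 - 8 * del - 3 * ν) * e ^ 2 - (8 + 9 * del) * (y * e1) ^ 2) / y * X ^ 2) +
        (2 * (e * (e * X) * LX + (gff - X ^ 2 * (e1 ^ 2 * G))) +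
          ((e * X) ^ 2 * (y⁻¹ * Lb + -(y ^ 2)⁻¹ * G) + 2 * (e * X) * gfL)) := by
  obtain ⟨z, hz, rfl⟩ : ∃ z, 0 < z ∧ y = z⁻¹ := ⟨y⁻¹, inv_pos.2 hy, (inv_inv y).symm⟩
  have hd : 0 ≤ del := (abs_nonneg _).trans h4
  rw [abs_le] at h2 h3 h4 h5
  simp only [div_inv_eq_mul, inv_inv, inv_pow] at *
  set p := z⁻¹ * e1 with hp
  have e1' : e1 = z * p := by rw [hp]; field_simp
  set g := z * G with hg
  have g1 : g ≤ 4 + 4 * del := by
    have := mul_le_mul_of_nonneg_left h3.2 hz.le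
    have e : z * z⁻¹ = 1 := mul_inv_cancel₀ hz.ne'
    nlinarith
  have eG : G = z⁻¹ * g := by rw [hg]; field_simp
  have a1 : 2 * (e * X) * (e * X1) ≤ 2 * (e * (e * X) * LX) + 2 * ν * (z * (e * X) ^ 2) := by
    nlinarith [mul_le_mul_of_nonneg_left h1 (mul_nonneg (sq_nonneg e) hX)]
  have a2 : -(R * (e * X) ^ 2) ≤ ν * (z * (e * X) ^ 2) := by
    nlinarith [mul_le_mul_of_nonneg_right h2.1 (sq_nonneg (e * X))]
  have a3 : 2 * (e * X) * (e1 * b1 * X) ≤ del * (z * (e * X) ^ 2) + del * (z * (p * X) ^ 2) := by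
    have b1' : 2 * (e * X) * (p * X) * b1 ≤ del * ((e * X) ^ 2 + (p * X) ^ 2) := by
      nlinarith [mul_nonneg (sub_nonneg.2 h5.2) (sq_nonneg (e * X + p * X)),
        mul_nonneg (show 0 ≤ b1 + del by linarith [h5.1]) (sq_nonneg (e * X - p * X))]
    rw [e1']
    nlinarith [mul_le_mul_of_nonneg_left b1' hz.le]
  have w0 : 0 ≤ z * (e * X) ^ 2 := by positivity
  have w1 : 0 ≤ z * (p * X) ^ 2 := by positivity
  have a4 : X ^ 2 * (e1 ^ 2 * G) = g * (z * (p * X) ^ 2) := by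
    rw [e1', eG]; field_simp
  have a5 : (e * X) ^ 2 * (z * Lb + -z ^ 2 * G) = (Lb - g) * (z * (e * X) ^ 2) := by
    rw [hg]; ring
  have a6 : (e * X / 2) ^ 2 * (z ^ 2 * G) = g / 4 * (z * (e * X) ^ 2) := by
    rw [hg]; ring
  have a7 : ((2 - 8 * del - 3 * ν) * e ^ 2 - (8 + 9 * del) * p ^ 2) * z * X ^ 2 =
      (2 - 8 * del - 3 * ν) * (z * (e * X) ^ 2) - (8 + 9 * del) * (z * (p * X) ^ 2) := by ring
  rw [a6] at h6
  rw [a4, a5, a7]
  nlinarith [mul_le_mul_of_nonneg_right g1 w0, mul_le_mul_of_nonneg_right g1 w1,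
    mul_le_mul_of_nonneg_right h4.1 w0]

variable [OpensMeasurableSpace M]

/-- the derivative of the weighted energy -/
theorem en_deriv (A : H.Alg) (I : H.Intg) (N : Nk H s0 s1 lo hi del b b') {ν : ℝ}
    (C : Xc H s0 s1 lo hi ν b X X') {h : ℝ → ℝ} (hh : ContDiffOn ℝ ∞ h (Ioi 0))
    (hv : ∀ y, 0 < y → (y < lo ∨ hi < y) → h y = 0 ∧ deriv h y = 0) {t : ℝ} (ht : t ∈ Icc s0 s1) :
    ∃ D, HasDerivWithinAt (fun s => ∫ x, (h (b s x) * X s x) ^ 2 ∂H.vol s) D (Icc s0 s1) t ∧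
      D ≤ -∫ x, mm del ν h (b t x) * X t x ^ 2 ∂H.vol t := by
  have hm := N.st.mem ht
  have Tη := N.tm.comp A isOpen_Ioi hh N.pos
  have Tf := Tη.mul A C.tm
  have T2 := Tf.mul A Tf
  have hD := I.int_dt N.st T2.sm T2.dt t ht
  simp only [← sq] at hD
  refine ⟨_, hD, ?_⟩
  have sb := N.tm.fix A ht
  have sη := Tη.fix A ht
  have sX := C.tm.fix A ht
  have sf := Tf.fix A ht
  have sL := A.s0_log sb (N.pos t ht)
  have sd : H.S0 fun x => deriv h (b t x) :=
    A.s0_comp isOpen_Ioi (hh.deriv_of_isOpen isOpen_Ioi (by simp)) (N.pos t ht) sb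
  have sm : H.S0 fun x => mm del ν h (b t x) * X t x ^ 2 :=
    A.s0_mul (A.s0_div (A.s0_sub (A.s0_cmul _ (A.s0_pow 2 sη))
      (A.s0_cmul _ (A.s0_pow 2 (A.s0_mul sb sd)))) sb (N.pos t ht)) (A.s0_pow 2 sX)
  have i1 := I.ibp t hm (A.s0_mul sη sf) sX
  have i2 := I.ibp t hm (A.s0_mul sf sf) sL
  have j1 := A.integrable I hm (A.s0_mul (A.s0_mul sη sf) (A.s0_lap hm sX))
  have j2 := A.integrable I hm (A.s0_gam hm (A.s0_mul sη sf) sX)
  have j3 := A.integrable I hm (A.s0_mul (A.s0_mul sf sf) (A.s0_lap hm sL))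
  have j4 := A.integrable I hm (A.s0_gam hm (A.s0_mul sf sf) sL)
  have j5 := A.integrable I hm sm
  have j6 := A.integrable I hm (A.s0_sub (A.sm_s0 (A.sm_of_dt N.st.2.1 T2.sm T2.dt) t ht)
    (A.s0_mul (A.s0_R hm) (A.s0_pow 2 sf)))
  have key := integral_mono j6 (j5.neg.add (((j1.add j2).const_mul 2).add (j3.add j4))) fun x => by
    simp only [Pi.add_apply, Pi.neg_apply]
    have hb := N.pos t ht x
    have e1 := A.gam_mul t hm sη sf sX x
    have e2 := A.gam_mul t hm sf sf sL x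
    by_cases hr : lo ≤ b t x ∧ b t x ≤ hi
    · have e3 := A.gam_mul t hm sη sX sf x
      have e4 := A.gam_mul' hm sη sX sη x
      have e5 := A.gam_comp2 hm isOpen_Ioi hh (N.pos t ht) sb x
      have e6 := A.gam_comp2 hm isOpen_Ioi cd_log (N.pos t ht) sb x
      have e7 := A.lap_comp t hm isOpen_Ioi cd_log (N.pos t ht) sb x
      rw [Real.deriv_log', deriv_inv] at e7
      rw [Real.deriv_log] at e6
      have e8 := A.gam_symm t hm sX sf x
      have q := A.gam_quad hm sf sL (h (b t x) * X t x / 2) x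
      rw [e6] at q
      have r := en_alg (e1 := deriv h (b t x)) hb (C.nn t ht x) (C.sub t ht x hr.1 hr.2)
        (C.R t ht x hr.1 hr.2) (N.gam t ht x hr.1 hr.2) (N.lap t ht x hr.1 hr.2)
        (N.dtb t ht x hr.1 hr.2) q
      rw [e1, e2, e7, mm]
      rw [e3, e4, e5, e8] at r
      linarith
    · have hz := hv _ hb (by rw [not_and_or, not_le, not_le] at hr; exact hr)
      rw [e1, e2, mm]
      simp [hz.1, hz.2]
  rw [integral_add' j5.neg (((j1.add j2).const_mul 2).add (j3.add j4)),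
    integral_add' ((j1.add j2).const_mul 2) (j3.add j4), integral_const_mul, integral_add' j1 j2,
    integral_add' j3 j4, i1, i2] at key
  simp only [Pi.neg_apply, integral_neg] at key
  linarith

/-- the integrated weighted energy inequality -/
theorem en_int (A : H.Alg) (I : H.Intg) (N : Nk H s0 s1 lo hi del b b') {ν : ℝ}
    (C : Xc H s0 s1 lo hi ν b X X') {h : ℝ → ℝ} (hh : ContDiffOn ℝ ∞ h (Ioi 0))
    (hv : ∀ y, 0 < y → (y < lo ∨ hi < y) → h y = 0 ∧ deriv h y = 0) {P : ℝ → ℝ}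
    (hP : IntegrableOn P (Icc s0 s1))
    (hP1 : ∀ t ∈ Icc s0 s1, P t ≤ ∫ x, mm del ν h (b t x) * X t x ^ 2 ∂H.vol t) :
    ∫ t in s0..s1, P t ≤ ∫ x, (h (b s0 x) * X s0 x) ^ 2 ∂H.vol s0 := by
  choose! D hD1 hD2 using fun t (ht : t ∈ Icc s0 s1) => en_deriv A I N C hh hv ht
  have h1 := intervalIntegral.sub_le_integral_of_hasDeriv_right_of_le N.st.2.1.le
    (fun t ht => (hD1 t ht).continuousWithinAt)
    (fun t ht => ((hD1 t (Ioo_subset_Icc_self ht)).hasDerivAt
      (Icc_mem_nhds ht.1 ht.2)).hasDerivWithinAt) hP.neg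
    fun t ht => (hD2 t (Ioo_subset_Icc_self ht)).trans
      (neg_le_neg (hP1 t (Ioo_subset_Icc_self ht)))
  have h2 : 0 ≤ ∫ x, (h (b s1 x) * X s1 x) ^ 2 ∂H.vol s1 := integral_nonneg fun x => sq_nonneg _
  simp only [Pi.neg_apply, intervalIntegral.integral_neg] at h1
  linarith

end Crest.Agent.N207.NP

end
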