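import Crest.Agent.N207.NP.St
import Crest.Agent.N207.NP.En

/-!
# Row 207, block P (helper85): annulus integrals, the master inequality, the initial term
-/

set_option autoImplicit false
set_option linter.dupNamespace false
set_option linter.unusedSectionVars false
open Set MeasureTheory Filter Topology
open scoped ContDiff

noncomputable section

namespace Crest.Agent.N207.NP

/-- indicator of `[l,u]` -/
def ind (l u y : ℝ) : ℝ := if l ≤ y ∧ y ≤ u then 1 else 0

theorem ind_one {l u y : ℝ} (h1 : l ≤ y) (h2 : y ≤ u) : ind l u y = 1 := if_pos ⟨h1, h2⟩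

theorem ind_lt {l u y : ℝ} (h : y < l) : ind l u y = 0 := if_neg fun a => absurd a.1 (not_le.2 h)

theorem ind_gt {l u y : ℝ} (h : u < y) : ind l u y = 0 := if_neg fun a => absurd a.2 (not_le.2 h)

theorem ind_nn (l u y : ℝ) : 0 ≤ ind l u y := by unfold ind; split_ifs <;> norm_num

theorem ind_le (l u y : ℝ) : ind l u y ≤ 1 := by unfold ind; split_ifs <;> norm_num

local notation "st" => Real.smoothTransition

theorem st_d0 {s : ℝ} (h : s ≤ 0) : deriv st s = 0 :=
  IsLocalMin.deriv_eq_zero (Eventually.of_forall fun y => by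
    rw [Real.smoothTransition.zero_of_nonpos h]; exact Real.smoothTransition.nonneg y)

theorem st_d1 {s : ℝ} (h : 1 ≤ s) : deriv st s = 0 :=
  IsLocalMax.deriv_eq_zero (Eventually.of_forall fun y => by
    rw [Real.smoothTransition.one_of_one_le h]; exact Real.smoothTransition.le_one y)

theorem st_cd : ContDiff ℝ ∞ st := Real.smoothTransition.contDiff

theorem st_bd : ∃ K, 0 ≤ K ∧ ∀ s ∈ Icc (0 : ℝ) 1, |deriv st s| ≤ K := by
  obtain ⟨K, hK⟩ := (isCompact_Icc (a := (0 : ℝ)) (b := 1)).exists_bound_of_continuousOn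
    (st_cd.continuous_deriv (by simp)).continuousOn
  exact ⟨max K 0, le_max_right _ _, fun s hs => (hK s hs).trans (le_max_left _ _)⟩

/-- the cut-off profile -/
def hp (B0 hi : ℝ) (g : ℝ → ℝ) (y : ℝ) : ℝ := st (y / B0 - 1) * st (2 - 2 * y / hi) * g y

theorem hp_cd {B0 hi : ℝ} {g : ℝ → ℝ} (hg : ContDiffOn ℝ ∞ g (Ioi 0)) :
    ContDiffOn ℝ ∞ (hp B0 hi g) (Ioi 0) :=
  (((st_cd.comp (by fun_prop)).mul (st_cd.comp (by fun_prop))).contDiffOn).mul hg

theorem hp_deriv {B0 hi y : ℝ} {g : ℝ → ℝ} (hg : ContDiffOn ℝ ∞ g (Ioi 0)) (hy : 0 < y) :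
    deriv (hp B0 hi g) y = (deriv st (y / B0 - 1) * (1 / B0) * st (2 - 2 * y / hi) +
      st (y / B0 - 1) * (deriv st (2 - 2 * y / hi) * (-(2 / hi)))) * g y +
      st (y / B0 - 1) * st (2 - 2 * y / hi) * deriv g y := by
  have d := fun s => (st_cd.differentiable (by simp) s).hasDerivAt
  have h1 : HasDerivAt (fun y => y / B0 - 1) (1 / B0) y :=
    ((hasDerivAt_id y).div_const B0).sub_const 1
  have h2 : HasDerivAt (fun y => 2 - 2 * y / hi) (-(2 / hi)) y := by
    simpa using (((hasDerivAt_id y).const_mul 2).div_const hi).const_sub 2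
  have h3 := ((hg.contDiffAt (Ioi_mem_nhds hy)).differentiableAt (by simp)).hasDerivAt
  exact ((((d _).comp y h1).mul ((d _).comp y h2)).mul h3).deriv

theorem hp_out {B0 hi y : ℝ} {g : ℝ → ℝ} (hg : ContDiffOn ℝ ∞ g (Ioi 0)) (hB : 0 < B0)
    (hh : 0 < hi) (hy : 0 < y) (h : y ≤ B0 ∨ hi ≤ y) :
    hp B0 hi g y = 0 ∧ deriv (hp B0 hi g) y = 0 := by
  rw [hp_deriv hg hy, hp]
  rcases h with h | h
  · have : y / B0 - 1 ≤ 0 := by rw [sub_nonpos, div_le_one hB]; exact h
    simp [st_d0 this, Real.smoothTransition.zero_of_nonpos this]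
  · have : 2 - 2 * y / hi ≤ 0 := by rw [sub_nonpos, le_div_iff₀ hh]; linarith
    simp [st_d0 this, Real.smoothTransition.zero_of_nonpos this]

/-- the pointwise lower bound for the dissipation -/
theorem mm_ge : ∃ C0, 0 < C0 ∧ ∀ {B0 hi del ν σ y X : ℝ} {g : ℝ → ℝ},
    ContDiffOn ℝ ∞ g (Ioi 0) → 0 < B0 → 0 < hi → 0 < y → 0 ≤ del → del ≤ 1 / 50 → σ ^ 2 ≤ 1 →
    0 ≤ 2 - 8 * del - 3 * ν → (y * deriv g y) ^ 2 ≤ σ ^ 2 / 4 * g y ^ 2 →
    (y ≤ 2 * B0 → g y ^ 2 ≤ 2) → (hi / 2 ≤ y → y ≤ hi → X = 0) →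
    (2 - 8 * del - 3 * ν - (2 + 9 / 4 * del) * σ ^ 2) * (ind (2 * B0) hi y * (g y ^ 2 / y * X ^ 2)) -
      C0 / B0 * (ind B0 (2 * B0) y * X ^ 2) ≤ mm del ν (hp B0 hi g) y * X ^ 2 := by
  obtain ⟨K, hK, hK1⟩ := st_bd
  refine ⟨9 * (16 * K ^ 2 + 1), by positivity, ?_⟩
  intro B0 hi del ν σ y X g hg hB hh hy hd hd1 hσ hν hder hup hX
  have p2 : 0 ≤ 9 * (16 * K ^ 2 + 1) / B0 * (ind B0 (2 * B0) y * X ^ 2) :=
    mul_nonneg (by positivity) (mul_nonneg (ind_nn _ _ _) (sq_nonneg _))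
  by_cases c1 : hi / 2 ≤ y ∧ y ≤ hi
  · simp [hX c1.1 c1.2]
  rcases lt_or_ge hi y with c2 | c2
  · have := hp_out hg hB hh hy (Or.inr c2.le)
    rw [ind_gt c2, mm, this.1, this.2]; simp only [zero_mul, mul_zero]; norm_num; linarith
  have c3 : y < hi / 2 := by by_contra h; exact c1 ⟨not_lt.1 h, c2⟩
  have e1 : 1 ≤ 2 - 2 * y / hi := by
    rw [le_sub_iff_add_le, ← le_sub_iff_add_le', div_le_iff₀ hh]; linarith
  rcases le_or_gt y B0 with c4 | c4
  · have := hp_out hg hB hh hy (Or.inl c4)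
    rw [ind_lt (show y < 2 * B0 by linarith), mm, this.1, this.2]
    simp only [zero_mul, mul_zero]; norm_num; linarith
  rw [mm, hp_deriv hg hy, hp, st_d1 e1, Real.smoothTransition.one_of_one_le e1]
  rcases lt_or_ge y (2 * B0) with c5 | c5
  · rw [ind_lt c5, ind_one c4.le c5.le]
    have m1 : y / B0 - 1 ∈ Icc (0 : ℝ) 1 := by
      constructor
      · rw [sub_nonneg, le_div_iff₀ hB]; linarith
      · rw [sub_le_iff_le_add, div_le_iff₀ hB]; linarith
    have a1 := hK1 _ m1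
    have a2 := Real.smoothTransition.nonneg (y / B0 - 1)
    have a3 := Real.smoothTransition.le_one (y / B0 - 1)
    have a4 := hup c5.le
    set d := deriv st (y / B0 - 1)
    set θ := st (y / B0 - 1)
    have a5 : d ^ 2 ≤ K ^ 2 := by rw [← sq_abs]; exact pow_le_pow_left₀ (abs_nonneg _) a1 2
    have a6 : (y / B0) ^ 2 ≤ 4 := by nlinarith [m1.1, m1.2]
    have a7 : (y / B0 * d * g y) ^ 2 ≤ 8 * K ^ 2 := by
      rw [mul_pow, mul_pow]
      calc _ ≤ 4 * K ^ 2 * 2 := by gcongr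
        _ = _ := by ring
    have a8 : (θ * (y * deriv g y)) ^ 2 ≤ 1 / 2 := by
      rw [mul_pow]
      have : θ ^ 2 ≤ 1 := by nlinarith
      have h9 : (y * deriv g y) ^ 2 ≤ 1 / 2 := by nlinarith [sq_nonneg σ, sq_nonneg (g y)]
      nlinarith [sq_nonneg (y * deriv g y)]
    have e2 : y * ((d * (1 / B0) * 1 + θ * (0 * -(2 / hi))) * g y + θ * 1 * deriv g y) =
        y / B0 * d * g y + θ * (y * deriv g y) := by ring
    rw [e2]
    have a9 : (y / B0 * d * g y + θ * (y * deriv g y)) ^ 2 ≤ 16 * K ^ 2 + 1 := by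
      nlinarith [sq_nonneg (y / B0 * d * g y - θ * (y * deriv g y))]
    have a10 : -(9 * (16 * K ^ 2 + 1) / B0) ≤ ((2 - 8 * del - 3 * ν) * (θ * 1 * g y) ^ 2 -
        (8 + 9 * del) * (y / B0 * d * g y + θ * (y * deriv g y)) ^ 2) / y := by
      rw [le_div_iff₀ hy]
      have b1 : 9 * (16 * K ^ 2 + 1) ≤ 9 * (16 * K ^ 2 + 1) / B0 * y := by
        rw [div_mul_eq_mul_div, le_div_iff₀ hB]
        exact mul_le_mul_of_nonneg_left c4.le (by positivity)
      nlinarith [mul_nonneg hν (sq_nonneg (θ * 1 * g y)),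
        sq_nonneg (y / B0 * d * g y + θ * (y * deriv g y))]
    nlinarith [mul_le_mul_of_nonneg_right a10 (sq_nonneg X)]
  · have e2 : 1 ≤ y / B0 - 1 := by rw [le_sub_iff_add_le, le_div_iff₀ hB]; linarith
    rw [ind_one c5 c2, st_d1 e2, Real.smoothTransition.one_of_one_le e2]
    have a1 : (2 - 8 * del - 3 * ν - (2 + 9 / 4 * del) * σ ^ 2) * g y ^ 2 ≤
        (2 - 8 * del - 3 * ν) * (1 * 1 * g y) ^ 2 - (8 + 9 * del) *
          (y * ((0 * (1 / B0) * 1 + 1 * (0 * -(2 / hi))) * g y + 1 * 1 * deriv g y)) ^ 2 := by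
      have := mul_le_mul_of_nonneg_left hder (show 0 ≤ 8 + 9 * del by linarith)
      simp only [zero_mul, mul_zero, add_zero, one_mul, zero_add]
      nlinarith
    have a2 := mul_le_mul_of_nonneg_right (div_le_div_of_nonneg_right a1 hy.le) (sq_nonneg X)
    have e3 : ∀ c : ℝ, c * (1 * (g y ^ 2 / y * X ^ 2)) = c * g y ^ 2 / y * X ^ 2 := fun c => by ring
    rw [e3]; linarith

variable {M : Type*} [TopologicalSpace M] [CompactSpace M] [MeasurableSpace M]
  [OpensMeasurableSpace M] {H : HC M}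
variable {s0 s1 lo hi del t l u : ℝ} {b b' f g X X' : ℝ → M → ℝ}

theorem ms_set (hb : Continuous (b t)) (l u : ℝ) : MeasurableSet {x | l ≤ b t x ∧ b t x ≤ u} :=
  (isClosed_Icc.preimage hb).measurableSet

theorem ind_eq (l u : ℝ) (f : M → ℝ) : (fun x => ind l u (b t x) * f x) =
    {x | l ≤ b t x ∧ b t x ≤ u}.indicator f := by
  funext x
  by_cases h : l ≤ b t x ∧ b t x ≤ u
  · rw [ind_one h.1 h.2, indicator_of_mem (by exact h), one_mul]
  · rw [ind, if_neg h, indicator_of_notMem (by exact h), zero_mul]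

theorem an_eq (hb : Continuous (b t)) :
    An H b f l u t = ∫ x, ind l u (b t x) * f t x ∂H.vol t := by
  rw [ind_eq, integral_indicator (ms_set hb l u), An]

theorem ind_int {μ : Measure M} {f : M → ℝ} (hb : Continuous (b t)) (hf : Integrable f μ)
    (l u : ℝ) : Integrable (fun x => ind l u (b t x) * f x) μ := by
  rw [ind_eq]; exact hf.indicator (ms_set hb l u)

theorem an_nn (hf : ∀ x, 0 ≤ f t x) : 0 ≤ An H b f l u t := integral_nonneg hf

theorem an_one (l u : ℝ) : An H b (fun _ _ => 1) l u t =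
    (H.vol t).real {x | l ≤ b t x ∧ b t x ≤ u} := by simp [An]

variable (A : H.Alg) (I : H.Intg)
include A I

theorem an_int (hs : H.St s0 s1) (hb : H.Sm s0 s1 b) (hf : H.Sm s0 s1 f) (l u : ℝ) :
    IntegrableOn (An H b f l u) (Icc s0 s1) := by
  set χ : ℕ → ℝ → ℝ := fun k y => st (k * (y - l) + 1) * st (k * (u - y) + 1) with hχ
  have c1 : ∀ k, ContDiff ℝ ∞ (χ k) := fun k =>
    (st_cd.comp (by fun_prop)).mul (st_cd.comp (by fun_prop))
  have c2 : ∀ k y, |χ k y| ≤ 1 := fun k y => by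
    rw [abs_of_nonneg (mul_nonneg (Real.smoothTransition.nonneg _) (Real.smoothTransition.nonneg _))]
    exact mul_le_one₀ (Real.smoothTransition.le_one _) (Real.smoothTransition.nonneg _)
      (Real.smoothTransition.le_one _)
  have c0 : ∀ z : ℝ, z < 0 → ∀ᶠ k : ℕ in atTop, st (k * z + 1) = 0 := fun z hz => by
    filter_upwards [(tendsto_natCast_atTop_atTop (R := ℝ)).eventually_ge_atTop (1 / -z)] with k hk
    rw [div_le_iff₀ (by linarith)] at hk
    exact Real.smoothTransition.zero_of_nonpos (by linarith)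
  have c3 : ∀ y, Tendsto (fun k => χ k y) atTop (𝓝 (ind l u y)) := fun y => by
    refine tendsto_const_nhds.congr' ?_
    rcases lt_or_ge y l with h1 | h1
    · filter_upwards [c0 (y - l) (by linarith)] with k hk
      simp [hχ, hk, ind_lt h1]
    rcases lt_or_ge u y with h2 | h2
    · filter_upwards [c0 (u - y) (by linarith)] with k hk
      simp [hχ, hk, ind_gt h2]
    refine Eventually.of_forall fun k => ?_
    have k0 : (0 : ℝ) ≤ k := k.cast_nonneg
    simp only [hχ]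
    rw [ind_one h1 h2, Real.smoothTransition.one_of_one_le (by nlinarith),
      Real.smoothTransition.one_of_one_le (by nlinarith), one_mul]
  have hm : AEStronglyMeasurable (An H b f l u) (volume.restrict (Icc s0 s1)) := by
    refine aestronglyMeasurable_of_tendsto_ae atTop
      (f := fun k t => ∫ x, χ k (b t x) * f t x ∂H.vol t)
      (fun k => (A.int_cont I hs (A.sm_mul (A.sm_compU (c1 k) hb) hf)).aestronglyMeasurable
        measurableSet_Icc) ?_
    filter_upwards [ae_restrict_mem measurableSet_Icc] with t ht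
    have sb := A.sm_s0 hb t ht
    have sf := A.sm_s0 hf t ht
    rw [an_eq (A.s0_cont sb)]
    refine tendsto_integral_of_dominated_convergence (fun x => |f t x|)
      (fun k => (A.integrable I (hs.mem ht) (A.s0_mul (A.s0_compU (c1 k) sb) sf)).1)
      (A.integrable I (hs.mem ht) sf).abs (fun k => Eventually.of_forall fun x => ?_)
      (Eventually.of_forall fun x => (c3 _).mul_const _)
    rw [Real.norm_eq_abs, abs_mul]
    exact mul_le_of_le_one_left (abs_nonneg _) (c2 k _)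
  have s2 := A.sm_add (A.sm_pow 2 hf) (A.sm_const 1)
  refine Integrable.mono' ((A.int_cont I hs s2).integrableOn_Icc) hm ?_
  filter_upwards [ae_restrict_mem measurableSet_Icc] with t ht
  have sb := A.sm_s0 hb t ht
  rw [an_eq (A.s0_cont sb)]
  refine norm_integral_le_of_norm_le (A.integrable I (hs.mem ht) (A.sm_s0 s2 t ht))
    (Eventually.of_forall fun x => ?_)
  rw [Real.norm_eq_abs, abs_mul, abs_of_nonneg (ind_nn _ _ _)]
  have := mul_le_of_le_one_left (abs_nonneg (f t x)) (ind_le l u (b t x))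
  nlinarith [sq_abs (f t x), sq_nonneg (|f t x| - 1), abs_nonneg (f t x)]

theorem an_ii (hs : H.St s0 s1) (hb : H.Sm s0 s1 b) (hf : H.Sm s0 s1 f) (l u : ℝ) :
    IntervalIntegrable (An H b f l u) volume s0 s1 :=
  (intervalIntegrable_iff_integrableOn_Icc_of_le hs.2.1.le).2 (an_int A I hs hb hf l u)

/-- monotonicity in the region and in the integrand -/
theorem an_mono (ht : t ∈ Ioo 0 H.T) (hb : H.S0 (b t)) (hf : H.S0 (f t)) (hg : H.S0 (g t))
    {l' u' : ℝ} (h0 : ∀ x, 0 ≤ g t x)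
    (h : ∀ x, l ≤ b t x → b t x ≤ u → f t x ≤ 0 ∨ (l' ≤ b t x ∧ b t x ≤ u' ∧ f t x ≤ g t x)) :
    An H b f l u t ≤ An H b g l' u' t := by
  have cb := A.s0_cont hb
  rw [an_eq cb, an_eq cb]
  refine integral_mono (ind_int cb (A.integrable I ht hf) _ _)
    (ind_int cb (A.integrable I ht hg) _ _) fun x => ?_
  have p := mul_nonneg (ind_nn l' u' (b t x)) (h0 x)
  by_cases hx : l ≤ b t x ∧ b t x ≤ u
  · rcases h x hx.1 hx.2 with h1 | h1
    · simp only [ind_one hx.1 hx.2]; linarith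
    · simp only [ind_one hx.1 hx.2, ind_one h1.1 h1.2.1]; linarith [h1.2.2]
  · simp only [ind, if_neg hx, zero_mul]; exact p

/-- the master inequality -/
theorem master : ∃ C0, 0 < C0 ∧ ∀ {s0 s1 lo hi del ν σ B0 : ℝ} {b b' X X' : ℝ → M → ℝ} {g : ℝ → ℝ},
    Nk H s0 s1 lo hi del b b' → Xc H s0 s1 lo hi ν b X X' → ContDiffOn ℝ ∞ g (Ioi 0) →
    0 < B0 → lo ≤ B0 → 0 < hi → 0 ≤ del → del ≤ 1 / 50 → σ ^ 2 ≤ 1 → 0 ≤ 2 - 8 * del - 3 * ν →
    (∀ y, 0 < y → (y * deriv g y) ^ 2 ≤ σ ^ 2 / 4 * g y ^ 2) →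
    (∀ y, 0 < y → y ≤ 2 * B0 → g y ^ 2 ≤ 2) →
    (∀ t ∈ Icc s0 s1, ∀ x, hi / 2 ≤ b t x → b t x ≤ hi → X t x = 0) →
    (2 - 8 * del - 3 * ν - (2 + 9 / 4 * del) * σ ^ 2) *
        ∫ t in s0..s1, An H b (fun t x => g (b t x) ^ 2 / b t x * X t x ^ 2) (2 * B0) hi t ≤
      An H b (fun t x => g (b t x) ^ 2 * X t x ^ 2) B0 hi s0 +
        C0 / B0 * ∫ t in s0..s1, An H b (fun t x => X t x ^ 2) B0 (2 * B0) t := by
  obtain ⟨C0, hC, hm⟩ := mm_ge
  refine ⟨C0, hC, ?_⟩
  intro s0 s1 lo hi del ν σ B0 b b' X X' g N C hg hB hlo hh hd hd1 hσ hν hder hup hX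
  have sg := A.sm_pow 2 (A.sm_comp isOpen_Ioi hg N.pos N.sm)
  have sX := A.sm_pow 2 C.tm.sm
  have s1' := A.sm_mul (A.sm_div sg N.sm N.pos) sX
  have i1 := an_int A I N.st N.sm s1' (2 * B0) hi
  have i2 := an_int A I N.st N.sm sX B0 (2 * B0)
  have h1 := en_int A I N C (hp_cd hg) (h := hp B0 hi g)
    (fun y hy h => hp_out hg hB hh hy (h.imp (fun a => by linarith) le_of_lt))
    ((i1.const_mul (2 - 8 * del - 3 * ν - (2 + 9 / 4 * del) * σ ^ 2)).sub (i2.const_mul (C0 / B0)))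
    fun t ht => by
      have hm' := N.st.mem ht
      have cb := A.s0_cont (N.tm.fix A ht)
      have j1 := ind_int cb (A.integrable I hm' (A.sm_s0 s1' t ht)) (2 * B0) hi
      have j2 := ind_int cb (A.integrable I hm' (A.sm_s0 sX t ht)) B0 (2 * B0)
      simp only [Pi.sub_apply]
      rw [an_eq cb, an_eq cb, ← integral_const_mul, ← integral_const_mul,
        ← integral_sub (j1.const_mul _) (j2.const_mul _)]
      have sb := N.tm.fix A ht
      have sd : H.S0 fun x => deriv (hp B0 hi g) (b t x) := A.s0_comp isOpen_Ioi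
        ((hp_cd hg).deriv_of_isOpen isOpen_Ioi (by simp)) (N.pos t ht) sb
      have sη := A.s0_comp isOpen_Ioi (hp_cd (B0 := B0) (hi := hi) hg) (N.pos t ht) sb
      have sm : H.S0 fun x => mm del ν (hp B0 hi g) (b t x) * X t x ^ 2 :=
        A.s0_mul (A.s0_div (A.s0_sub (A.s0_cmul _ (A.s0_pow 2 sη))
          (A.s0_cmul _ (A.s0_pow 2 (A.s0_mul sb sd)))) sb (N.pos t ht)) (A.sm_s0 sX t ht)
      exact integral_mono ((j1.const_mul _).sub (j2.const_mul _)) (A.integrable I hm' sm) fun x =>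
        hm hg hB hh (N.pos t ht x) hd hd1 hσ hν (hder _ (N.pos t ht x)) (hup _ (N.pos t ht x))
          (hX t ht x)
  simp only [Pi.sub_apply] at h1
  rw [intervalIntegral.integral_sub ((an_ii A I N.st N.sm s1' _ _).const_mul _)
    ((an_ii A I N.st N.sm sX _ _).const_mul _), intervalIntegral.integral_const_mul,
    intervalIntegral.integral_const_mul] at h1
  have h0 : s0 ∈ Icc s0 s1 := ⟨le_rfl, N.st.2.1.le⟩
  have h2 : ∫ x, (hp B0 hi g (b s0 x) * X s0 x) ^ 2 ∂H.vol s0 ≤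
      An H b (fun t x => g (b t x) ^ 2 * X t x ^ 2) B0 hi s0 := by
    have sb := N.tm.fix A h0
    have cb := A.s0_cont sb
    rw [an_eq cb]
    refine integral_mono (A.integrable I (N.st.mem h0) (A.s0_pow 2 (A.s0_mul
      (A.s0_comp isOpen_Ioi (hp_cd hg) (N.pos _ h0) sb) (C.tm.fix A h0))))
      (ind_int cb (A.integrable I (N.st.mem h0) (A.sm_s0 (A.sm_mul sg sX) _ h0)) _ _) fun x => ?_
    by_cases hx : B0 ≤ b s0 x ∧ b s0 x ≤ hi
    · simp only [ind_one hx.1 hx.2, hp, mul_pow, one_mul]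
      have a1 : st (b s0 x / B0 - 1) ^ 2 ≤ 1 :=
        pow_le_one₀ (Real.smoothTransition.nonneg _) (Real.smoothTransition.le_one _)
      have a2 : st (2 - 2 * b s0 x / hi) ^ 2 ≤ 1 :=
        pow_le_one₀ (Real.smoothTransition.nonneg _) (Real.smoothTransition.le_one _)
      have a3 := mul_le_one₀ a1 (sq_nonneg _) a2
      rw [mul_assoc]
      exact mul_le_of_le_one_left (by positivity) a3
    · rw [not_and_or, not_le, not_le] at hx
      have := (hp_out hg hB hh (N.pos _ h0 x) (hx.imp le_of_lt le_of_lt)).1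
      simp only [this, zero_mul]
      have := mul_nonneg (ind_nn B0 hi (b s0 x))
        (mul_nonneg (sq_nonneg (g (b s0 x))) (sq_nonneg (X s0 x)))
      simpa using this
  linarith

/-- the initial term -/
theorem an_init (ht : t ∈ Ioo 0 H.T) (hb : H.S0 (b t)) (hf : H.S0 (f t)) {B0 D Cv : ℝ}
    (hB : 0 < B0) (hlo : lo ≤ B0) (hD : 0 ≤ D) (hCv : 0 ≤ Cv) (h0 : 0 ≤ hi)
    (hv : ∀ β ≤ hi, (H.vol t).real {x | lo ≤ b t x ∧ b t x ≤ β} ≤ Cv * β ^ 2)
    (h : ∀ x, B0 ≤ b t x → b t x ≤ hi → f t x ≤ D * (b t x / B0) ^ (-(9 / 4) : ℝ)) :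
    An H b f B0 hi t ≤ 512 * Cv * D * B0 ^ 2 := by
  obtain ⟨J, hJ⟩ := pow_unbounded_of_one_lt (hi / B0) (show (1 : ℝ) < 16 by norm_num)
  have cb := A.s0_cont hb
  have j1 : ∀ j : ℕ, Integrable
      (fun x => D / 512 ^ j * (ind lo (min (16 ^ (j + 1) * B0) hi) (b t x) * 1)) (H.vol t) :=
    fun j => (ind_int cb (A.integrable I ht (A.s0_const 1)) _ _).const_mul _
  rw [an_eq cb]
  refine (integral_mono (ind_int cb (A.integrable I ht hf) _ _)
    (integrable_finsetSum (Finset.range J) fun j _ => j1 j) fun x => ?_).trans ?_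
  · have p : ∀ j ∈ Finset.range J,
        0 ≤ D / 512 ^ j * (ind lo (min (16 ^ (j + 1) * B0) hi) (b t x) * 1) := fun j _ =>
      mul_nonneg (by positivity) (mul_nonneg (ind_nn _ _ _) zero_le_one)
    by_cases hx : B0 ≤ b t x ∧ b t x ≤ hi
    · have y1 : 1 ≤ b t x / B0 := (one_le_div hB).2 hx.1
      obtain ⟨j, k1, k2⟩ := exists_nat_pow_near y1 (show (1 : ℝ) < 16 by norm_num)
      have k3 : j < J := (pow_lt_pow_iff_right₀ (show (1 : ℝ) < 16 by norm_num)).1
        (k1.trans_lt ((div_le_div_of_nonneg_right hx.2 hB.le).trans_lt hJ))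
      refine le_trans ?_ (Finset.single_le_sum p (Finset.mem_range.2 k3))
      simp only [ind_one hx.1 hx.2,
        ind_one (hlo.trans hx.1) (le_min ((div_le_iff₀ hB).1 k2.le) hx.2), one_mul, mul_one]
      refine (h x hx.1 hx.2).trans ?_
      rw [div_eq_mul_inv D]
      refine mul_le_mul_of_nonneg_left ?_ hD
      refine (Real.rpow_le_rpow_of_nonpos (by positivity) k1 (by norm_num)).trans_eq ?_
      rw [← Real.rpow_natCast, ← Real.rpow_mul (by norm_num), mul_comm,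
        Real.rpow_mul (by norm_num), Real.rpow_natCast, ← inv_pow]
      congr 1
      rw [show (16 : ℝ) = 2 ^ (4 : ℝ) by norm_num, ← Real.rpow_mul (by norm_num)]
      norm_num
    · simp only [ind, if_neg hx, zero_mul]
      exact Finset.sum_nonneg p
  · rw [integral_finsetSum _ fun j _ => j1 j]
    refine (Finset.sum_le_sum (g := fun j => 256 * Cv * D * B0 ^ 2 * (1 / 2) ^ j)
      fun j _ => ?_).trans ?_
    · rw [integral_const_mul, ← an_eq (f := fun _ _ => 1) cb, an_one]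
      have k1 := hv _ (min_le_right (16 ^ (j + 1) * B0) hi)
      have k2 : min (16 ^ (j + 1) * B0) hi ^ 2 ≤ (16 ^ (j + 1) * B0) ^ 2 :=
        pow_le_pow_left₀ (le_min (by positivity) h0) (min_le_left _ _) 2
      refine (mul_le_mul_of_nonneg_left (k1.trans (mul_le_mul_of_nonneg_left k2 hCv))
        (by positivity)).trans_eq ?_
      have e : (512 : ℝ) ^ j = 16 ^ j * 16 ^ j * 2 ^ j := by rw [← mul_pow, ← mul_pow]; norm_num
      rw [e, one_div, inv_pow]; field_simp; ring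
    · rw [← Finset.mul_sum]
      have := sum_geometric_two_le J
      nlinarith [mul_le_mul_of_nonneg_left this
        (show 0 ≤ 256 * Cv * D * B0 ^ 2 by positivity)]

end Crest.Agent.N207.NP

end
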