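import Crest.Agent.N207.NP.Wt

/-!
# Row 207, block P (helper85): the pointwise barrier for `|Ric|` along the neck (P1)
-/

set_option autoImplicit false
set_option linter.dupNamespace false
set_option linter.unusedSectionVars false
open Set MeasureTheory Filter Topology
open scoped ContDiff

noncomputable section

namespace Crest.Agent.N207.NP

variable {M : Type*} [TopologicalSpace M] [CompactSpace M] [MeasurableSpace M] {H : HC M}

/-- `√(|Ric|² + 1)` -/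
def ph (H : HC M) (t : ℝ) (x : M) : ℝ := √(H.Q 0 t x + 1)

theorem ph_le (E : H.Evo) {t : ℝ} (ht : t ∈ Ioo 0 H.T) (x : M) : ph H t x ≤ √(H.Q 0 t x) + 1 := by
  have h := E.Q_nonneg 0 t ht x
  rw [ph, Real.sqrt_le_left (by positivity)]
  nlinarith [Real.sq_sqrt h, Real.sqrt_nonneg (H.Q 0 t x)]

theorem le_ph (t : ℝ) (x : M) : √(H.Q 0 t x) ≤ ph H t x := Real.sqrt_le_sqrt (by linarith)

/-- `ph` is a subsolution with potential `c |Rm|` -/
def PhSub (H : HC M) (c : ℝ) : Prop :=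
  ∀ {s0 s1 : ℝ}, H.St s0 s1 → ∃ f', Tm H s0 s1 (ph H) f' ∧
    ∀ t ∈ Icc s0 s1, ∀ x, box H (ph H) f' t x ≤ c * √(H.N 0 t x) * ph H t x

theorem exists_phSub (A : H.Alg) (E : H.Evo) : ∃ c, 1 ≤ c ∧ PhSub H c := by
  obtain ⟨C, hC, hQ⟩ := E.dt_Q 0
  refine ⟨C + 1, by linarith, fun {s0 s1} hs => ?_⟩
  obtain ⟨Q', hQ1, hQ2⟩ := A.sm_dt hs.2.1 (A.sm_Q 0 hs)
  have T : Tm H s0 s1 (fun t x => H.Q 0 t x + 1) fun t x => Q' t x + 0 :=
    Tm.add A ⟨A.sm_Q 0 hs, hQ2⟩ (Tm.const A 1)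
  have hp : ∀ t ∈ Icc s0 s1, ∀ x, H.Q 0 t x + 1 ∈ Ioi (0 : ℝ) := fun t ht x => by
    have := E.Q_nonneg 0 t (hs.mem ht) x
    simp only [mem_Ioi]; linarith
  have e : ph H = fun t x => (H.Q 0 t x + 1) ^ (1 / 2 : ℝ) := by
    funext t x; rw [ph, Real.sqrt_eq_rpow]
  refine ⟨_, e ▸ T.comp A isOpen_Ioi (cd_rpow (1 / 2)) hp, fun t ht x => ?_⟩
  have hm := hs.mem ht
  have h1 := box_comp A hs ht x isOpen_Ioi (cd_rpow (1 / 2)) hp T
  rw [← e] at h1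
  rw [h1, box_add A hs ht x ⟨A.sm_Q 0 hs, hQ2⟩ (Tm.const A 1), box_const A hs ht x,
    A.gam_add t hm (A.s0_Q hm 0) (A.s0_const 1) (T.fix A ht), A.gam_const hm 1 (T.fix A ht),
    A.gam_add' hm (A.s0_Q hm 0) (A.s0_const 1) (A.s0_Q hm 0), A.gam_const' hm 1 (A.s0_Q hm 0),
    Real.deriv_rpow_const, dd_rpow]
  have h0 : 0 < H.Q 0 t x + 1 := hp t ht x
  have e1 : (H.Q 0 t x + 1) ^ (1 / 2 : ℝ) = ph H t x := by rw [e]
  rw [Real.rpow_sub_one h0.ne', Real.rpow_sub_one h0.ne', Real.rpow_sub_one h0.ne', e1]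
  have h2 := (abs_le.1 (hQ hs hQ2 t ht x)).2
  simp only [zero_add, Finset.sum_range_one, Nat.sub_zero] at h2
  have h3 := E.kato_Q 0 t hm x
  have q0 := E.Q_nonneg 0 t hm x
  have q1 := E.Q_nonneg (0 + 1) t hm x
  have h4 : √(H.Q 0 t x) * √(H.Q 0 t x) = H.Q 0 t x := Real.mul_self_sqrt q0
  have h5 : 0 ≤ ph H t x := Real.sqrt_nonneg _
  have h6 := Real.sqrt_nonneg (H.N 0 t x)
  simp only [box, zero_add] at *
  set q := H.Q 0 t x
  set r := H.Q 1 t x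
  set n := √(H.N 0 t x)
  set p := ph H t x / (q + 1) with hp'
  have p0 : 0 ≤ p := div_nonneg h5 h0.le
  have e2 : ph H t x = p * (q + 1) := by rw [hp']; field_simp
  have h7 : Q' t x - H.lap t (H.Q 0 t) x ≤ -2 * r + C * n * q := by
    have : C * (n * √q * √q) = C * n * q := by rw [mul_assoc n, h4]; ring
    linarith
  have h8 : H.gam t (H.Q 0 t) (H.Q 0 t) x / (q + 1) ≤ 4 * r := by
    rw [div_le_iff₀ h0]; nlinarith
  have e3 : 1 / 2 * ((1 / 2 - 1) * (p / (q + 1))) * (H.gam t (H.Q 0 t) (H.Q 0 t) x + 0 + 0) =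
      -(1 / 4) * (p * (H.gam t (H.Q 0 t) (H.Q 0 t) x / (q + 1))) := by ring
  rw [e3, e2]
  have h9 := mul_le_mul_of_nonneg_left h7 p0
  have h10 := mul_le_mul_of_nonneg_left h8 p0
  have h11 : 0 ≤ p * n := mul_nonneg p0 h6
  nlinarith [mul_nonneg h11 q0, mul_nonneg (mul_nonneg h11 q0) hC, mul_nonneg h11 hC]

/-- the data along the sequence of strips `[tt n, tt (n+1)]`, neck `a n ^ 2 ≤ b ≤ hi` -/
structure Sq (H : HC M) (a tt : ℕ → ℝ) (hi del γ ν K C1 : ℝ) (b : ℝ → M → ℝ)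
    (b' : ℕ → ℝ → M → ℝ) : Prop where
  nk : ∀ n, Nk H (tt n) (tt (n + 1)) (a n ^ 2) hi del b (b' n)
  a_pos : ∀ n, 0 < a n
  a_le : ∀ n, a n ≤ K * a (n + 1)
  K_ge : 1 ≤ K
  hi_pos : 0 < hi
  C1_nn : 0 ≤ C1
  del_le : del ≤ 1 / 50
  γ_nn : 0 ≤ γ
  γ_le : γ ≤ 1 / 16
  ν_nn : 0 ≤ ν
  dec : ∀ n, ∀ t ∈ Icc (tt n) (tt (n + 1)), ∀ x, a n ^ 2 ≤ b t x → b t x ≤ hi →
    √(H.N 0 t x) ≤ ν / b t x * ((a n ^ 2 / b t x) ^ γ + (b t x / hi) ^ γ)
  crude : ∀ n, ∀ t ∈ Icc (tt n) (tt (n + 1)), ∀ x, a n ^ 2 ≤ b t x → b t x ≤ hi →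
    √(H.Q 0 t x) ≤ C1 / √(b t x)

/-- memory part of the weight -/
def Zf (a tt : ℕ → ℝ) (γ : ℝ) (b : ℝ → M → ℝ) (n : ℕ) (t : ℝ) (x : M) : ℝ :=
  ∑ m ∈ Finset.range n, (a m ^ 2) ^ γ * pw b (1 / 4) (tt (m + 1)) (-γ) t x

/-- the weight on the `n`-th strip -/
def Wf (a tt : ℕ → ℝ) (hi γ : ℝ) (b : ℝ → M → ℝ) (n : ℕ) (t : ℝ) (x : M) : ℝ :=
  2 + Zf a tt γ b n t x + (a n ^ 2) ^ γ * pw b 0 0 (-γ) t x - hi ^ (-γ) * pw b 0 0 γ t x

/-- amplitude of the `n`-th block -/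
def Am (a : ℕ → ℝ) (K C1 : ℝ) (n : ℕ) : ℝ := C1 * (K * a n) ^ (1 / 2 : ℝ)

/-- the bracket on the `n`-th strip -/
def Gf (a tt : ℕ → ℝ) (K C1 c : ℝ) (b : ℝ → M → ℝ) (n : ℕ) (t : ℝ) (x : M) : ℝ :=
  ∑ m ∈ Finset.range n, Am a K C1 m * pw b (1 / 4) (tt (m + 1)) (-(3 / 4)) t x +
    Am a K C1 n * pw b 0 0 (-(3 / 4)) t x + c

/-- the smallness of the memory of the weight -/
def Small (a tt : ℕ → ℝ) (γ : ℝ) : Prop :=
  ∀ n, ∑ m ∈ Finset.range (n - 1), (a m ^ 2 / (1 / 4 * (tt n - tt (m + 1)))) ^ γ ≤ 1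

namespace Sq

variable {a tt : ℕ → ℝ} {hi del γ ν K C1 : ℝ} {b : ℝ → M → ℝ} {b' : ℕ → ℝ → M → ℝ}
  (S : Sq H a tt hi del γ ν K C1 b b')
include S

theorem smono : StrictMono tt := strictMono_nat_of_lt_succ fun n => (S.nk n).st.2.1

theorem hk {m n : ℕ} (h : m < n) : ∀ t ∈ Icc (tt n) (tt (n + 1)), 0 ≤ 1 / 4 * (t - tt (m + 1)) :=
  fun t ht => by
    have := S.smono.monotone (show m + 1 ≤ n from h)
    linarith [ht.1]

theorem Am_nn (n : ℕ) : 0 ≤ Am a K C1 n :=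
  mul_nonneg S.C1_nn (Real.rpow_nonneg (mul_nonneg (by linarith [S.K_ge]) (S.a_pos n).le) _)

theorem Zf_le (hs : Small a tt γ) (n : ℕ) {t : ℝ} (ht : t ∈ Icc (tt n) (tt (n + 1))) {x : M}
    (l : a n ^ 2 ≤ b t x) : Zf a tt γ b n t x ≤ 1 + (K ^ 2) ^ γ := by
  have hK : 0 ≤ (K ^ 2) ^ γ := Real.rpow_nonneg (sq_nonneg K) γ
  rcases n with _ | n
  · simp only [Zf, Finset.range_zero, Finset.sum_empty]; linarith
  have hb := (S.nk (n + 1)).pos t ht x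
  rw [Zf, Finset.sum_range_succ]
  refine add_le_add (le_trans (Finset.sum_le_sum fun m hm => ?_) (hs (n + 1))) ?_
  · have hm := Finset.mem_range.1 hm
    have h1 := S.smono (show m + 1 < n + 1 by omega)
    refine rpow_mul_le (sq_nonneg _) (by linarith) ?_ S.γ_nn
    simp only [sh]; linarith [ht.1]
  · have h1 := S.a_pos (n + 1)
    refine (rpow_mul_le (sq_nonneg _) (pow_pos h1 2) ?_ S.γ_nn).trans ?_
    · simp only [sh]; linarith [ht.1]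
    · refine Real.rpow_le_rpow (by positivity) ?_ S.γ_nn
      rw [div_le_iff₀ (pow_pos h1 2), ← mul_pow]
      exact pow_le_pow_left₀ (S.a_pos n).le (S.a_le n) 2

variable (A : H.Alg)
include A

theorem wg (hs : Small a tt γ) {c : ℝ} (hc : 0 ≤ c) (hν : c * ν * (4 + (K ^ 2) ^ γ) ≤ 3 * γ)
    (n : ℕ) : ∃ W', Wg H (tt n) (tt (n + 1)) (a n ^ 2) hi (4 + (K ^ 2) ^ γ) b
      (fun t x => c * √(H.N 0 t x)) (Wf a tt hi γ b n) W' := by
  have hZ := sum_ind (P := Zc H (tt n) (tt (n + 1)) (a n ^ 2) hi (4 * (1 + del) * γ) b)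
    (Zc.zero A (S.nk n)) (fun _ _ _ _ => Zc.add A (S.nk n)) _ _ n
    fun m hm => Zc.blk A (S.nk n) (S.hk hm) le_rfl S.del_le S.γ_nn S.γ_le
      (Real.rpow_nonneg (sq_nonneg (a m)) γ)
  have := wg_of A (S.nk n) (V := fun t x => c * √(H.N 0 t x)) (ν := c * ν)
    (CZ := 1 + (K ^ 2) ^ γ) (pow_pos (S.a_pos n) 2)
    S.del_le S.γ_nn S.γ_le hZ (fun t ht x l _ => S.Zf_le hs n ht l) (mul_nonneg hc S.ν_nn)
    (by linarith) fun t ht x l u => by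
      have := mul_le_mul_of_nonneg_left (S.dec n t ht x l u) hc
      rw [mul_div_assoc, mul_assoc]; exact this
  rw [show 3 + (1 + (K ^ 2) ^ γ) = 4 + (K ^ 2) ^ γ by ring] at this
  exact ⟨_, this⟩

theorem gc {n : ℕ} {CW c : ℝ} {V W W' : ℝ → M → ℝ} (hc : 0 ≤ c)
    (G : Wg H (tt n) (tt (n + 1)) (a n ^ 2) hi CW b V W W') :
    ∃ g', Gc H (tt n) (tt (n + 1)) (a n ^ 2) hi b W (Gf a tt K C1 c b n) g' := by
  have h1 := sum_ind (P := Gc H (tt n) (tt (n + 1)) (a n ^ 2) hi b W)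
    (Gc.const A (S.nk n) G le_rfl) (fun _ _ _ _ => Gc.add A (S.nk n) G) _ _ n
    fun m hm => Gc.blk A (S.nk n) G (S.hk hm) le_rfl S.del_le (S.Am_nn m)
  exact ⟨_, Gc.add A (S.nk n) G (Gc.add A (S.nk n) G h1
    (Gc.blk A (S.nk n) G (k0 _ _) (by norm_num) S.del_le (S.Am_nn n))) (Gc.const A (S.nk n) G hc)⟩

omit A in
theorem Gf_ge (c : ℝ) (n : ℕ) {t : ℝ} (ht : t ∈ Icc (tt n) (tt (n + 1))) (x : M) :
    Am a K C1 n * b t x ^ (-(3 / 4) : ℝ) + c ≤ Gf a tt K C1 c b n t x := by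
  have : 0 ≤ ∑ m ∈ Finset.range n, Am a K C1 m * pw b (1 / 4) (tt (m + 1)) (-(3 / 4)) t x :=
    Finset.sum_nonneg fun m hm => mul_nonneg (S.Am_nn m)
      (Real.rpow_nonneg (sh_pos (S.nk n) (S.hk (Finset.mem_range.1 hm)) ht x).le _)
  simp only [Gf, pw, sh0] at *
  linarith

omit A in
theorem near (n : ℕ) {y : ℝ} (hy : 0 < y) (h : y ≤ (K * a n) ^ 2) :
    C1 / √y ≤ Am a K C1 n * y ^ (-(3 / 4) : ℝ) := by
  have hK : 0 ≤ K * a n := mul_nonneg (by linarith [S.K_ge]) (S.a_pos n).le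
  have h1 : y ^ (1 / 4 : ℝ) ≤ (K * a n) ^ (1 / 2 : ℝ) := by
    refine (Real.rpow_le_rpow hy.le h (by norm_num)).trans_eq ?_
    rw [← Real.rpow_natCast, ← Real.rpow_mul hK]; norm_num
  have h2 : (√y)⁻¹ = y ^ (1 / 4 : ℝ) * y ^ (-(3 / 4) : ℝ) := by
    rw [← Real.rpow_add hy, Real.sqrt_eq_rpow, ← Real.rpow_neg hy.le]; norm_num
  rw [div_eq_mul_inv, h2, Am, mul_assoc]
  exact mul_le_mul_of_nonneg_left
    (mul_le_mul_of_nonneg_right h1 (Real.rpow_nonneg hy.le _)) S.C1_nn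

/-- (P1): the barrier -/
theorem p1 (E : H.Evo) (hs : Small a tt γ) {c c0 : ℝ} (hc : 0 ≤ c) (hP : PhSub H c)
    (hν : c * ν * (4 + (K ^ 2) ^ γ) ≤ 3 * γ) (hc0 : 1 + C1 / a 0 + C1 / √hi ≤ c0) (n : ℕ) :
    ∀ t ∈ Icc (tt n) (tt (n + 1)), ∀ x, a n ^ 2 ≤ b t x → b t x ≤ hi →
      ph H t x ≤ Wf a tt hi γ b n t x * Gf a tt K C1 c0 b n t x := by
  have z1 : 0 ≤ C1 / a 0 := div_nonneg S.C1_nn (S.a_pos 0).le
  have z2 : 0 ≤ C1 / √hi := div_nonneg S.C1_nn (Real.sqrt_nonneg _)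
  have key : ∀ n, (∀ x, a n ^ 2 ≤ b (tt n) x → b (tt n) x ≤ hi →
      ph H (tt n) x ≤ Wf a tt hi γ b n (tt n) x * Gf a tt K C1 c0 b n (tt n) x) →
      ∀ t ∈ Icc (tt n) (tt (n + 1)), ∀ x, a n ^ 2 ≤ b t x → b t x ≤ hi →
        ph H t x ≤ Wf a tt hi γ b n t x * Gf a tt K C1 c0 b n t x := fun n h0 => by
    by_cases hle : a n ^ 2 ≤ hi
    swap
    · exact fun t _ x l u => absurd (l.trans u) hle
    obtain ⟨W', G⟩ := S.wg A hs hc hν n
    obtain ⟨g', F⟩ := S.gc A (c := c0) (by linarith) G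
    obtain ⟨f', T, hf⟩ := hP (S.nk n).st
    obtain ⟨L, -, hL⟩ := A.sm_bdd (A.sm_N 0 (S.nk n).st)
    refine bar_step A (S.nk n) G F T (K := c * √L) (fun t ht x _ _ => ?_)
      (fun t ht x _ _ => hf t ht x) h0 fun t ht x h => ?_
    · exact mul_le_mul_of_nonneg_left
        (Real.sqrt_le_sqrt ((le_abs_self _).trans (hL t ht x))) hc
    · have hr : a n ^ 2 ≤ b t x ∧ b t x ≤ hi := by
        rcases h with h | h <;> rw [h]
        exacts [⟨le_rfl, hle⟩, ⟨hle, le_rfl⟩]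
      have h1 := G.one t ht x hr.1 hr.2
      have h2 := S.Gf_ge c0 n ht x
      have h3 := F.nn t ht x
      have h4 := ph_le E ((S.nk n).st.mem ht) x
      have h5 := S.crude n t ht x hr.1 hr.2
      have hb := (S.nk n).pos t ht x
      have h6 : 0 ≤ Am a K C1 n * b t x ^ (-(3 / 4) : ℝ) :=
        mul_nonneg (S.Am_nn n) (Real.rpow_nonneg hb.le _)
      have h7 : ph H t x ≤ Gf a tt K C1 c0 b n t x := by
        rcases h with h | h
        · have := S.near n hb (by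
            rw [h]; exact pow_le_pow_left₀ (S.a_pos n).le
              (le_mul_of_one_le_left (S.a_pos n).le S.K_ge) 2)
          linarith
        · rw [h] at h5; linarith
      nlinarith
  have crude : ∀ n, ∀ x, a n ^ 2 ≤ b (tt n) x → b (tt n) x ≤ hi →
      C1 / √(b (tt n) x) + 1 ≤ Am a K C1 n * b (tt n) x ^ (-(3 / 4) : ℝ) + c0 →
      ph H (tt n) x ≤ Wf a tt hi γ b n (tt n) x * Gf a tt K C1 c0 b n (tt n) x :=
    fun n x l u h => by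
      have ht : tt n ∈ Icc (tt n) (tt (n + 1)) := ⟨le_rfl, (S.nk n).st.2.1.le⟩
      obtain ⟨W', G⟩ := S.wg A hs hc hν n
      have h1 := G.one _ ht x l u
      have h2 := S.Gf_ge c0 n ht x
      have h4 := ph_le E ((S.nk n).st.mem ht) x
      have h5 := S.crude n _ ht x l u
      have h6 : 0 ≤ C1 / √(b (tt n) x) := div_nonneg S.C1_nn (Real.sqrt_nonneg _)
      nlinarith
  induction n with
  | zero =>
    refine key 0 fun x l u => crude 0 x l u ?_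
    have hb := (S.nk 0).pos _ ⟨le_rfl, (S.nk 0).st.2.1.le⟩ x
    have h1 : C1 / √(b (tt 0) x) ≤ C1 / a 0 :=
      div_le_div_of_nonneg_left S.C1_nn (S.a_pos 0) (Real.le_sqrt_of_sq_le l)
    have h6 := mul_nonneg (S.Am_nn 0) (Real.rpow_nonneg hb.le (-(3 / 4) : ℝ))
    linarith
  | succ n ih =>
    refine key (n + 1) fun x l u => ?_
    have ht : tt (n + 1) ∈ Icc (tt n) (tt (n + 1)) := ⟨(S.nk n).st.2.1.le, le_rfl⟩
    have hb := (S.nk n).pos _ ht x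
    rcases le_total (a n ^ 2) (b (tt (n + 1)) x) with h | h
    · refine (ih _ ht x h u).trans ?_
      obtain ⟨W', G⟩ := S.wg A hs hc hν n
      have h1 := G.one _ ht x h u
      have h2 := S.Gf_ge c0 n ht x
      have h3 := mul_nonneg (S.Am_nn n) (Real.rpow_nonneg hb.le (-(3 / 4) : ℝ))
      have h4 := mul_nonneg (S.Am_nn (n + 1)) (Real.rpow_nonneg hb.le (-(3 / 4) : ℝ))
      have h5 := mul_nonneg (Real.rpow_nonneg (sq_nonneg (a (n + 1))) γ)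
        (Real.rpow_nonneg hb.le (-γ))
      have e1 : Wf a tt hi γ b n (tt (n + 1)) x ≤ Wf a tt hi γ b (n + 1) (tt (n + 1)) x := by
        simp only [Wf, Zf, Finset.sum_range_succ, pw, sh, sub_self, mul_zero, zero_mul, add_zero]
        linarith
      have e2 : Gf a tt K C1 c0 b n (tt (n + 1)) x ≤ Gf a tt K C1 c0 b (n + 1) (tt (n + 1)) x := by
        simp only [Gf, Finset.sum_range_succ, pw, sh, sub_self, mul_zero, zero_mul, add_zero]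
        linarith
      exact mul_le_mul e1 e2 (by linarith) (by linarith)
    · refine crude (n + 1) x l u ?_
      have := S.near (n + 1) hb (h.trans (pow_le_pow_left₀ (S.a_pos n).le (S.a_le n) 2))
      linarith

end Sq

end Crest.Agent.N207.NP

end
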