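import Crest.Agent.N207.C.Max

/-!
# Row 207, block P (helper85): the neck function `b ≈ r²`, local maximum principle, power blocks
-/

set_option autoImplicit false
set_option linter.dupNamespace false
set_option linter.unusedSectionVars false
open Set MeasureTheory Filter Topology
open scoped ContDiff

noncomputable section

namespace Crest.Agent.N207.NP

variable {M : Type*} [TopologicalSpace M] [CompactSpace M] [MeasurableSpace M] {H : HC M}

/-- `b` behaves like `r²` of `ℝ⁴` on the region `lo ≤ b ≤ hi` of the strip `[s0,s1] × M` -/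
structure Nk (H : HC M) (s0 s1 lo hi del : ℝ) (b b' : ℝ → M → ℝ) : Prop where
  st : H.St s0 s1
  sm : H.Sm s0 s1 b
  dt : HasDt s0 s1 b b'
  pos : ∀ t ∈ Icc s0 s1, ∀ x, 0 < b t x
  gam : ∀ t ∈ Icc s0 s1, ∀ x, lo ≤ b t x → b t x ≤ hi →
    |H.gam t (b t) (b t) x - 4 * b t x| ≤ 4 * del * b t x
  lap : ∀ t ∈ Icc s0 s1, ∀ x, lo ≤ b t x → b t x ≤ hi → |H.lap t (b t) x - 8| ≤ del
  dtb : ∀ t ∈ Icc s0 s1, ∀ x, lo ≤ b t x → b t x ≤ hi → |b' t x| ≤ del

/-- a smooth function together with its time derivative -/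
structure Tm (H : HC M) (s0 s1 : ℝ) (f f' : ℝ → M → ℝ) : Prop where
  sm : H.Sm s0 s1 f
  dt : HasDt s0 s1 f f'

/-- the heat operator -/
def box (H : HC M) (f f' : ℝ → M → ℝ) (t : ℝ) (x : M) : ℝ := f' t x - H.lap t (f t) x

variable {s0 s1 lo hi del : ℝ} {b b' f f' g g' : ℝ → M → ℝ}

theorem Nk.mono (N : Nk H s0 s1 lo hi del b b') {lo' hi' del' : ℝ} (h1 : lo ≤ lo') (h2 : hi' ≤ hi)
    (h3 : del ≤ del') : Nk H s0 s1 lo' hi' del' b b' where
  st := N.st
  sm := N.sm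
  dt := N.dt
  pos := N.pos
  gam t ht x a c := (N.gam t ht x (h1.trans a) (c.trans h2)).trans (by
    have := N.pos t ht x; nlinarith)
  lap t ht x a c := (N.lap t ht x (h1.trans a) (c.trans h2)).trans h3
  dtb t ht x a c := (N.dtb t ht x (h1.trans a) (c.trans h2)).trans h3

theorem Nk.tm (N : Nk H s0 s1 lo hi del b b') : Tm H s0 s1 b b' := ⟨N.sm, N.dt⟩

section Tm
variable (A : H.Alg)
include A

theorem Tm.fix (F : Tm H s0 s1 f f') {t : ℝ} (ht : t ∈ Icc s0 s1) : H.S0 (f t) := A.sm_s0 F.sm t ht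

theorem Tm.const (c : ℝ) : Tm H s0 s1 (fun _ _ => c) fun _ _ => 0 :=
  ⟨A.sm_const c, HasDt.static _⟩

theorem Tm.add (F : Tm H s0 s1 f f') (G : Tm H s0 s1 g g') :
    Tm H s0 s1 (fun t x => f t x + g t x) fun t x => f' t x + g' t x :=
  ⟨A.sm_add F.sm G.sm, F.dt.add G.dt⟩

theorem Tm.sub (F : Tm H s0 s1 f f') (G : Tm H s0 s1 g g') :
    Tm H s0 s1 (fun t x => f t x - g t x) fun t x => f' t x - g' t x :=
  ⟨A.sm_sub F.sm G.sm, F.dt.sub G.dt⟩

theorem Tm.cmul (c : ℝ) (F : Tm H s0 s1 f f') :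
    Tm H s0 s1 (fun t x => c * f t x) fun t x => c * f' t x :=
  ⟨A.sm_cmul c F.sm, F.dt.cmul c⟩

theorem Tm.mul (F : Tm H s0 s1 f f') (G : Tm H s0 s1 g g') :
    Tm H s0 s1 (fun t x => f t x * g t x) fun t x => f' t x * g t x + f t x * g' t x :=
  ⟨A.sm_mul F.sm G.sm, F.dt.mul G.dt⟩

theorem Tm.comp {φ : ℝ → ℝ} {U : Set ℝ} (hU : IsOpen U) (hφ : ContDiffOn ℝ ∞ φ U)
    (hm : ∀ t ∈ Icc s0 s1, ∀ x, f t x ∈ U) (F : Tm H s0 s1 f f') :
    Tm H s0 s1 (fun t x => φ (f t x)) fun t x => deriv φ (f t x) * f' t x :=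
  ⟨A.sm_comp hU hφ hm F.sm, F.dt.comp hU hφ hm⟩

theorem Tm.lin (k τ : ℝ) : Tm H s0 s1 (fun t (_ : M) => k * (t - τ)) fun _ _ => k :=
  ⟨A.sm_timeU (by fun_prop), HasDt.time (c' := fun _ => k) fun t _ => by
    simpa using ((hasDerivAt_id t).sub_const τ).const_mul k⟩

variable (hs : H.St s0 s1) {t : ℝ} (ht : t ∈ Icc s0 s1) (x : M)
include hs ht

theorem box_const (c : ℝ) : box H (fun _ _ => c) (fun _ _ => 0) t x = 0 := by
  simp [box, A.lap_const (hs.mem ht)]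

theorem box_add (F : Tm H s0 s1 f f') (G : Tm H s0 s1 g g') :
    box H (fun t x => f t x + g t x) (fun t x => f' t x + g' t x) t x =
      box H f f' t x + box H g g' t x := by
  simp only [box]; rw [A.lap_add t (hs.mem ht) (F.fix A ht) (G.fix A ht)]; ring

theorem box_sub (F : Tm H s0 s1 f f') (G : Tm H s0 s1 g g') :
    box H (fun t x => f t x - g t x) (fun t x => f' t x - g' t x) t x =
      box H f f' t x - box H g g' t x := by
  simp only [box]; rw [A.lap_sub (hs.mem ht) (F.fix A ht) (G.fix A ht)]; ring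

theorem box_cmul (c : ℝ) (F : Tm H s0 s1 f f') :
    box H (fun t x => c * f t x) (fun t x => c * f' t x) t x = c * box H f f' t x := by
  simp only [box]; rw [A.lap_cmul (hs.mem ht) c (F.fix A ht)]; ring

theorem box_mul (F : Tm H s0 s1 f f') (G : Tm H s0 s1 g g') :
    box H (fun t x => f t x * g t x) (fun t x => f' t x * g t x + f t x * g' t x) t x =
      box H f f' t x * g t x + f t x * box H g g' t x - 2 * H.gam t (f t) (g t) x := by
  simp only [box]; rw [A.lap_mul t (hs.mem ht) (F.fix A ht) (G.fix A ht)]; ring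

theorem box_comp {φ : ℝ → ℝ} {U : Set ℝ} (hU : IsOpen U) (hφ : ContDiffOn ℝ ∞ φ U)
    (hm : ∀ t ∈ Icc s0 s1, ∀ x, f t x ∈ U) (F : Tm H s0 s1 f f') :
    box H (fun t x => φ (f t x)) (fun t x => deriv φ (f t x) * f' t x) t x =
      deriv φ (f t x) * box H f f' t x - deriv (deriv φ) (f t x) * H.gam t (f t) (f t) x := by
  simp only [box]; rw [A.lap_comp t (hs.mem ht) hU hφ (hm t ht) (F.fix A ht)]; ring

end Tm

/-- maximum principle on the region `lo ≤ b ≤ hi` -/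
theorem mp (A : H.Alg) (hs : H.St s0 s1) (hb : H.Sm s0 s1 b) (F : Tm H s0 s1 f f') (K : ℝ)
    (h0 : ∀ x, lo ≤ b s0 x → b s0 x ≤ hi → f s0 x ≤ 0)
    (h1 : ∀ t ∈ Icc s0 s1, ∀ x, (b t x = lo ∨ b t x = hi) → f t x ≤ 0)
    (h : ∀ t ∈ Icc s0 s1, ∀ x, lo ≤ b t x → b t x ≤ hi → 0 < f t x → box H f f' t x ≤ K * f t x) :
    ∀ t ∈ Icc s0 s1, ∀ x, lo ≤ b t x → b t x ≤ hi → f t x ≤ 0 := by
  intro t0 ht0 x0 l0 u0
  set g : ℝ × M → ℝ := fun p => Real.exp (-(K + 1) * p.1) * f p.1 p.2 with hg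
  set D : Set (ℝ × M) := (Icc s0 s1 ×ˢ univ) ∩ (fun p : ℝ × M => b p.1 p.2) ⁻¹' Icc lo hi with hD
  have hcl : IsClosed (Icc s0 s1 ×ˢ (univ : Set M)) := isClosed_Icc.prod isClosed_univ
  have hDc : IsCompact D := (isCompact_Icc.prod isCompact_univ).of_isClosed_subset
    ((A.sm_cont hb).preimage_isClosed_of_isClosed hcl isClosed_Icc) inter_subset_left
  have hgc : ContinuousOn g D :=
    (ContinuousOn.mul (by fun_prop) (A.sm_cont F.sm)).mono inter_subset_left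
  have hm0 : (t0, x0) ∈ D := ⟨⟨ht0, mem_univ _⟩, l0, u0⟩
  obtain ⟨p, hp, hmax⟩ := hDc.exists_isMaxOn ⟨_, hm0⟩ hgc
  by_contra hneg
  have hpos : 0 < g p := lt_of_lt_of_le (mul_pos (Real.exp_pos _) (not_le.1 hneg)) (hmax hm0)
  have hfp : 0 < f p.1 p.2 := (pos_iff_pos_of_mul_pos hpos).1 (Real.exp_pos _)
  have hpt : p.1 ∈ Icc s0 s1 := hp.1.1
  have hpa : s0 < p.1 := lt_of_le_of_ne hpt.1 fun e => by
    have := h0 p.2 (e ▸ hp.2.1) (e ▸ hp.2.2); rw [e] at this; linarith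
  have hl : lo < b p.1 p.2 := lt_of_le_of_ne hp.2.1 fun e => by
    linarith [h1 p.1 hpt p.2 (Or.inl e.symm)]
  have hu : b p.1 p.2 < hi := lt_of_le_of_ne hp.2.2 fun e => by
    linarith [h1 p.1 hpt p.2 (Or.inr e)]
  have hloc : IsLocalMax (f p.1) p.2 := by
    have hc := (A.s0_cont (A.sm_s0 hb p.1 hpt)).continuousAt (x := p.2)
    filter_upwards [hc.eventually (Ioo_mem_nhds hl hu)] with y hy
    have := hmax (show (p.1, y) ∈ D from ⟨⟨hpt, mem_univ _⟩, hy.1.le, hy.2.le⟩)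
    exact le_of_mul_le_mul_left this (Real.exp_pos _)
  have h2 := (A.at_max p.1 (hs.mem hpt) (F.fix A hpt) hloc).1
  have h3 := h p.1 hpt p.2 hp.2.1 hp.2.2 hfp
  obtain ⟨a', ha1, ha2, ha3⟩ : ∃ a', s0 ≤ a' ∧ a' < p.1 ∧ ∀ s ∈ Icc a' p.1, b s p.2 ∈ Ioo lo hi := by
    have hc := (A.sm_cont_t hb p.2 p.1 hpt).eventually (Ioo_mem_nhds hl hu)
    rw [eventually_nhdsWithin_iff, Metric.eventually_nhds_iff] at hc
    obtain ⟨e, he, hc⟩ := hc
    refine ⟨max s0 (p.1 - e / 2), le_max_left _ _, max_lt hpa (by linarith), fun s hs' => ?_⟩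
    have h4 := (le_max_right _ _).trans hs'.1
    refine hc ?_ ⟨(le_max_left _ _).trans hs'.1, hs'.2.trans hpt.2⟩
    rw [Real.dist_eq, abs_lt]; constructor <;> linarith [hs'.2]
  have he : HasDerivAt (fun s => Real.exp (-(K + 1) * s))
      (Real.exp (-(K + 1) * p.1) * (-(K + 1))) p.1 := by
    simpa using ((hasDerivAt_id p.1).const_mul (-(K + 1))).exp
  have h4 := deriv_nonneg_of_max (a := a') (b := s1) ⟨ha2, hpt.2⟩
    ((he.hasDerivWithinAt.mul (F.dt p.1 hpt p.2)).mono (Icc_subset_Icc_left ha1))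
    fun s hs' => hmax (show (s, p.2) ∈ D from
      ⟨⟨⟨ha1.trans hs'.1, hs'.2.trans hpt.2⟩, mem_univ _⟩, (ha3 s hs').1.le, (ha3 s hs').2.le⟩)
  have h5 := Real.exp_pos (-(K + 1) * p.1)
  simp only [box] at h3
  nlinarith

/-- the shifted function `b + k (t - τ)` -/
def sh (b : ℝ → M → ℝ) (k τ t : ℝ) (x : M) : ℝ := b t x + k * (t - τ)

/-- the power block `(b + k (t - τ)) ^ e` -/
def pw (b : ℝ → M → ℝ) (k τ e t : ℝ) (x : M) : ℝ := sh b k τ t x ^ e

/-- its time derivative -/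
def pw' (b b' : ℝ → M → ℝ) (k τ e t : ℝ) (x : M) : ℝ :=
  e * sh b k τ t x ^ (e - 1) * (b' t x + k)

theorem cd_rpow (e : ℝ) : ContDiffOn ℝ ∞ (fun y : ℝ => y ^ e) (Ioi 0) :=
  fun _ h => (Real.contDiffAt_rpow_const_of_ne (ne_of_gt h)).contDiffWithinAt

theorem dd_rpow (e y : ℝ) : deriv (deriv fun y : ℝ => y ^ e) y = e * ((e - 1) * y ^ (e - 1 - 1)) := by
  rw [Real.deriv_rpow_const', deriv_const_mul_field, Real.deriv_rpow_const]

section pw
variable (A : H.Alg) (N : Nk H s0 s1 lo hi del b b') {k τ : ℝ}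
  (hk : ∀ t ∈ Icc s0 s1, 0 ≤ k * (t - τ))
include A N hk

omit A in
theorem sh_ge {t : ℝ} (ht : t ∈ Icc s0 s1) (x : M) : b t x ≤ sh b k τ t x := by
  have := hk t ht; simp only [sh]; linarith

omit A in
theorem sh_pos {t : ℝ} (ht : t ∈ Icc s0 s1) (x : M) : 0 < sh b k τ t x :=
  (N.pos t ht x).trans_le (sh_ge N hk ht x)

omit hk in
theorem tm_sh : Tm H s0 s1 (sh b k τ) fun t x => b' t x + k := N.tm.add A (Tm.lin A k τ)

theorem tm_pw (e : ℝ) : Tm H s0 s1 (pw b k τ e) (pw' b b' k τ e) := by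
  have := (tm_sh A N (k := k) (τ := τ)).comp A isOpen_Ioi (cd_rpow e) fun t ht x => sh_pos N hk ht x
  simp only [Real.deriv_rpow_const] at this
  exact this

omit hk in
theorem gam_sh {t : ℝ} (ht : t ∈ Icc s0 s1) {w : M → ℝ} (hw : H.S0 w) (x : M) :
    H.gam t (sh b k τ t) w x = H.gam t (b t) w x := by
  have h := A.gam_add t (N.st.mem ht) (N.tm.fix A ht) (A.s0_const (k * (t - τ))) hw x
  rw [A.gam_const (N.st.mem ht) _ hw, add_zero] at h
  exact h

theorem gam_pw (e : ℝ) {t : ℝ} (ht : t ∈ Icc s0 s1) {w : M → ℝ} (hw : H.S0 w) (x : M) :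
    H.gam t (pw b k τ e t) w x = e * sh b k τ t x ^ (e - 1) * H.gam t (b t) w x := by
  have h := A.gam_comp t (N.st.mem ht) isOpen_Ioi (cd_rpow e) (fun x => sh_pos N hk ht x)
    ((tm_sh A N).fix A ht) hw x
  rw [Real.deriv_rpow_const, gam_sh A N ht hw] at h
  exact h

theorem box_pw (e : ℝ) {t : ℝ} (ht : t ∈ Icc s0 s1) (x : M) :
    box H (pw b k τ e) (pw' b b' k τ e) t x = e * sh b k τ t x ^ (e - 1) *
      (b' t x + k - H.lap t (b t) x - (e - 1) * (H.gam t (b t) (b t) x / sh b k τ t x)) := by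
  have hm := N.st.mem ht
  have h := A.lap_comp t hm isOpen_Ioi (cd_rpow e) (fun x => sh_pos N hk ht x)
    ((tm_sh A N).fix A ht) x
  have h1 : H.lap t (sh b k τ t) x = H.lap t (b t) x := by
    have := A.lap_add t hm (N.tm.fix A ht) (A.s0_const (k * (t - τ))) x
    rw [A.lap_const hm, add_zero] at this
    exact this
  rw [Real.deriv_rpow_const, dd_rpow, h1, gam_sh A N ht ((tm_sh A N).fix A ht),
    A.gam_symm t hm (N.tm.fix A ht) ((tm_sh A N).fix A ht), gam_sh A N ht (N.tm.fix A ht),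
    Real.rpow_sub_one (sh_pos N hk ht x).ne' (e - 1)] at h
  have h2 : H.lap t (pw b k τ e t) x = _ := h
  simp only [box, pw']
  rw [h2]; ring

/-- negative powers are strict supersolutions -/
theorem box_pw_ge {e : ℝ} (he : 0 ≤ e) {t : ℝ} (ht : t ∈ Icc s0 s1) {x : M} (l : lo ≤ b t x)
    (u : b t x ≤ hi) :
    e * sh b k τ t x ^ (-e - 1) * (8 - 2 * del - k - 4 * (1 + del) * (e + 1)) ≤
      box H (pw b k τ (-e)) (pw' b b' k τ (-e)) t x := by
  rw [box_pw A N hk (-e) ht x]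
  have h1 := abs_le.1 (N.gam t ht x l u)
  have h2 := abs_le.1 (N.lap t ht x l u)
  have h3 := abs_le.1 (N.dtb t ht x l u)
  have h4 := sh_pos N hk ht x
  have h5 := sh_ge N hk ht x
  have hd : 0 ≤ del := (abs_nonneg _).trans (N.lap t ht x l u)
  have h6 : H.gam t (b t) (b t) x / sh b k τ t x ≤ 4 * (1 + del) := by
    rw [div_le_iff₀ h4]; nlinarith
  have h7 : 0 ≤ e * sh b k τ t x ^ (-e - 1) := mul_nonneg he (Real.rpow_nonneg h4.le _)
  have h8 : 8 - 2 * del - k - 4 * (1 + del) * (e + 1) ≤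
      -(b' t x + k - H.lap t (b t) x - (-e - 1) * (H.gam t (b t) (b t) x / sh b k τ t x)) := by
    nlinarith
  nlinarith [mul_le_mul_of_nonneg_left h8 h7]

/-- the gradient of a block along `b` -/
theorem abs_gam_pw (e : ℝ) {t : ℝ} (ht : t ∈ Icc s0 s1) {x : M} (l : lo ≤ b t x)
    (u : b t x ≤ hi) :
    |H.gam t (pw b k τ e t) (b t) x| ≤ 4 * (1 + del) * |e| * pw b k τ e t x := by
  rw [gam_pw A N hk e ht (N.tm.fix A ht)]
  have h1 := abs_le.1 (N.gam t ht x l u)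
  have h4 := sh_pos N hk ht x
  have h5 := sh_ge N hk ht x
  have hd : 0 ≤ del := (abs_nonneg _).trans (N.lap t ht x l u)
  have h0 := A.gam_nonneg t (N.st.mem ht) (N.tm.fix A ht) x
  have h6 : H.gam t (b t) (b t) x / sh b k τ t x ≤ 4 * (1 + del) := by
    rw [div_le_iff₀ h4]; nlinarith
  have h7 := Real.rpow_nonneg h4.le e
  rw [Real.rpow_sub_one h4.ne', abs_mul, abs_mul, abs_of_nonneg h0,
    abs_of_nonneg (div_nonneg h7 h4.le)]
  have h8 : |e| * (sh b k τ t x ^ e / sh b k τ t x) * H.gam t (b t) (b t) x =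
      |e| * sh b k τ t x ^ e * (H.gam t (b t) (b t) x / sh b k τ t x) := by ring
  rw [h8]
  have := mul_le_mul_of_nonneg_left h6 (mul_nonneg (abs_nonneg e) h7)
  simp only [pw]; linarith

end pw

end Crest.Agent.N207.NP

end
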