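import Mathlib

/-!
# Row 207, block P (helper85): the error function built from window integrals (real analysis)
-/

set_option autoImplicit false
set_option linter.dupNamespace false
open Set MeasureTheory Filter Topology

noncomputable section

namespace Crest.Agent.N207.NP

theorem win_int {h : ℝ → ℝ} {a b w : ℝ} (hab : a ≤ b) (hw : 0 ≤ w)
    (hi : IntervalIntegrable h volume (a - w) b) (h0 : ∀ s ∈ Icc (a - w) b, 0 ≤ h s) :
    ContinuousOn (fun s => ∫ σ in (s - w)..s, h σ) (Icc a b) ∧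
      ∫ s in a..b, ∫ σ in (s - w)..s, h σ ≤ w * ∫ σ in (a - w)..b, h σ := by
  have hle : a - w ≤ b := by linarith
  set Φ : ℝ → ℝ := fun s => ∫ σ in (a - w)..s, h σ with hΦ
  have sub : ∀ s ∈ Icc (a - w) b, ∀ t ∈ Icc (a - w) b, IntervalIntegrable h volume s t :=
    fun s hs t ht => hi.mono_set (by rw [uIcc_of_le hle]; exact uIcc_subset_Icc hs ht)
  have l0 : a - w ∈ Icc (a - w) b := ⟨le_rfl, hle⟩
  have c : ContinuousOn Φ (Icc (a - w) b) := by
    have := intervalIntegral.continuousOn_primitive_interval' hi left_mem_uIcc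
    rwa [uIcc_of_le hle] at this
  have e : ∀ s ∈ Icc a b, ∫ σ in (s - w)..s, h σ = Φ s - Φ (s - w) := fun s hs =>
    (intervalIntegral.integral_interval_sub_left (sub _ l0 _ ⟨by linarith [hs.1], hs.2⟩)
      (sub _ l0 _ ⟨by linarith [hs.1], by linarith [hs.2]⟩)).symm
  have c1 : ContinuousOn Φ (Icc a b) := c.mono (Icc_subset_Icc_left (by linarith))
  have c2 : ContinuousOn (fun s => Φ (s - w)) (Icc a b) :=
    c.comp (by fun_prop) fun s hs => ⟨by linarith [hs.1], by linarith [hs.2]⟩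
  refine ⟨(c1.sub c2).congr e, ?_⟩
  have ii : ∀ s ∈ Icc (a - w) b, ∀ t ∈ Icc (a - w) b, IntervalIntegrable Φ volume s t :=
    fun s hs t ht => (c.mono (uIcc_subset_Icc hs ht)).intervalIntegrable
  have la : a ∈ Icc (a - w) b := ⟨by linarith, hab⟩
  have lb : b ∈ Icc (a - w) b := ⟨hle, le_rfl⟩
  have lw : b - w ∈ Icc (a - w) b := ⟨by linarith, by linarith⟩
  rw [intervalIntegral.integral_congr (g := fun s => Φ s - Φ (s - w))
      (fun s hs => e s (by rwa [uIcc_of_le hab] at hs)),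
    intervalIntegral.integral_sub (ii _ la _ lb) (c2.intervalIntegrable_of_Icc hab),
    intervalIntegral.integral_comp_sub_right Φ w]
  have a1 := intervalIntegral.integral_add_adjacent_intervals (ii _ l0 _ la) (ii _ la _ lb)
  have a2 := intervalIntegral.integral_add_adjacent_intervals (ii _ l0 _ lw) (ii _ lw _ lb)
  have a3 : 0 ≤ ∫ s in (a - w)..a, Φ s := intervalIntegral.integral_nonneg (by linarith)
    fun s hs => intervalIntegral.integral_nonneg hs.1 fun σ hσ =>
      h0 σ ⟨hσ.1, hσ.2.trans (hs.2.trans hab)⟩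
  have a4 : ∫ s in (b - w)..b, Φ s ≤ ∫ _ in (b - w)..b, Φ b :=
    intervalIntegral.integral_mono_on (by linarith) (ii _ lw _ lb) intervalIntegrable_const
      fun s hs => by
        have ls : s ∈ Icc (a - w) b := ⟨by linarith [hs.1], hs.2⟩
        have b1 := intervalIntegral.integral_add_adjacent_intervals (sub _ l0 _ ls) (sub _ ls _ lb)
        have b2 : 0 ≤ ∫ σ in s..b, h σ := intervalIntegral.integral_nonneg hs.2 fun σ hσ =>
          h0 σ ⟨ls.1.trans hσ.1, hσ.2⟩
        simp only [hΦ]; linarith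
  rw [intervalIntegral.integral_const, smul_eq_mul, sub_sub_cancel] at a4
  simp only [hΦ] at *
  linarith

theorem geo_le {q : ℝ} (h0 : 0 ≤ q) (h1 : q ≤ 7 / 8) (n : ℕ) : ∑ j ∈ Finset.range n, q ^ j ≤ 8 := by
  have h2 : q < 1 := by linarith
  refine ((summable_geometric_of_lt_one h0 h2).sum_le_tsum _ fun j _ => pow_nonneg h0 j).trans ?_
  rw [tsum_geometric_of_lt_one h0 h2, inv_le_comm₀ (by linarith) (by norm_num)]
  linarith

/-- the error function -/
theorem err_fun {a b B μ C5 : ℝ} (J : ℕ) {h : ℕ → ℝ → ℝ} {w : ℕ → ℝ} (hab : a ≤ b) (hB : 0 < B)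
    (hμ : 0 ≤ μ) (hC : 0 ≤ C5) (hw : ∀ j, 0 ≤ w j)
    (hi : ∀ j, IntervalIntegrable (h j) volume (a - w j) b)
    (h0 : ∀ j, ∀ s ∈ Icc (a - w j) b, 0 ≤ h j s) :
    ∃ e : ℝ → ℝ, ContinuousOn e (Icc a b) ∧
      (∀ s ∈ Icc a b, ∀ N, B * (1 + ∑ j ∈ Finset.range N, if j < J then
        μ + C5 * √((∫ σ in (s - w j)..s, h j σ) / (4 ^ j * B) ^ 3) else 0) ≤ e s) ∧
      ∫ s in a..b, e s ^ 2 ≤ 2 * (B * (1 + J * μ)) ^ 2 * (b - a) +
        16 * C5 ^ 2 * ∑ j ∈ Finset.range J,
          (8 / 7) ^ j * B ^ 2 / (4 ^ j * B) ^ 3 * (w j * ∫ σ in (a - w j)..b, h j σ) := by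
  set Hs : ℕ → ℝ → ℝ := fun j s => ∫ σ in (s - w j)..s, h j σ with hH
  have W := fun j => win_int hab (hw j) (hi j) (h0 j)
  set S : ℝ → ℝ := fun s => ∑ j ∈ Finset.range J, (8 / 7) ^ j * B ^ 2 / (4 ^ j * B) ^ 3 * Hs j s
    with hS
  have cS : ContinuousOn S (Icc a b) :=
    continuousOn_finsetSum _ fun j _ => continuousOn_const.mul (W j).1
  have H0 : ∀ j, ∀ s ∈ Icc a b, 0 ≤ Hs j s := fun j s hs =>
    intervalIntegral.integral_nonneg (by linarith [hw j]) fun σ hσ =>
      h0 j σ ⟨by linarith [hσ.1, hs.1], hσ.2.trans hs.2⟩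
  have S0 : ∀ s ∈ Icc a b, 0 ≤ S s := fun s hs =>
    Finset.sum_nonneg fun j _ => mul_nonneg (by positivity) (H0 j s hs)
  have ce : ContinuousOn (fun s => B * (1 + J * μ) + C5 * √(8 * S s)) (Icc a b) :=
    continuousOn_const.add (continuousOn_const.mul (continuousOn_const.mul cS).sqrt)
  refine ⟨_, ce, fun s hs N => ?_, ?_⟩
  · have a1 : (∑ j ∈ Finset.range N, if j < J then μ + C5 * √(Hs j s / (4 ^ j * B) ^ 3) else 0) ≤
        ∑ j ∈ Finset.range J, (μ + C5 * √(Hs j s / (4 ^ j * B) ^ 3)) := by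
      rw [← Finset.sum_filter]
      exact Finset.sum_le_sum_of_subset_of_nonneg
        (fun j hj => Finset.mem_range.2 (Finset.mem_filter.1 hj).2) fun j _ _ => by positivity
    rw [Finset.sum_add_distrib, Finset.sum_const, Finset.card_range, nsmul_eq_mul,
      ← Finset.mul_sum] at a1
    have a2 : B * ∑ j ∈ Finset.range J, √(Hs j s / (4 ^ j * B) ^ 3) ≤ √(8 * S s) := by
      refine Real.le_sqrt_of_sq_le ?_
      rw [Finset.mul_sum]
      refine (Finset.sum_sq_le_sum_mul_sum_of_sq_eq_mul (Finset.range J) (f := fun j => (7 / 8) ^ j)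
        (g := fun j => (8 / 7) ^ j * B ^ 2 / (4 ^ j * B) ^ 3 * Hs j s) (fun j _ => by positivity)
        (fun j _ => mul_nonneg (by positivity) (H0 j s hs)) fun j _ => ?_).trans
        (mul_le_mul_of_nonneg_right (geo_le (by norm_num) le_rfl J) (S0 s hs))
      rw [mul_pow, Real.sq_sqrt (div_nonneg (H0 j s hs) (by positivity))]
      have : (7 / 8 : ℝ) ^ j * (8 / 7) ^ j = 1 := by rw [← mul_pow]; norm_num
      calc _ = (7 / 8 : ℝ) ^ j * (8 / 7) ^ j * (B ^ 2 * (Hs j s / (4 ^ j * B) ^ 3)) := by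
            rw [this, one_mul]
        _ = _ := by ring
    have a3 := mul_le_mul_of_nonneg_left a1 hB.le
    have a4 := mul_le_mul_of_nonneg_left a2 hC
    simp only [hH] at *
    nlinarith
  · have iS := cS.intervalIntegrable_of_Icc (μ := volume) hab
    have a1 : ∫ s in a..b, (B * (1 + J * μ) + C5 * √(8 * S s)) ^ 2 ≤
        ∫ s in a..b, (2 * (B * (1 + J * μ)) ^ 2 + 16 * C5 ^ 2 * S s) :=
      intervalIntegral.integral_mono_on hab ((ce.pow 2).intervalIntegrable_of_Icc hab)
        (intervalIntegrable_const.add (iS.const_mul _)) fun s hs => by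
          have := Real.sq_sqrt (show 0 ≤ 8 * S s by linarith [S0 s hs])
          have e : (C5 * √(8 * S s)) ^ 2 = 8 * C5 ^ 2 * S s := by rw [mul_pow, this]; ring
          nlinarith [sq_nonneg (B * (1 + J * μ) - C5 * √(8 * S s))]
    rw [intervalIntegral.integral_add intervalIntegrable_const (iS.const_mul _),
      intervalIntegral.integral_const, intervalIntegral.integral_const_mul, smul_eq_mul] at a1
    have a2 : ∫ s in a..b, S s ≤ ∑ j ∈ Finset.range J,
        (8 / 7) ^ j * B ^ 2 / (4 ^ j * B) ^ 3 * (w j * ∫ σ in (a - w j)..b, h j σ) := by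
      rw [hS, intervalIntegral.integral_finsetSum fun j _ =>
        ((W j).1.intervalIntegrable_of_Icc hab).const_mul _]
      refine Finset.sum_le_sum fun j _ => ?_
      rw [intervalIntegral.integral_const_mul]
      exact mul_le_mul_of_nonneg_left (W j).2 (by positivity)
    nlinarith [mul_le_mul_of_nonneg_left a2 (show 0 ≤ 16 * C5 ^ 2 by positivity)]

/-- a constant before `a`, a given function after -/
theorem pw_int {g : ℝ → ℝ} {a b w D : ℝ} (hab : a ≤ b) (hw : 0 ≤ w)
    (hg : IntervalIntegrable g volume a b) :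
    IntervalIntegrable (fun σ => if σ ≤ a then D else g σ) volume (a - w) b ∧
      ∫ σ in (a - w)..b, (if σ ≤ a then D else g σ) = w * D + ∫ σ in a..b, g σ := by
  have e1 : EqOn (fun _ => D) (fun σ => if σ ≤ a then D else g σ) (uIoc (a - w) a) := fun σ hσ => by
    rw [uIoc_of_le (by linarith)] at hσ
    simp [hσ.2]
  have e2 : EqOn g (fun σ => if σ ≤ a then D else g σ) (uIoc a b) := fun σ hσ => by
    rw [uIoc_of_le hab] at hσ
    simp [not_le.2 hσ.1]
  have i1 := (intervalIntegrable_const (μ := volume)).congr e1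
  have i2 := hg.congr e2
  refine ⟨i1.trans i2, ?_⟩
  rw [← intervalIntegral.integral_add_adjacent_intervals i1 i2,
    ← intervalIntegral.integral_congr_ae (Eventually.of_forall fun σ hσ => e1 hσ),
    ← intervalIntegral.integral_congr_ae (Eventually.of_forall fun σ hσ => e2 hσ)]
  simp

end Crest.Agent.N207.NP

end
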