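import Crest.Agent.N207.NP.Pest1

/-!
# Row 207, block P (helper60): `PEST` from `RAD`, `CURV`, `PH`, part 2
-/

set_option autoImplicit false
set_option linter.dupNamespace false
set_option linter.unusedSectionVars false

open scoped ContDiff Manifold Topology
open Set MeasureTheory Filter
open Crest.GeometryTopology.CoordMetric Crest.GeometryTopology.ChartCurvature
  Crest.GeometryTopology.MetricFamily

noncomputable section

namespace Crest.Agent.N207.NP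

namespace Pe

open Sk

variable {M : Type*} [TopologicalSpace M] [ChartedSpace E4 M] [IsManifold 𝓘(ℝ, E4) ∞ M]
  [T3Space M] [ConnectedSpace M] [MeasurableSpace M] [BorelSpace M] [CompactSpace M]
  {F : Flow M} {τ : TopD M} {m1 : ℕ} {η V : ℝ} {Cs : ℕ → ℝ}

theorem ebd_mono {g : Met 4 M} {N : Sk.Nk M} {m : ℕ} {ρ e e' : ℝ} (h : Ebd g N m ρ e)
    (he : e ≤ e') : Ebd g N m ρ e' := by
  obtain ⟨J, h1, h2, h3⟩ := h
  exact ⟨J, h1, h2, fun n => (h3 n).trans he⟩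

/-- scale invariant bound of the jets of `Ric` in the neck -/
def Far (F : Flow M) (τ : TopD M) (m : ℕ) (Cf : ℝ) : Prop :=
  ∀ k, ∀ u ∈ τ.I k, ∀ s, u ≤ s → s ≤ u + τ.c * τ.lam k → s < F.T →
    ∀ x ∈ shell (τ.lam k) τ.R, ∀ i ≤ m, ‖x‖ ^ (i + 2) * √((F.m s).rc i ((τ.N u).Ψ x)) ≤ Cf

theorem exists_far (h : τ.Ok F m1 η Cs V) {ε0 : ℝ} (hε : 0 < ε0) (hη : η ≤ ε0 / 2)
    (hcv : ∀ (k : ℕ) (Cs : ℕ → ℝ), ∃ C' : ℝ, ∀ (G : MetricField 4) (U : Set E4) (x : E4) (s : ℝ),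
      IsRiemannianOn G U → x ∈ U → 0 < s → JG 0 G x s ε0 → JAll Cs G x s 2 →
        s ^ (k + 2) * √(nsq G (covN G (ricT G) k) x) ≤ C') (m : ℕ) :
    ∃ Cf, 0 ≤ Cf ∧ Far F τ m Cf := by
  choose C' hC' using fun k => hcv k fun i => |Cs i|
  refine ⟨∑ i ∈ Finset.range (m + 1), |C' i|, Finset.sum_nonneg fun _ _ => abs_nonneg _,
    fun k u hu s h1 h2 h3 x hx i hi => ?_⟩
  have hT := h.top k u hu
  have hg := h.good k u hu s h1 h2 h3
  have hx' : x ∈ shell (τ.N u).a (τ.N u).b := by rwa [h.a_eq k u hu, h.b_eq k u hu]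
  have hw := wt_nonneg (τ.N u).a (τ.N u).b x
  have hw2 := wt_le_two hT.a_pos hx'
  have j0 : JG 0 ((F.m s).pm (τ.N u).Ψ) x ‖x‖ ε0 := fun l hl a c =>
    (hg.jet x hx' l (hl.trans (Nat.zero_le _)) a c).trans (by nlinarith)
  have j1 : JAll (fun i => |Cs i|) ((F.m s).pm (τ.N u).Ψ) x ‖x‖ 2 := fun l a c =>
    (hg.all x hx' l a c).trans (mul_le_mul (le_abs_self _) hw2 hw (abs_nonneg _))
  rw [hT.par.par_rc (F.m s) i hx']
  exact (hC' i _ _ x _ (hT.par.riem (F.m s)) hx' (hT.a_pos.trans hx'.1) j0 j1).trans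
    ((le_abs_self _).trans (Finset.single_le_sum (f := fun i => |C' i|)
      (fun _ _ => abs_nonneg _) (Finset.mem_range.2 (Nat.lt_succ_of_le hi))))

variable {A R' δ : ℝ} {n0 : ℕ} {b : ℝ → M → ℝ} {b' : ℕ → ℝ → M → ℝ}

theorem ar_near {x y β σ B r : ℝ} {j : ℕ} (hσ : 0 < σ) (hσ2 : σ ^ 2 = 8 * B) (h1 : 2 ^ j * σ ≤ x)
    (h2 : x ≤ 2 ^ (j + 1) * σ) (hn : x ≤ r) (y1 : x / 2 ≤ y) (y2 : y ≤ 21 / 10 * x)
    (b1 : y ^ 2 / 2 ≤ β) (b2 : β ≤ 2 * y ^ 2) :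
    4 ^ j * B ≤ β ∧ β ≤ 512 * 4 ^ j * B ∧ β ≤ 9 * r ^ 2 ∧ x ≤ 3 * √β := by
  have x0 : 0 < x := lt_of_lt_of_le (by positivity) h1
  have c1 : (x / 2) ^ 2 ≤ y ^ 2 := pow_le_pow_left₀ (by positivity) y1 2
  have c2 : y ^ 2 ≤ (21 / 10 * x) ^ 2 := pow_le_pow_left₀ (by linarith) y2 2
  have e4 : (2 ^ j * σ) ^ 2 = 8 * (4 ^ j * B) := by
    rw [mul_pow, hσ2, ← pow_mul, mul_comm j 2, pow_mul]; norm_num; ring
  have c3 : (2 ^ j * σ) ^ 2 ≤ x ^ 2 := pow_le_pow_left₀ (by positivity) h1 2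
  have c4 : x ^ 2 ≤ (2 ^ (j + 1) * σ) ^ 2 := pow_le_pow_left₀ x0.le h2 2
  have e5 : (2 ^ (j + 1) * σ) ^ 2 = 4 * (2 ^ j * σ) ^ 2 := by ring
  have c5 : x ^ 2 ≤ r ^ 2 := pow_le_pow_left₀ x0.le hn 2
  have c6 : 0 ≤ (2 ^ j * σ) ^ 2 := sq_nonneg _
  have c7 := sq_nonneg x
  rw [div_pow] at c1
  rw [mul_pow] at c2
  rw [mul_assoc]
  refine ⟨by linarith, by linarith, by linarith,
    le_of_pow_le_pow_left₀ two_ne_zero (by positivity) ?_⟩
  rw [mul_pow, Real.sq_sqrt (by linarith)]; linarith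

theorem ar_far {x w r Cf : ℝ} {i : ℕ} (hr : 0 < r) (hn : r < x) (hw : 0 ≤ w)
    (f : x ^ (i + 2) * w ≤ Cf) : x ^ i * w ≤ Cf / r ^ 3 * x := by
  have x0 : 0 < x := hr.trans hn
  rw [div_mul_eq_mul_div, le_div_iff₀ (by positivity)]
  calc x ^ i * w * r ^ 3 ≤ x ^ i * w * x ^ 3 := by gcongr
    _ = x ^ (i + 2) * w * x := by ring
    _ ≤ Cf * x := by gcongr

theorem ar_sum {B e S T D R p : ℝ} (hB : 0 ≤ B) (hD : 0 ≤ D) (hp : 1 ≤ p) (h1 : B * (1 + S) ≤ e)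
    (h2 : T ≤ 4 * (R / 4)) :
    32768 * B * (1 + (p * S + D * T)) ≤ 32768 * (p * e + D * R * B) := by
  have s1 := mul_le_mul_of_nonneg_left h2 (mul_nonneg hB hD)
  have s2 := mul_le_mul_of_nonneg_left h1 (zero_le_one.trans hp)
  have s3 := mul_le_mul_of_nonneg_right hp hB
  linarith

theorem RD.near (D : RD F τ A R' δ n0 b b') (h : τ.Ok F m1 η Cs V) (hK : τ.K ≤ A) {k : ℕ}
    (hk : n0 ≤ k) {u s : ℝ} (hu : u ∈ τ.I k) (hus : u ≤ s) (hs : s ≤ u + τ.c * τ.lam k)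
    (hs' : s ≤ τ.t (k + 1)) {x : E4} (hx : x ∈ shell (τ.lam k) τ.R)
    (h1 : 2 * (A * τ.lam k) ≤ ‖x‖) (h2 : ‖x‖ ≤ τ.R / 4) (h3 : 3 * ‖x‖ ≤ R') :
    ∃ y : ℝ, ‖x‖ / 2 ≤ y ∧ y ≤ 21 / 10 * ‖x‖ ∧ y ^ 2 / 2 ≤ b s ((τ.N u).Ψ x) ∧
      b s ((τ.N u).Ψ x) ≤ 2 * y ^ 2 := by
  obtain ⟨k', hk', hsk⟩ := exists_I h (n := k) ⟨hu.1.trans hus, hs'⟩
  have hl := lam_pos h k
  have hll := lam_anti h hk'
  have hK4 := h.K_ge
  have hx' : x ∈ shell (τ.N u).a (τ.N u).b := by rwa [h.a_eq k u hu, h.b_eq k u hu]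
  have a0 : τ.lam k ≤ τ.K * τ.lam k := le_mul_of_one_le_left hl.le (by linarith)
  have a1 : τ.K * τ.lam k ≤ A * τ.lam k := mul_le_mul_of_nonneg_right hK hl.le
  have a2 : A * τ.lam k' ≤ A * τ.lam k := mul_le_mul_of_nonneg_left hll (by linarith)
  have hc : Cmp (τ.N u) (τ.N s) (τ.K * τ.lam k) τ.R := h.cmp k k' u hu s hsk _ le_rfl
    (mul_le_mul_of_nonneg_left hll (by linarith)) (by
      rw [abs_sub_comm, abs_of_nonneg (sub_nonneg.2 hus)]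
      linarith [mul_le_mul_of_nonneg_left a0 h.c_pos.le])
  obtain ⟨y, hy, y1, y2⟩ := transfer (h.top k u hu) hc hx' (by linarith) h2
  have b1 := D.o2 k' (hk.trans hk') s hsk y (by linarith) (by linarith [norm_nonneg x])
  rw [hy] at b1
  exact ⟨‖y‖, y1, y2, b1⟩

theorem RD.ebd (D : RD F τ A R' δ n0 b b') (h : τ.Ok F m1 η Cs V) (hK : τ.K ≤ A) {m : ℕ}
    {Cf r1 hh : ℝ} (hCf : 0 ≤ Cf) (hF : Far F τ m Cf) (hr1 : 0 < r1) (hr : 3 * r1 ≤ R')
    (hrh : 9 * r1 ^ 2 ≤ hh) {k : ℕ} (hk : n0 ≤ k) {u s B e : ℝ} (hu : u ∈ τ.I k) (hus : u ≤ s)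
    (hs : s ≤ u + τ.c * τ.lam k) (hs' : s ≤ τ.t (k + 1)) (hB : (A * τ.lam k) ^ 2 ≤ B)
    (hE : EbH F.hc b m s B hh e) :
    Ebd (F.m s) (τ.N u) m √(32768 * B) (32768 * (3 ^ m * e + Cf / r1 ^ 3 * τ.R * B)) := by
  obtain ⟨J, hJ0, hJ, hJs⟩ := hE
  have hl := lam_pos h k
  have hK4 := h.K_ge
  have hAl : τ.lam k ≤ A * τ.lam k := le_mul_of_one_le_left hl.le (by linarith)
  have hB0 : 0 < B := lt_of_lt_of_le (pow_pos (hl.trans_le hAl) 2) hB
  have hρ : √(32768 * B) ^ 2 = 32768 * B := Real.sq_sqrt (by positivity)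
  obtain ⟨σ, hσ⟩ : ∃ σ, σ = √(32768 * B) / 64 := ⟨_, rfl⟩
  have hσ0 : 0 < σ := by rw [hσ]; positivity
  have hσ2 : σ ^ 2 = 8 * B := by rw [hσ, div_pow, hρ]; ring
  have hσA : 2 * (A * τ.lam k) ≤ σ :=
    le_of_pow_le_pow_left₀ two_ne_zero hσ0.le (by rw [mul_pow 2]; linarith)
  have hRp := R_pos h
  have hD : 0 ≤ Cf / r1 ^ 3 := by positivity
  refine ⟨fun j => 3 ^ m * J j + Cf / r1 ^ 3 * (if 2 ^ j * σ ≤ τ.R / 4 then 2 ^ (j + 1) * σ else 0),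
    fun j => ?_, fun j x h1 h2 h3 i hi => ?_, fun n => ?_⟩
  · have := hJ0 j
    beta_reduce
    split_ifs <;> positivity
  · rw [h.b_eq k u hu] at h3
    rw [← hσ] at h1 h2
    have x1 : σ ≤ ‖x‖ := (le_mul_of_one_le_left hσ0.le (one_le_pow₀ one_le_two)).trans h1
    have hx : x ∈ shell (τ.lam k) τ.R := ⟨by linarith, by linarith⟩
    beta_reduce
    rw [if_pos (h1.trans h3)]
    have hJj := hJ0 j
    rcases le_or_gt ‖x‖ r1 with hn | hn
    · obtain ⟨y, y1, y2, b1, b2⟩ := D.near h hK hk hu hus hs hs' hx (hσA.trans x1) h3 (by linarith)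
      obtain ⟨c1, c2, c3, c4⟩ := ar_near hσ0 hσ2 h1 h2 hn y1 y2 b1 b2
      have c7 := hJ j _ c1 c2 (c3.trans hrh) i hi
      refine le_trans ?_ (le_add_of_nonneg_right (by positivity))
      refine (mul_le_mul_of_nonneg_right (pow_le_pow_left₀ (norm_nonneg _) c4 i)
        (Real.sqrt_nonneg _)).trans ?_
      rw [mul_pow, mul_assoc]
      exact mul_le_mul (pow_le_pow_right₀ (by norm_num) hi) c7 (by positivity) (by positivity)
    · exact ((ar_far hr1 hn (Real.sqrt_nonneg _) (hF k u hu s hus hs (lt_T h hs') x hx i hi)).trans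
        (mul_le_mul_of_nonneg_left h2 hD)).trans (le_add_of_nonneg_left (by positivity))
  · rw [hρ, Finset.sum_add_distrib, ← Finset.mul_sum, ← Finset.mul_sum]
    exact ar_sum hB0.le hD (one_le_pow₀ (by norm_num)) (hJs n)
      (sum_far hσ0.le (show 0 ≤ τ.R / 4 by positivity) n)

theorem ar_sup {p C A l E L B X : ℝ} (hl : 0 < l) (hl1 : l ≤ 1) (hE : 0 ≤ E) (hL : 0 ≤ L)
    (hX : 0 ≤ X) (hB : B ≤ L * l ^ 2) :
    32768 * (p * (C * (A * l)) + E * B) ≤ (32768 * p * (C * A) + 32768 * (E * L) + X) * l := by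
  have f1 : B ≤ L * l := hB.trans (mul_le_mul_of_nonneg_left (by nlinarith) hL)
  have f2 := mul_le_mul_of_nonneg_left f1 hE
  have f3 := mul_nonneg hX hl.le
  linarith

theorem ar_P {a C A P E B L l d : ℝ} (hB0 : 0 ≤ B) (hB : B ≤ L * l ^ 2) (hd : 0 ≤ d)
    (hP : l ^ 4 * d ≤ P) : 2 * a ^ 2 * (C * (A ^ 5 * P)) + 2 * (32768 * E * B) ^ 2 * d ≤
      (2 * a ^ 2 * C * A ^ 5 + 2 * (32768 * E * L) ^ 2) * P := by
  have f2 : B ^ 2 * d ≤ L ^ 2 * P := by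
    calc _ ≤ (L * l ^ 2) ^ 2 * d := mul_le_mul_of_nonneg_right (pow_le_pow_left₀ hB0 hB 2) hd
      _ = L ^ 2 * (l ^ 4 * d) := by ring
      _ ≤ _ := mul_le_mul_of_nonneg_left hP (sq_nonneg _)
  have f3 := mul_le_mul_of_nonneg_left f2 (show 0 ≤ 2 * (32768 * E) ^ 2 by positivity)
  linarith

theorem ar_end {θ Z0 Z1 Z X1 X2 P0 P1 P : ℝ} (hθ : 0 ≤ θ) (z0 : 0 ≤ Z0) (z1 : 0 ≤ Z1)
    (x1 : 0 ≤ X1) (x2 : 0 ≤ X2) (p0 : 0 ≤ P0) (p1 : 0 ≤ P1) (p : 0 ≤ P) :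
    θ * Z + X2 * P ≤ θ * (Z0 + Z1 + Z) + (X1 + X2) * (P0 + P1 + P) := by
  have := mul_nonneg hθ (add_nonneg z0 z1)
  have := mul_nonneg x1 (add_nonneg (add_nonneg p0 p1) p)
  have := mul_nonneg x2 (add_nonneg p0 p1)
  linarith

/-- the integral estimate -/
theorem int_est {s0 s1 a D θ Z C P X : ℝ} {e : ℝ → ℝ} (hs : s0 ≤ s1)
    (he : ContinuousOn e (Icc s0 s1)) (h : ∫ s in s0..s1, e s ^ 2 ≤ θ / (2 * a ^ 2) * Z + C)
    (ha : 0 < a) (hP : 2 * a ^ 2 * C + 2 * D ^ 2 * (s1 - s0) ≤ X * P) :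
    ∫ s in s0..s1, (a * e s + D) ^ 2 ≤ θ * Z + X * P := by
  have i1 : IntervalIntegrable (fun s => e s ^ 2) volume s0 s1 :=
    (he.pow 2).intervalIntegrable_of_Icc hs
  have i2 : IntervalIntegrable (fun s => (a * e s + D) ^ 2) volume s0 s1 :=
    (((continuousOn_const.mul he).add continuousOn_const).pow 2).intervalIntegrable_of_Icc hs
  have h1 : ∫ s in s0..s1, (a * e s + D) ^ 2 ≤ ∫ s in s0..s1, (2 * a ^ 2 * e s ^ 2 + 2 * D ^ 2) :=
    intervalIntegral.integral_mono_on hs i2 ((i1.const_mul _).add intervalIntegrable_const)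
      fun s _ => by nlinarith [sq_nonneg (a * e s - D)]
  rw [intervalIntegral.integral_add (i1.const_mul _) intervalIntegrable_const,
    intervalIntegral.integral_const_mul, intervalIntegral.integral_const, smul_eq_mul] at h1
  have h2 := mul_le_mul_of_nonneg_left h (show 0 ≤ 2 * a ^ 2 by positivity)
  have h3 : 2 * a ^ 2 * (θ / (2 * a ^ 2) * Z + C) = θ * Z + 2 * a ^ 2 * C := by field_simp
  linarith

theorem P_est (h : τ.Ok F m1 η Cs V) (hA : 1 ≤ A) (n0 n : ℕ) :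
    (A * τ.lam (n0 + n)) ^ 4 * (1 + ((n + 1) *
      memH (fun k => A * τ.lam (n0 + k)) (fun k => τ.t (n0 + k)) n) ^ 2 * τ.d (n0 + n)) ≤
      A ^ 5 * τ.P (n0 + n) := by
  have h1 := memH_le h hA n0 n
  have hd := d_pos h (n0 + n)
  have hl := lam_pos h (n0 + n)
  have hm := mem_ge h (n0 + n)
  have h0 : 0 ≤ memH (fun k => A * τ.lam (n0 + k)) (fun k => τ.t (n0 + k)) n :=
    add_nonneg zero_le_one (Finset.sum_nonneg fun j _ => div_nonneg (Real.sqrt_nonneg _)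
      (Real.rpow_nonneg (d_pos h (n0 + j + 1)).le _))
  have h2 : ((n : ℝ) + 1) * memH (fun k => A * τ.lam (n0 + k)) (fun k => τ.t (n0 + k)) n ≤
      √A * τ.be (n0 + n) := by
    have : (n : ℝ) + 1 ≤ ((n0 + n : ℕ) : ℝ) + 1 := by
      push_cast; linarith [n0.cast_nonneg (α := ℝ)]
    calc _ ≤ (((n0 + n : ℕ) : ℝ) + 1) * (√A * τ.mem (n0 + n)) :=
          mul_le_mul this h1 h0 (by positivity)
      _ = _ := by unfold TopD.be; ring
  have h3 := pow_le_pow_left₀ (by positivity) h2 2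
  rw [mul_pow √A, Real.sq_sqrt (by linarith)] at h3
  have h4 := mul_le_mul_of_nonneg_right h3 hd.le
  calc _ ≤ (A * τ.lam (n0 + n)) ^ 4 * (A * (1 + τ.be (n0 + n) ^ 2 * τ.d (n0 + n))) :=
        mul_le_mul_of_nonneg_left (by linarith) (by positivity)
    _ = _ := by unfold TopD.P; ring

theorem P_ge (h : τ.Ok F m1 η Cs V) (n : ℕ) : τ.lam n ^ 4 * τ.d n ≤ τ.P n := by
  have hd := d_pos h n
  have hb := be_ge h n
  have h1 : 1 ≤ τ.be n ^ 2 := one_le_pow₀ hb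
  exact mul_le_mul_of_nonneg_left (by nlinarith) (by positivity)

end Pe

open Pe

variable {M : Type*} [TopologicalSpace M] [ChartedSpace E4 M] [IsManifold 𝓘(ℝ, E4) ∞ M]
  [T3Space M] [ConnectedSpace M] [MeasurableSpace M] [BorelSpace M] [CompactSpace M]
  {F : Flow M}

theorem pest (hR : RAD F) (hC : CURV) (hP : PH F.hc) : Sk.PEST F := by
  intro m
  obtain ⟨mR, ηR, hηR, hR⟩ := hR
  obtain ⟨C0, ε0, hC0, hε0, cv1, cv2⟩ := hC
  refine ⟨max mR 2, min ηR (ε0 / 2), lt_min hηR (by positivity),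
    fun m1 η Cs V τ hm hη h θ A hθ hA => ?_⟩
  have hη2 : η ≤ ε0 / 2 := hη.trans (min_le_right _ _)
  set a : ℝ := 32768 * 3 ^ m with ha
  have ha0 : 0 < a := by positivity
  obtain ⟨δ, hδ, hP⟩ := hP (F.T / 2) τ.K (16 * |V|) (θ / (2 * a ^ 2)) m (half_pos F.hT) h.K_ge
    (by positivity)
  obtain ⟨A0, R0, n0, b, b', hA0, hR0, d1, d2, d3⟩ := hR m1 η Cs V τ ((le_max_left _ _).trans hm)
    (hη.trans (min_le_left _ _)) h δ hδ
  have D0 : RD F τ A0 R0 δ n0 b b' := ⟨d1,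
    fun k hk => by obtain ⟨n, rfl⟩ := Nat.exists_eq_add_of_le hk; exact d2 n,
    fun k hk => by obtain ⟨n, rfl⟩ := Nat.exists_eq_add_of_le hk; exact d3 n⟩
  set κ : ℝ := δ / (C0 * ε0) with hκ
  have hκ0 : 0 < κ := by positivity
  have hRp := R_pos h
  obtain ⟨A1, e1, e2, e3, e4⟩ : ∃ A1, A0 ≤ A1 ∧ A ≤ A1 ∧ τ.K ≤ A1 ∧ 2 / κ ^ 2 ≤ A1 :=
    ⟨max (max A0 A) (max τ.K (2 / κ ^ 2)), by simp, by simp, by simp, by simp⟩
  obtain ⟨R1, r0, r1, r2, r3, r4⟩ : ∃ R1, 0 < R1 ∧ R1 ≤ R0 ∧ R1 ≤ κ ^ 2 * τ.R / 2 ∧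
      R1 ≤ τ.R / 2 ∧ R1 ≤ √δ :=
    ⟨min (min R0 (κ ^ 2 * τ.R / 2)) (min (τ.R / 2) √δ), by positivity, by simp, by simp, by simp,
      by simp⟩
  have hA1 : 1 ≤ A1 := hA0.trans e1
  have D := D0.mono h (by linarith) e1 r0.le r1
  have rd := D.rd h hC0 hε0 hη2 ((le_max_right _ _).trans hm) cv1 hκ0
    (by rw [hκ]; exact le_of_eq (by field_simp)) hA1 ((div_le_iff₀ (by positivity)).1 e4) r0
    (by linarith) (by linarith)
  obtain ⟨L, C, hh, nH, B, e, hC, hh0, hB, hP⟩ := hP _ _ _ _ _ _ _ rd le_rfl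
    ((Real.le_sqrt r0.le hδ.le).1 r4) (h.t0.trans (t_mono h (Nat.zero_le _))) 1
  simp only [one_mul] at hB
  obtain ⟨Cf, hCf, hF⟩ := exists_far h hε0 hη2 cv2 m
  obtain ⟨r, q0, q1, q2⟩ : ∃ r, 0 < r ∧ r ≤ R1 / 3 ∧ r ≤ √hh / 3 :=
    ⟨min (R1 / 3) (√hh / 3), by positivity, min_le_left _ _, min_le_right _ _⟩
  have q3 : 9 * r ^ 2 ≤ hh := by
    have := (Real.le_sqrt (by positivity) hh0.le).1 (show 3 * r ≤ √hh by linarith)
    linarith
  set E : ℝ := Cf / r ^ 3 * τ.R with hE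
  have hE0 : 0 ≤ E := by positivity
  set L1 : ℝ := |L| * A1 ^ 2 with hL1
  have hL0 : 0 ≤ L1 := by positivity
  have hBL : ∀ k, B k ≤ L1 * τ.lam (n0 + k) ^ 2 := fun k => (hB k).2.trans (by
    rw [hL1, mul_assoc, ← mul_pow]
    exact mul_le_mul_of_nonneg_right (le_abs_self L) (sq_nonneg _))
  have hB0 : ∀ k, 0 ≤ B k := fun k => (sq_nonneg _).trans (hB k).1
  obtain ⟨n1, hn1⟩ : ∃ n1, ∀ k, n1 ≤ k → 32 * (L1 * τ.lam k ^ 2) ≤ R1 ^ 2 := by
    have : Tendsto (fun k => 32 * (L1 * τ.lam k ^ 2)) atTop (𝓝 (32 * (L1 * 0 ^ 2))) :=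
      (((lam_lim h).pow 2).const_mul _).const_mul _
    exact eventually_atTop.1 (this.eventually (ge_mem_nhds (by simpa using pow_pos r0 2)))
  set X1 : ℝ := a * (C * A1) + 32768 * (E * L1) with hX1
  set X2 : ℝ := 2 * a ^ 2 * C * A1 ^ 5 + 2 * (32768 * E * L1) ^ 2 with hX2
  have x1 : 0 < X1 := by positivity
  have x2 : 0 < X2 := by positivity
  refine ⟨max A √(32768 * L1), X1 + X2, n0 + nH + n1,
    fun n => if n0 ≤ n then √(32768 * B (n - n0)) else A * τ.lam n,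
    fun n s => a * e (n - n0) s + 32768 * E * B (n - n0), by positivity, fun n => ?_,
    fun n hn => ?_⟩
  · have hl := lam_pos h n
    by_cases hn : n0 ≤ n
    · obtain ⟨k, rfl⟩ := Nat.exists_eq_add_of_le hn
      simp only [if_pos hn, Nat.add_sub_cancel_left]
      constructor
      · refine Real.le_sqrt_of_sq_le ?_
        have := pow_le_pow_left₀ (by positivity) (mul_le_mul_of_nonneg_right e2 hl.le) 2
        linarith [(hB k).1, hB0 k]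
      · refine le_trans ?_ (mul_le_mul_of_nonneg_right (le_max_right _ _) hl.le)
        refine Real.sqrt_le_iff.2 ⟨by positivity, ?_⟩
        rw [mul_pow, Real.sq_sqrt (by positivity)]
        linarith [hBL k]
    · simp only [if_neg hn]
      exact ⟨le_rfl, mul_le_mul_of_nonneg_right (le_max_left _ _) hl.le⟩
  · obtain ⟨k, hk⟩ : ∃ k, n + 2 = n0 + k := ⟨n + 2 - n0, by omega⟩
    have z0 := Z_nonneg h (fun n => if n0 ≤ n then √(32768 * B (n - n0)) else A * τ.lam n) n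
    have z1 := Z_nonneg h (fun n => if n0 ≤ n then √(32768 * B (n - n0)) else A * τ.lam n) (n + 1)
    have p0 := P_nonneg h n
    have p1 := P_nonneg h (n + 1)
    generalize τ.Z F _ n = Z0 at z0 ⊢
    generalize τ.Z F _ (n + 1) = Z1 at z1 ⊢
    rw [show n + 3 = n0 + k + 1 by omega, hk]
    have hk0 : n0 ≤ n0 + k := Nat.le_add_right _ _
    simp only [if_pos hk0, Nat.add_sub_cancel_left, Sk.TopD.Z]
    obtain ⟨c1, c2, c3, c4⟩ := hP k (by omega)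
    have hlt := (t_lt h (n0 + k)).le
    have hl := lam_pos h (n0 + k)
    have hl1 := lam_le_one h (n0 + k)
    have cc : ContinuousOn (fun s => a * e k s + 32768 * E * B k)
        (Icc (τ.t (n0 + k)) (τ.t (n0 + k + 1))) := (continuousOn_const.mul c1).add continuousOn_const
    refine ⟨cc.intervalIntegrable_of_Icc hlt, (cc.pow 2).intervalIntegrable_of_Icc hlt,
      fun u hu s h1 h2 => ⟨fun h3 => ?_, fun h3 => ?_⟩, ?_⟩
    · refine ebd_mono (D.ebd h e3 hCf hF q0 (by linarith) q3 hk0 hu h1 h2 h3.le (hB k).1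
        (c2 s ⟨hu.1.trans h1, h3.le⟩).1) (le_of_eq ?_)
      rw [ha, hE]; ring
    · refine ebd_mono (D.ebd h e3 hCf hF q0 (by linarith) q3 hk0 hu h1 h2 h3 (hB k).1
        (c2 s ⟨hu.1.trans h1, h3⟩).2) ?_
      rw [← hE, hX1, ha]
      exact ar_sup hl hl1 hE0 hL0 x2.le (hBL k)
    · have hs := hn1 (n0 + k) (by omega)
      have hBk := hBL k
      have hρ : (√(32768 * B k) / 32) ^ 2 = 32 * B k := by
        rw [div_pow, Real.sq_sqrt (by linarith [hB0 k])]; ring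
      have hAl : τ.lam (n0 + k) ^ 2 ≤ B k :=
        le_trans (pow_le_pow_left₀ hl.le (le_mul_of_one_le_left hl.le hA1) 2) (hB k).1
      have g1 : τ.lam (n0 + k) ≤ √(32768 * B k) / 32 :=
        le_of_pow_le_pow_left₀ two_ne_zero (by positivity) (by linarith [hB0 k])
      have g2 : √(32768 * B k) / 32 ≤ R1 := le_of_pow_le_pow_left₀ two_ne_zero r0.le (by linarith)
      have an : ∫ s in τ.t (n0 + k)..τ.t (n0 + k + 1),
          An F.hc b (F.hc.Q 0) ((A1 * τ.lam (n0 + k)) ^ 2) (8 * B k) s ≤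
          ∫ s in τ.t (n0 + k)..τ.t (n0 + k + 1), τ.ms F (√(32768 * B k) / 32) s :=
        intervalIntegral.integral_mono_on_of_le_Ioo hlt
          ((intervalIntegrable_iff_integrableOn_Icc_of_le hlt).2 c3)
          (h.int _ _ ⟨g1, by linarith⟩) fun s hs' =>
            D.an_le h hk0 (Ioo_subset_Ico_self hs') (by linarith [hB0 k]) (hl.trans_le g1) hρ.ge
      have pe := P_est h hA1 n0 k
      have pg := P_ge h (n0 + k)
      have p2 := P_nonneg h (n0 + k)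
      have hd := d_pos h (n0 + k)
      exact (int_est (D := 32768 * E * B k) (X := X2) (P := τ.P (n0 + k)) hlt c1
        (c4.trans (add_le_add (mul_le_mul_of_nonneg_left an (by positivity))
          (mul_le_mul_of_nonneg_left pe hC.le))) ha0 (ar_P (hB0 k) hBk hd.le pg)).trans
        (ar_end hθ.le z0 z1 x1.le x2.le p0 p1 p2)

end Crest.Agent.N207.NP

end
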