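import Crest.Agent.N207.Sk.Dyn
import Crest.Agent.N207.NP.Defs

/-!
# Row 207, block P (helper85): the statements `RAD`, `CURV`, `PH`; `PEST` follows from them
-/

set_option autoImplicit false
set_option linter.dupNamespace false
set_option linter.unusedSectionVars false

open scoped ContDiff Manifold Topology
open Set MeasureTheory Filter
open Crest.GeometryTopology.CoordMetric Crest.GeometryTopology.ChartCurvature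
  Crest.GeometryTopology.MetricFamily

noncomputable section

namespace Crest.Agent.N207.NP

section HCpart

variable {M : Type*} [TopologicalSpace M] [CompactSpace M] [MeasurableSpace M]

/-- `∫_{l ≤ b ≤ u} f` at time `t` -/
def An (H : HC M) (b f : ℝ → M → ℝ) (l u t : ℝ) : ℝ :=
  ∫ x in {x | l ≤ b t x ∧ b t x ≤ u}, f t x ∂H.vol t

/-- the scalar data of the top neck `a n ^ 2 ≤ b ≤ hi` on the strips `[tt n, tt (n+1)]` -/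
structure Rd (H : HC M) (a tt : ℕ → ℝ) (hi del K c Cv : ℝ) (b : ℝ → M → ℝ)
    (b' : ℕ → ℝ → M → ℝ) : Prop where
  nk : ∀ n, Nk H (tt n) (tt (n + 1)) (a n ^ 2) hi del b (b' n)
  a_pos : 0 < a 0
  a_eq : ∀ n, a n = a 0 / K ^ n
  hi_pos : 0 < hi
  c_pos : 0 < c
  d_ge : ∀ n, c * a n ≤ tt (n + 1) - tt n
  dec : ∀ n, ∀ t ∈ Icc (tt n) (tt (n + 1)), ∀ x, a n ^ 2 ≤ b t x → b t x ≤ hi →
    √(H.N 0 t x) ≤ del / b t x * ((a n ^ 2 / b t x) ^ (1 / 16 : ℝ) + (b t x / hi) ^ (1 / 16 : ℝ))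
  vol : ∀ n, ∀ t ∈ Icc (tt n) (tt (n + 1)), ∀ β ≤ hi,
    (H.vol t).real {x | a n ^ 2 ≤ b t x ∧ b t x ≤ β} ≤ Cv * β ^ 2

/-- the memory term -/
def memH (a tt : ℕ → ℝ) (n : ℕ) : ℝ :=
  1 + ∑ j ∈ Finset.range (n - 1), √(a j) / (tt (j + 2) - tt (j + 1)) ^ (3 / 4 : ℝ)

/-- `e` bounds `B (1 + ∑ⱼ` jets of `Ric` on the `j`-th shell`)` -/
def EbH (H : HC M) (b : ℝ → M → ℝ) (m : ℕ) (s B h e : ℝ) : Prop :=
  ∃ J : ℕ → ℝ, (∀ j, 0 ≤ J j) ∧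
    (∀ (j : ℕ) (p : M), 4 ^ j * B ≤ b s p → b s p ≤ 512 * 4 ^ j * B → b s p ≤ h →
      ∀ k ≤ m, √(b s p) ^ k * √(H.Q k s p) ≤ J j) ∧
    ∀ n, B * (1 + ∑ j ∈ Finset.range n, J j) ≤ e

/-- the scalar form of block P -/
def PH (H : HC M) : Prop :=
  ∀ (t0 K Cv θ : ℝ) (m : ℕ), 0 < t0 → 4 ≤ K → 0 < θ → ∃ δ0 : ℝ, 0 < δ0 ∧
    ∀ (a tt : ℕ → ℝ) (hi del c : ℝ) (b : ℝ → M → ℝ) (b' : ℕ → ℝ → M → ℝ),
      Rd H a tt hi del K c Cv b b' → del ≤ δ0 → hi ≤ δ0 → t0 ≤ tt 0 → ∀ A : ℝ,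
      ∃ (L C h : ℝ) (n0 : ℕ) (B : ℕ → ℝ) (e : ℕ → ℝ → ℝ), 0 < C ∧ 0 < h ∧
        (∀ n, A * a n ^ 2 ≤ B n ∧ B n ≤ L * a n ^ 2) ∧ ∀ n, n0 ≤ n →
          ContinuousOn (e n) (Icc (tt n) (tt (n + 1))) ∧
          (∀ s ∈ Icc (tt n) (tt (n + 1)),
            EbH H b m s (B n) h (e n s) ∧ EbH H b m s (B n) h (C * a n)) ∧
          IntegrableOn (An H b (H.Q 0) (a n ^ 2) (8 * B n)) (Icc (tt n) (tt (n + 1))) ∧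
          ∫ s in tt n..tt (n + 1), e n s ^ 2 ≤
            θ * (∫ s in tt n..tt (n + 1), An H b (H.Q 0) (a n ^ 2) (8 * B n) s) +
              C * (a n ^ 4 * (1 + ((n + 1) * memH a tt n) ^ 2 * (tt (n + 1) - tt n)))

end HCpart

/-- curvature bounds from jet bounds, in coordinates -/
def CURV : Prop :=
  ∃ C ε0 : ℝ, 0 < C ∧ 0 < ε0 ∧
    (∀ (G : MetricField 4) (U : Set E4) (x : E4) (s ε : ℝ), IsRiemannianOn G U → x ∈ U → 0 < s →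
      ε ≤ ε0 → Sk.JG 2 G x s ε → √(nsq G (rmT G) x) ≤ C * ε / s ^ 2) ∧
    ∀ (k : ℕ) (Cs : ℕ → ℝ), ∃ C' : ℝ, ∀ (G : MetricField 4) (U : Set E4) (x : E4) (s : ℝ),
      IsRiemannianOn G U → x ∈ U → 0 < s → Sk.JG 0 G x s ε0 → Sk.JAll Cs G x s 2 →
        s ^ (k + 2) * √(nsq G (covN G (ricT G) k) x) ≤ C'

variable {M : Type*} [TopologicalSpace M] [ChartedSpace E4 M] [IsManifold 𝓘(ℝ, E4) ∞ M]
  [T3Space M] [ConnectedSpace M] [MeasurableSpace M] [BorelSpace M] [CompactSpace M]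

/-- block P0: the radial function -/
def RAD (F : Flow M) : Prop :=
  ∃ (m0 : ℕ) (η0 : ℝ), 0 < η0 ∧ ∀ (m1 : ℕ) (η : ℝ) (Cs : ℕ → ℝ) (V : ℝ) (τ : Sk.TopD M),
    m0 ≤ m1 → η ≤ η0 → τ.Ok F m1 η Cs V → ∀ δ : ℝ, 0 < δ →
    ∃ (A R' : ℝ) (n0 : ℕ) (b : ℝ → M → ℝ) (b' : ℕ → ℝ → M → ℝ), 1 ≤ A ∧ 0 < R' ∧
      (∀ n, Nk F.hc (τ.t (n0 + n)) (τ.t (n0 + n + 1)) ((A * τ.lam (n0 + n)) ^ 2) (R' ^ 2) δ b
        (b' n)) ∧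
      (∀ n, ∀ s ∈ τ.I (n0 + n), ∀ p, (A * τ.lam (n0 + n)) ^ 2 ≤ b s p → b s p ≤ R' ^ 2 →
        ∃ x ∈ Sk.shell (τ.lam (n0 + n)) τ.R, (τ.N s).Ψ x = p ∧
          ‖x‖ ^ 2 / 2 ≤ b s p ∧ b s p ≤ 2 * ‖x‖ ^ 2) ∧
      ∀ n, ∀ s ∈ τ.I (n0 + n), ∀ x : E4, A * τ.lam (n0 + n) ≤ ‖x‖ → ‖x‖ ≤ R' →
        ‖x‖ ^ 2 / 2 ≤ b s ((τ.N s).Ψ x) ∧ b s ((τ.N s).Ψ x) ≤ 2 * ‖x‖ ^ 2

end Crest.Agent.N207.NP

end
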