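import Crest.Agent.N207.NP.PH
import Crest.Agent.N207.NP.Pest2
import Crest.Agent.N207.Rad.Top
import Crest.Agent.N207.U.Curv
import Crest.Agent.N207.GE.Dist

/-!
# Row 207, block P (helper85): `PEST`
-/

set_option autoImplicit false
set_option linter.dupNamespace false

open scoped ContDiff Manifold

namespace Crest.Agent.N207.NP

variable {M : Type*} [TopologicalSpace M] [ChartedSpace E4 M] [IsManifold 𝓘(ℝ, E4) ∞ M]
  [T3Space M] [ConnectedSpace M] [MeasurableSpace M] [BorelSpace M] [CompactSpace M]

/-- block P -/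
theorem pestF {F : Flow M} (hB : Sk.Base F) : Sk.PEST F :=
  pest (Rad.rad hB (Sk.distN hB)) U.npCurv (ph_main hB.ok hB.e.reg)

end Crest.Agent.N207.NP
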