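import Crest.Agent.N207.NP.Sub
import Crest.Agent.N207.NP.Err

/-!
# Row 207, block P (helper85): jets of `Ric` from window integrals of the subsolution
-/

set_option autoImplicit false
set_option linter.dupNamespace false
set_option linter.unusedSectionVars false
open Set MeasureTheory Filter Topology
open scoped ContDiff

noncomputable section

namespace Crest.Agent.N207.NP

variable {M : Type*} [TopologicalSpace M] [CompactSpace M] [MeasurableSpace M]
  [OpensMeasurableSpace M] {H : HC M}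

/-- the integrand of the window integrals -/
def hf (H : HC M) (b X : ℝ → M → ℝ) (s0 D l u σ : ℝ) : ℝ :=
  if σ ≤ s0 then D else An H b (fun t x => X t x ^ 2) l u σ

namespace Rd

variable {a tt : ℕ → ℝ} {hi del K c Cv ν C cE : ℝ} {b : ℝ → M → ℝ} {b' : ℕ → ℝ → M → ℝ}
  {X X' : ℕ → ℝ → M → ℝ} (S : Rd H a tt hi del K c Cv b b') (hK : 4 ≤ K) (hE : 0 < cE)
  (hsm : K * cE * a 0 ≤ 5000 * c)
include S hK hE hsm

theorem past {m n : ℕ} {s σ β : ℝ} (hs : tt n ≤ s) (hσ : σ ≤ tt (m + 1)) (hβ : 8 * K ^ 2 * a n ^ 2 ≤ β)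
    (hw : s - σ ≤ cE * β / 40000) : 8 * a m ^ 2 ≤ β ∧ ∀ y, β / 2 ≤ y → √(a m) * y ^ (-(3 / 4) : ℝ) ≤
      (cE / 20000) ^ (3 / 4 : ℝ) * memH a tt n + 2 * √K * (√(a n) * β ^ (-(3 / 4) : ℝ)) := by
  have an := S.ap hK n
  have am := S.ap hK m
  have β0 : 0 < β := lt_of_lt_of_le (by positivity) hβ
  have m1 := memH_ge (a := a) S.smono.monotone n
  rcases le_or_gt n (m + 1) with h | h
  · have a1 : a m ≤ K * a n := by
      rw [S.a_succ hK m]; exact mul_le_mul_of_nonneg_left (S.a_anti hK h) (by linarith)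
    refine ⟨by nlinarith [pow_le_pow_left₀ am.le a1 2], fun y hy => ?_⟩
    have a2 : √(a m) ≤ √K * √(a n) := by
      rw [← Real.sqrt_mul (by linarith)]; exact Real.sqrt_le_sqrt a1
    have a3 : y ^ (-(3 / 4) : ℝ) ≤ 2 * β ^ (-(3 / 4) : ℝ) := by
      refine (Real.rpow_le_rpow_of_nonpos (by linarith) hy (by norm_num)).trans ?_
      rw [Real.div_rpow β0.le (by norm_num), Real.rpow_neg (by norm_num : (0 : ℝ) ≤ 2),
        div_inv_eq_mul, mul_comm]
      refine mul_le_mul_of_nonneg_right ?_ (Real.rpow_nonneg β0.le _)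
      simpa using Real.rpow_le_rpow_of_exponent_le (x := 2) (y := 3 / 4) (z := 1) (by norm_num)
        (by norm_num)
    have a4 := mul_le_mul a2 a3 (Real.rpow_nonneg (by linarith) _) (by positivity)
    have a5 : 0 ≤ (cE / 20000) ^ (3 / 4 : ℝ) * memH a tt n := by positivity
    linarith
  · have d1 := S.smono.monotone (show m + 2 ≤ n from h)
    have d2 := S.d_ge (m + 1)
    have d0 : 0 < tt (m + 2) - tt (m + 1) := sub_pos.2 (S.smono (by omega))
    have d3 : tt (m + 2) - tt (m + 1) ≤ cE * β / 40000 := by linarith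
    have a0 := S.a_anti hK m.zero_le
    refine ⟨?_, fun y hy => ?_⟩
    · have e := S.a_succ hK m
      have a1 := S.ap hK (m + 1)
      have b1 : K * cE * a m ≤ 5000 * c :=
        (mul_le_mul_of_nonneg_left a0 (by positivity)).trans hsm
      have b2 : 40000 * (c * a (m + 1)) ≤ cE * β := by
        have : c * a (m + 1) ≤ tt (m + 2) - tt (m + 1) := d2
        linarith
      refine le_of_mul_le_mul_left (le_trans ?_ b2) hE
      have b3 := mul_le_mul_of_nonneg_right b1 a1.le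
      have : cE * (8 * a m ^ 2) = 8 * (K * cE * a m * a (m + 1)) := by
        rw [pow_two]; nth_rewrite 2 [e]; ring
      linarith
    · have b1 : (tt (m + 2) - tt (m + 1)) / (cE / 20000) ≤ y := by
        rw [div_le_iff₀ (by positivity)]; nlinarith
      have b2 := Real.rpow_le_rpow_of_nonpos (by positivity) b1 (show (-(3 / 4) : ℝ) ≤ 0 by norm_num)
      rw [Real.rpow_neg (div_nonneg d0.le (by positivity)), Real.div_rpow d0.le (by positivity),
        inv_div] at b2
      have b3 := mul_le_mul_of_nonneg_left (memH_term (a := a) S.smono.monotone h)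
        (Real.rpow_nonneg (show 0 ≤ cE / 20000 by positivity) (3 / 4 : ℝ))
      have b4 := mul_le_mul_of_nonneg_left b2 (Real.sqrt_nonneg (a m))
      have b5 : 0 ≤ 2 * √K * (√(a n) * β ^ (-(3 / 4) : ℝ)) := by positivity
      have e : √(a m) * ((cE / 20000) ^ (3 / 4 : ℝ) / (tt (m + 2) - tt (m + 1)) ^ (3 / 4 : ℝ)) =
          (cE / 20000) ^ (3 / 4 : ℝ) * (√(a m) / (tt (m + 2) - tt (m + 1)) ^ (3 / 4 : ℝ)) := by ring
      linarith

variable (O : H.Ok) (hd : 0 ≤ del) (hd1 : del ≤ 1 / 50) (hdE : del * cE ≤ 10000) (hC : 1 ≤ C)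
  (hX : ∀ m, Xs H a tt hi ν C b m (X m) (X' m))
include O hd hd1 hdE hC hX

theorem slice {n : ℕ} {s σ βj C4 : ℝ} (hs : s ∈ Icc (tt n) (tt (n + 1))) {p : M}
    (hC4 : 8 * (C * (1 + (cE / 20000) ^ (3 / 4 : ℝ) + 2 * √K)) ^ 2 * Cv ≤ C4)
    (h1 : 8 * K ^ 2 * a n ^ 2 ≤ βj) (h2 : βj ≤ b s p) (h3 : b s p ≤ 512 * βj) (h4 : 8 * b s p ≤ hi)
    (h5 : tt 0 ≤ σ) (h6 : σ ≤ s) (h7 : s - σ ≤ cE * b s p / 40000) :
    ∫ z in H.B s p (√(b s p) / 200), H.Q 0 σ z ∂H.vol σ ≤
      2 * hf H b (X n) (tt n) (C4 * a n * √(512 * βj)) (βj / 2) (min (1024 * βj) (hi / 4)) σ +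
        C4 * memH a tt n ^ 2 * b s p ^ 2 := by
  have A := O.alg
  have β0 := (S.nk n).pos s hs p
  have an := S.ap hK n
  have Cv0 := S.Cv_nn
  have m1 := memH_ge (a := a) S.smono.monotone n
  set κ := (cE / 20000) ^ (3 / 4 : ℝ) with hκ
  have κ0 : 0 ≤ κ := by positivity
  have sK := Real.sqrt_nonneg K
  set C' := C * (1 + κ + 2 * √K) with hC'
  have CC : C ≤ C' := le_mul_of_one_le_right (by linarith) (by linarith)
  have win : ∀ m ≤ n, σ ∈ Icc (tt m) (tt (m + 1)) → ∀ z ∈ H.B s p (√(b s p) / 200),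
      b s p / 2 ≤ b σ z ∧ b σ z ≤ 2 * b s p := fun m hm hσ z hz => by
    have P := (S.past hK hE hsm hs.1 hσ.2 (h1.trans h2) h7).1
    refine S.win A O.dist hd hd1 hm hs hσ h6 (by linarith) (fun k p1 _ => ?_) ?_ hz
    · have := pow_le_pow_left₀ (S.ap hK k).le (S.a_anti hK p1) 2
      nlinarith [sq_nonneg (a m)]
    · have := mul_le_mul_of_nonneg_left h7 hd
      nlinarith
  unfold hf
  split_ifs with hσ
  · obtain ⟨m, hm, hσm⟩ := exists_strip h5 n (h6.trans hs.2)
    have P := S.past hK hE hsm hs.1 hσm.2 (h1.trans h2) h7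
    have hm' := (S.nk m).st.mem hσm
    set y := √(a n) * b s p ^ (-(3 / 4) : ℝ) with hy
    have y0 : 0 ≤ y := by positivity
    have a1 := int_le_an A O.int hm' (f := H.Q 0)
      (g := fun _ _ => 2 * C' ^ 2 * (memH a tt n ^ 2 + y ^ 2))
      ((S.nk m).tm.fix A hσm) (A.s0_Q hm' 0) (A.s0_const _) (O.evo.Q_nonneg 0 σ hm')
      (win m hm hσm) fun z l u => by
        have b1 := (hX m).ge σ hσm z (by linarith [P.1]) (by linarith)
        have b2 := (hX m).bd σ hσm z (by linarith [P.1]) (by linarith)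
        have b3 := mul_le_mul_of_nonneg_left (P.2 _ l) (show 0 ≤ C by linarith)
        have b4 := mul_le_mul_of_nonneg_left (memH_mono (a := a) S.smono.monotone hm)
          (show 0 ≤ C by linarith)
        have b5 : √(H.Q 0 σ z) ≤ C' * (memH a tt n + y) := by
          have c1 : 0 ≤ C * (2 * √K * memH a tt n + (1 + κ) * y) := by positivity
          rw [hC']; nlinarith
        have b6 := (Real.sqrt_le_left (by positivity)).1 b5
        nlinarith [mul_nonneg (sq_nonneg C') (sq_nonneg (memH a tt n - y))]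
    have a2 := S.an_const O.int hσm (w := 2 * C' ^ 2 * (memH a tt n ^ 2 + y ^ 2)) (l := b s p / 2)
      (u := 2 * b s p) (by positivity) (by nlinarith [P.1, sq_nonneg (a m)]) (by linarith)
    have a3 : y ^ 2 * b s p ^ 2 = a n * √(b s p) := by
      rw [hy, mul_pow, Real.sq_sqrt an.le, mul_assoc, ← Real.rpow_natCast (_ ^ _),
        ← Real.rpow_mul β0.le, ← Real.rpow_natCast (b s p), ← Real.rpow_add β0, Real.sqrt_eq_rpow]
      norm_num
    have a4 : a n * √(b s p) ≤ a n * √(512 * βj) :=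
      mul_le_mul_of_nonneg_left (Real.sqrt_le_sqrt h3) an.le
    have a5 : 2 * C' ^ 2 * (memH a tt n ^ 2 + y ^ 2) * (Cv * (2 * b s p) ^ 2) =
        8 * C' ^ 2 * Cv * (memH a tt n ^ 2 * b s p ^ 2 + a n * √(b s p)) := by rw [← a3]; ring
    have a6 := mul_le_mul hC4 (add_le_add_right a4 (memH a tt n ^ 2 * b s p ^ 2)) (by positivity)
      (le_trans (by positivity) hC4)
    have a7 : 0 ≤ C4 * (a n * √(512 * βj)) := mul_nonneg (le_trans (by positivity) hC4) (by positivity)
    linarith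
  · have hσn : σ ∈ Icc (tt n) (tt (n + 1)) := ⟨(not_le.1 hσ).le, h6.trans hs.2⟩
    have hm' := (S.nk n).st.mem hσn
    have sb := (S.nk n).tm.fix A hσn
    have sX := A.s0_pow 2 ((hX n).xc.tm.fix A hσn)
    have r1 : 8 * a n ^ 2 ≤ b s p := by
      have := mul_le_mul_of_nonneg_right (one_le_pow₀ (n := 2) (show 1 ≤ K by linarith))
        (sq_nonneg (a n))
      linarith
    have a1 := int_le_an A O.int hm' (f := H.Q 0)
      (g := fun t x => 2 * X n t x ^ 2 + 2 * (C * memH a tt n) ^ 2) sb (A.s0_Q hm' 0)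
      (A.s0_add (A.s0_cmul 2 sX) (A.s0_const _)) (O.evo.Q_nonneg 0 σ hm')
      (win n le_rfl hσn) fun z l u => by
        have b1 := (hX n).ge σ hσn z (by linarith) (by linarith)
        have b2 := (hX n).xc.nn σ hσn z
        have b6 := (Real.sqrt_le_left (add_nonneg b2 (by positivity))).1 b1
        exact b6.trans (by rw [← mul_add]; exact add_sq_le)
    have a2 := S.an_const O.int hσn (w := 2 * (C * memH a tt n) ^ 2) (l := b s p / 2)
      (u := 2 * b s p) (by positivity) (by linarith [sq_nonneg (a n)]) (by linarith)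
    have a3 := an_mono A O.int hm' (f := fun t x => X n t x ^ 2) (g := fun t x => X n t x ^ 2) sb sX sX
      (l := b s p / 2) (u := 2 * b s p) (l' := βj / 2) (u' := min (1024 * βj) (hi / 4))
      (fun _ => sq_nonneg _) fun x l u =>
        Or.inr ⟨by linarith, le_min (by linarith) (by linarith), le_rfl⟩
    rw [An, integral_add ((A.integrable O.int hm' sX).const_mul 2).integrableOn
      (A.integrable O.int hm' (A.s0_const _)).integrableOn, integral_const_mul] at a1
    have a4 : 8 * C ^ 2 * Cv ≤ C4 := le_trans (by gcongr) hC4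
    have a5 := mul_le_mul_of_nonneg_right a4
      (show 0 ≤ memH a tt n ^ 2 * b s p ^ 2 by positivity)
    simp only [An] at a2 a3 ⊢
    nlinarith

omit hK hE hsm hd hd1 hdE hC in
theorem hf_int (n : ℕ) {w : ℝ} (hw : 0 ≤ w) (D l u : ℝ) :
    IntervalIntegrable (hf H b (X n) (tt n) D l u) volume (tt n - w) (tt (n + 1)) ∧
      ∫ σ in (tt n - w)..(tt (n + 1)), hf H b (X n) (tt n) D l u σ =
        w * D + TA H (tt n) (tt (n + 1)) b (fun t x => X n t x ^ 2) l u :=
  pw_int (S.nk n).st.2.1.le hw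
    (an_ii O.alg O.int (S.nk n).st (S.nk n).sm (O.alg.sm_pow 2 (hX n).xc.tm.sm) l u)

omit S hK hE hsm hd hd1 hdE hC O hX in
theorem hf_nn {s0 D l u : ℝ} {Y : ℝ → M → ℝ} (hD : 0 ≤ D) (σ : ℝ) : 0 ≤ hf H b Y s0 D l u σ := by
  unfold hf; split_ifs
  · exact hD
  · exact an_nn fun _ => sq_nonneg _

theorem jet {t0 ε0 r0 : ℝ} {Ck : ℕ → ℝ} (R : ER H t0 ε0 cE r0 Ck) (hr : 0 < r0)
    (ht0 : t0 ≤ tt 0) (he : 64 * del ^ 2 * Cv ≤ ε0) (hh : hi ≤ r0 ^ 2) {n k : ℕ} (hn : 1 ≤ n)
    {s βj C4 CM : ℝ} (hs : s ∈ Icc (tt n) (tt (n + 1))) {p : M}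
    (hC4 : 8 * (C * (1 + (cE / 20000) ^ (3 / 4 : ℝ) + 2 * √K)) ^ 2 * Cv ≤ C4)
    (hCM : Ck k * 200 ^ (6 + 2 * k) ≤ CM)
    (h1 : 8 * K ^ 2 * a n ^ 2 ≤ βj) (h2 : βj ≤ b s p) (h3 : b s p ≤ 512 * βj) (h4 : 8 * b s p ≤ hi)
    (h5 : cE * b s p / 40000 ≤ tt 1 - tt 0) :
    √(b s p) ^ k * √(H.Q k s p) ≤ √(CM * C4 * cE) * memH a tt n + √(2 * CM) *
      √((∫ σ in (s - cE * (512 * βj) / 40000)..s, hf H b (X n) (tt n) (C4 * a n * √(512 * βj))
        (βj / 2) (min (1024 * βj) (hi / 4)) σ) / βj ^ 3) := by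
  have β0 := (S.nk n).pos s hs p
  have an := S.ap hK n
  have βj0 : 0 < βj := lt_of_lt_of_le (by positivity) h1
  have C40 : 0 ≤ C4 := le_trans (by have := S.Cv_nn; positivity) hC4
  have m1 := memH_ge (a := a) S.smono.monotone n
  have k0 := (R k).1
  have CM0 : 0 ≤ CM := le_trans (by positivity) hCM
  have r1 : 4 * a n ^ 2 ≤ b s p := by
    have : 1 ≤ K ^ 2 := by nlinarith
    nlinarith [sq_nonneg (a n)]
  have q := (S.er O R hr ht0 hd hd1 he hh hs r1 (by linarith) k).2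
  have e1 : cE * (√(b s p) / 200) ^ 2 = cE * b s p / 40000 := by
    rw [div_pow, Real.sq_sqrt β0.le]; ring
  have e2 : (√(b s p) / 200) ^ (6 + 2 * k) = b s p ^ 3 * b s p ^ k / 200 ^ (6 + 2 * k) := by
    rw [div_pow, show 6 + 2 * k = 2 * (3 + k) by ring, pow_mul, Real.sq_sqrt β0.le, pow_add]
  rw [e1, e2] at q
  set w := cE * b s p / 40000 with hw
  set wj := cE * (512 * βj) / 40000 with hwj
  have w0 : 0 ≤ w := by positivity
  have w1 : w ≤ wj := by rw [hw, hwj]; gcongr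
  set g := hf H b (X n) (tt n) (C4 * a n * √(512 * βj)) (βj / 2) (min (1024 * βj) (hi / 4)) with hg
  have g0 : ∀ σ, 0 ≤ g σ := hf_nn (by positivity)
  have gi : IntervalIntegrable g volume (s - wj) s :=
    (S.hf_int O hX n (w0.trans w1) _ _ _).1.mono_set (by
      rw [uIcc_of_le (by linarith), uIcc_of_le (by linarith [hs.1, hs.2])]
      exact Icc_subset_Icc (by linarith [hs.1]) hs.2)
  have gi1 : IntervalIntegrable g volume (s - w) s := gi.mono_set (by
    rw [uIcc_of_le (by linarith), uIcc_of_le (by linarith)]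
    exact Icc_subset_Icc (by linarith) le_rfl)
  have t1 := S.smono.monotone hn
  have a1 : ∫ σ in (s - w)..s, ∫ z in H.B s p (√(b s p) / 200), H.Q 0 σ z ∂H.vol σ ≤
      ∫ σ in (s - w)..s, (2 * g σ + C4 * memH a tt n ^ 2 * b s p ^ 2) := by
    rw [intervalIntegral.integral_of_le (by linarith), intervalIntegral.integral_of_le (by linarith)]
    refine integral_mono_of_nonneg ?_ ((gi1.const_mul 2).add intervalIntegrable_const).1 ?_
    · filter_upwards [ae_restrict_mem measurableSet_Ioc] with σ hσ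
      obtain ⟨m, -, hm⟩ := exists_strip (tt := tt) (σ := σ) (by linarith [hσ.1, hs.1]) n
        (hσ.2.trans hs.2)
      exact integral_nonneg (O.evo.Q_nonneg 0 σ ((S.nk m).st.mem hm))
    · filter_upwards [ae_restrict_mem measurableSet_Ioc] with σ hσ
      exact S.slice hK hE hsm O hd hd1 hdE hC hX hs hC4 h1 h2 h3 h4 (by linarith [hσ.1, hs.1]) hσ.2
        (by linarith [hσ.1])
  rw [intervalIntegral.integral_add (gi1.const_mul 2) intervalIntegrable_const,
    intervalIntegral.integral_const_mul, intervalIntegral.integral_const, smul_eq_mul,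
    sub_sub_cancel] at a1
  have a2 : ∫ σ in (s - w)..s, g σ ≤ ∫ σ in (s - wj)..s, g σ :=
    intervalIntegral.integral_mono_interval (by linarith) (by linarith) le_rfl
      (Eventually.of_forall g0) gi
  set Hj := ∫ σ in (s - wj)..s, g σ with hHj
  have H0 : 0 ≤ Hj := intervalIntegral.integral_nonneg (by linarith) fun σ _ => g0 σ
  have a3 : b s p ^ k * H.Q k s p ≤ CM * C4 * cE * memH a tt n ^ 2 + 2 * CM * (Hj / βj ^ 3) := by
    have b1 := q.trans (mul_le_mul_of_nonneg_left (a1.trans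
      (add_le_add (mul_le_mul_of_nonneg_left a2 (by norm_num)) le_rfl)) (by positivity))
    refine (mul_le_mul_of_nonneg_left b1 (pow_pos β0 k).le).trans ?_
    have e3 : b s p ^ k * (Ck k / (b s p ^ 3 * b s p ^ k / 200 ^ (6 + 2 * k)) *
        (2 * Hj + w * (C4 * memH a tt n ^ 2 * b s p ^ 2))) = Ck k * 200 ^ (6 + 2 * k) *
          (C4 * cE * memH a tt n ^ 2 / 40000 + 2 * (Hj / b s p ^ 3)) := by
      rw [hw]; field_simp; ring
    rw [e3]
    have b2 : Hj / b s p ^ 3 ≤ Hj / βj ^ 3 := by gcongr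
    have b3 : 0 ≤ C4 * cE * memH a tt n ^ 2 := by positivity
    have b4 : 0 ≤ Hj / b s p ^ 3 := by positivity
    refine (mul_le_mul hCM (show _ ≤ C4 * cE * memH a tt n ^ 2 + 2 * (Hj / βj ^ 3) by linarith)
      (by linarith) CM0).trans_eq ?_
    ring
  rw [← Real.sqrt_mul (by positivity), ← Real.sqrt_sq (show 0 ≤ memH a tt n by linarith),
    ← Real.sqrt_mul (by positivity), ← Real.sqrt_sq (show 0 ≤ √(b s p) ^ k by positivity),
    ← Real.sqrt_mul (sq_nonneg _), ← pow_mul, mul_comm k 2, pow_mul, Real.sq_sqrt β0.le]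
  refine (Real.sqrt_le_sqrt a3).trans ?_
  have u0 : 0 ≤ CM * C4 * cE * memH a tt n ^ 2 := by positivity
  have u1 : 0 ≤ 2 * CM * (Hj / βj ^ 3) := by positivity
  rw [Real.sqrt_le_left (by positivity), add_sq, Real.sq_sqrt u0, Real.sq_sqrt u1]
  have : 0 ≤ 2 * √(CM * C4 * cE * memH a tt n ^ 2) * √(2 * CM * (Hj / βj ^ 3)) := by positivity
  linarith

end Rd

end Crest.Agent.N207.NP

end
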