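import Crest.Agent.N207.NP.PH1

/-!
# Row 207, block P (helper85): `PH`
-/

set_option autoImplicit false
set_option linter.dupNamespace false
set_option linter.unusedSectionVars false
open Set MeasureTheory Filter Topology
open scoped ContDiff

noncomputable section

namespace Crest.Agent.N207.NP

variable {M : Type*} [TopologicalSpace M] [CompactSpace M] [MeasurableSpace M]
  [OpensMeasurableSpace M] {H : HC M}

theorem EbH.mono {b : ℝ → M → ℝ} {m : ℕ} {s B h e e' : ℝ} (E : EbH H b m s B h e) (he : e ≤ e') :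
    EbH H b m s B h e' := by
  obtain ⟨J, h1, h2, h3⟩ := E
  exact ⟨J, h1, h2, fun n => (h3 n).trans he⟩

theorem memH_shift {a tt : ℕ → ℝ} (h : Monotone tt) (n1 n : ℕ) :
    memH (fun n => a (n1 + n)) (fun n => tt (n1 + n)) n ≤ memH a tt (n1 + n) := by
  rcases n with _ | n
  · exact le_trans (by simp [memH]) (memH_ge h _)
  unfold memH
  rw [Nat.add_sub_cancel, show n1 + (n + 1) - 1 = n1 + n by omega, Finset.sum_range_add]
  exact add_le_add le_rfl (le_add_of_nonneg_left (Finset.sum_nonneg fun j _ =>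
    div_nonneg (Real.sqrt_nonneg _) (Real.rpow_nonneg (sub_nonneg.2 (h (by omega))) _)))

/-- the conclusion of `PH` -/
def Out (H : HC M) (a tt : ℕ → ℝ) (b : ℝ → M → ℝ) (θ A : ℝ) (m : ℕ) : Prop :=
  ∃ (L C h : ℝ) (n0 : ℕ) (B : ℕ → ℝ) (e : ℕ → ℝ → ℝ), 0 < C ∧ 0 < h ∧
    (∀ n, A * a n ^ 2 ≤ B n ∧ B n ≤ L * a n ^ 2) ∧ ∀ n, n0 ≤ n →
      ContinuousOn (e n) (Icc (tt n) (tt (n + 1))) ∧
      (∀ s ∈ Icc (tt n) (tt (n + 1)),
        EbH H b m s (B n) h (e n s) ∧ EbH H b m s (B n) h (C * a n)) ∧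
      IntegrableOn (An H b (H.Q 0) (a n ^ 2) (8 * B n)) (Icc (tt n) (tt (n + 1))) ∧
      ∫ s in tt n..tt (n + 1), e n s ^ 2 ≤
        θ * (∫ s in tt n..tt (n + 1), An H b (H.Q 0) (a n ^ 2) (8 * B n) s) +
          C * (a n ^ 4 * (1 + ((n + 1) * memH a tt n) ^ 2 * (tt (n + 1) - tt n)))

theorem Out.unshift {a tt : ℕ → ℝ} {b : ℝ → M → ℝ} {θ A : ℝ} {m n1 : ℕ} (h : Monotone tt)
    (Z : Out H (fun n => a (n1 + n)) (fun n => tt (n1 + n)) b θ A m) : Out H a tt b θ A m := by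
  obtain ⟨L, C, h', n0, B, e, h1, h2, h3, h4⟩ := Z
  refine ⟨max L A, C, h', n1 + n0, fun n => if n1 ≤ n then B (n - n1) else A * a n ^ 2,
    fun n => e (n - n1), h1, h2, fun n => ?_, fun n hn => ?_⟩
  · dsimp only
    split_ifs with hn
    · obtain ⟨k, rfl⟩ := Nat.exists_eq_add_of_le hn
      rw [Nat.add_sub_cancel_left]
      exact ⟨(h3 k).1, (h3 k).2.trans (mul_le_mul_of_nonneg_right (le_max_left _ _) (sq_nonneg _))⟩
    · exact ⟨le_rfl, mul_le_mul_of_nonneg_right (le_max_right _ _) (sq_nonneg _)⟩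
  · obtain ⟨k, rfl⟩ := Nat.exists_eq_add_of_le (show n1 ≤ n by omega)
    simp only [Nat.add_sub_cancel_left, Nat.le_add_right, if_true]
    obtain ⟨g1, g2, g3, g4⟩ := h4 k (by omega)
    refine ⟨g1, g2, g3, g4.trans (add_le_add le_rfl (mul_le_mul_of_nonneg_left
      (mul_le_mul_of_nonneg_left (add_le_add le_rfl (mul_le_mul_of_nonneg_right ?_
        (sub_nonneg.2 (h (by omega))))) (by positivity)) h1.le))⟩
    have m1 := memH_ge (a := fun n => a (n1 + n)) (tt := fun n => tt (n1 + n))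
      (fun i j hij => h (by omega)) k
    refine pow_le_pow_left₀ (by positivity) (mul_le_mul (by push_cast; linarith [n1.cast_nonneg (α := ℝ)])
      (memH_shift h n1 k) (by linarith) (by positivity)) 2

namespace Rd

variable {a tt : ℕ → ℝ} {hi del K c Cv : ℝ} {b : ℝ → M → ℝ} {b' : ℕ → ℝ → M → ℝ}
  (S : Rd H a tt hi del K c Cv b b')
include S

theorem mono {del' : ℝ} (h : del ≤ del') : Rd H a tt hi del' K c Cv b b' where
  nk n := (S.nk n).mono le_rfl le_rfl h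
  a_pos := S.a_pos
  a_eq := S.a_eq
  hi_pos := S.hi_pos
  c_pos := S.c_pos
  d_ge := S.d_ge
  dec n t ht x l u := by
    have hb := (S.nk n).pos t ht x
    have hh := S.hi_pos
    exact (S.dec n t ht x l u).trans (by gcongr)
  vol := S.vol

theorem shift (hK : 4 ≤ K) (n1 : ℕ) :
    Rd H (fun n => a (n1 + n)) (fun n => tt (n1 + n)) hi del K c Cv b fun n => b' (n1 + n) where
  nk n := S.nk (n1 + n)
  a_pos := S.ap hK _
  a_eq n := by rw [S.a_eq (n1 + n), S.a_eq (n1 + 0), add_zero, pow_add, div_div]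
  hi_pos := S.hi_pos
  c_pos := S.c_pos
  d_ge n := S.d_ge (n1 + n)
  dec n := S.dec (n1 + n)
  vol n := S.vol (n1 + n)

theorem a_lim (hK : 4 ≤ K) : Tendsto a atTop (𝓝 0) := by
  rw [funext S.a_eq]
  exact (tendsto_pow_atTop_atTop_of_one_lt (by linarith)).const_div_atTop _

theorem small (hK : 4 ≤ K) (h : (16 * K * a 0 / c) ^ (1 / 16 : ℝ) ≤ 1 - (1 / K) ^ (1 / 16 : ℝ)) :
    Small (fun n => 2 * a n) tt (1 / 16) := fun n => by
  have c0 := S.c_pos
  have a0 := S.a_pos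
  have K0 : 0 < K := by linarith
  set ρ := (1 / K) ^ (1 / 16 : ℝ) with hρ
  have ρ0 : 0 ≤ ρ := by positivity
  have ρ1 : ρ < 1 := Real.rpow_lt_one (by positivity) ((div_lt_one K0).2 (by linarith)) (by norm_num)
  refine (Finset.sum_le_sum (g := fun m => (16 * K * a 0 / c) ^ (1 / 16 : ℝ) * ρ ^ m)
    fun m hm => ?_).trans ?_
  · have hm := Finset.mem_range.1 hm
    have d1 := S.smono.monotone (show m + 1 + 1 ≤ n by omega)
    have d2 := S.d_ge (m + 1)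
    have am := S.ap hK m
    have am1 := S.ap hK (m + 1)
    have d3 : 0 < c * a (m + 1) := by positivity
    rw [hρ, ← Real.rpow_natCast (_ ^ _), ← Real.rpow_mul (by positivity), mul_comm (1 / 16 : ℝ) m,
      Real.rpow_mul (by positivity), Real.rpow_natCast, ← Real.mul_rpow (by positivity) (by positivity)]
    refine Real.rpow_le_rpow (div_nonneg (sq_nonneg _) (by linarith)) ?_ (by norm_num)
    refine (div_le_div_of_nonneg_left (sq_nonneg _) (show 0 < 1 / 4 * (c * a (m + 1)) by positivity)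
      (by linarith)).trans_eq ?_
    dsimp only
    rw [S.a_eq m, S.a_eq (m + 1), one_div K, inv_pow]; field_simp; ring
  · rw [← Finset.mul_sum]
    have g := (summable_geometric_of_lt_one ρ0 ρ1).sum_le_tsum (Finset.range (n - 1))
      fun j _ => pow_nonneg ρ0 j
    rw [tsum_geometric_of_lt_one ρ0 ρ1] at g
    refine (mul_le_mul h g (Finset.sum_nonneg fun j _ => pow_nonneg ρ0 j) (by linarith)).trans_eq ?_
    exact mul_inv_cancel₀ (by linarith)

theorem exists_J (hK : 4 ≤ K) (h : ℝ) : ∃ J0 : ℕ, ∀ n, h < 4 ^ (J0 * (n + 1)) * a n ^ 2 := by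
  have a0 := S.a_pos
  obtain ⟨J, hJ⟩ := pow_unbounded_of_one_lt (max (K ^ 2) (h / a 0 ^ 2)) (show (1 : ℝ) < 4 by norm_num)
  refine ⟨J, fun n => ?_⟩
  have h1 := (div_lt_iff₀ (by positivity)).1 ((le_max_right _ _).trans_lt hJ)
  have h2 := pow_le_pow_left₀ (sq_nonneg K) ((le_max_left _ _).trans hJ.le) n
  have K0 : 0 < K := by linarith
  rw [S.a_eq n, pow_mul, pow_succ, div_pow, ← pow_mul K, mul_comm n 2, pow_mul K, ← mul_div_assoc,
    lt_div_iff₀ (by positivity)]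
  calc _ < 4 ^ J * a 0 ^ 2 * (K ^ 2) ^ n := mul_lt_mul_of_pos_right h1 (by positivity)
    _ ≤ 4 ^ J * a 0 ^ 2 * (4 ^ J) ^ n := by gcongr
    _ = _ := by ring

set_option maxHeartbeats 1600000 in
theorem ph0 (O : H.Ok) (hK : 4 ≤ K) {t0 ε0 cE r0 cc C0 CM θ θ' ε : ℝ} {Ck : ℕ → ℝ} {m N : ℕ}
    (R : ER H t0 ε0 cE r0 Ck) (hE : 0 < cE) (hr : 0 < r0) (hcc : 1 ≤ cc) (hP : PhSub H cc)
    (hC0 : 0 < C0) (hEst : Est H C0) (hCM : ∀ k ≤ m, Ck k * 200 ^ (6 + 2 * k) ≤ CM)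
    (hθ' : 0 ≤ θ') (hθ : 256 * CM * (4096 ^ 2 * cE * (C0 * (2 * θ'))) ≤ θ) (e0 : 0 < ε)
    (e1 : ε ≤ 1 / 4) (hPg : Pg θ' (4 ^ ε) (3 * C0 / ε) N) (ht0 : t0 ≤ tt 0) (hd : 0 ≤ del)
    (hd1 : del ≤ 1 / 50) (hd2 : (2 * cc + 8) * del ≤ 1 / 50)
    (hd3 : 11 * del + 3 * ((2 * cc + 8) * del) ≤ ε)
    (hd4 : cc * del * (4 + (K ^ 2) ^ (1 / 16 : ℝ)) ≤ 3 * (1 / 16)) (hd5 : del * cE ≤ 10000)
    (hd6 : 64 * del ^ 2 * Cv ≤ ε0) (hh : hi ≤ r0 ^ 2) (hsm : K * cE * a 0 ≤ 5000 * c)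
    (hs : Small (fun n => 2 * a n) tt (1 / 16)) (A0 : ℝ) : Out H a tt b θ A0 m := by
  have A := O.alg
  have hi0 := S.hi_pos
  have Cv0 := S.Cv_nn
  have CM0 : 0 ≤ CM := le_trans (by have := (R 0).1; positivity) (hCM 0 m.zero_le)
  obtain ⟨C, hC, hX⟩ := S.sub O hK hd hd1 (Real.sqrt_nonneg CM) (fun n t ht x l u => by
    simpa using S.crude O R hr ht0 hd hd1 hd6 hh ht l u (hCM 0 m.zero_le)) hcc hP hd4 hs
  choose X X' hX using hX
  obtain ⟨A1, A4, A2⟩ : ∃ A1, A0 ≤ A1 ∧ 8 * K ^ 2 ≤ A1 := ⟨_, le_max_left _ _, le_max_right _ _⟩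
  have A3 : 128 ≤ A1 := by nlinarith
  obtain ⟨L, hL⟩ : ∃ L, L = 4 * (4 ^ (N + 1) * A1) := ⟨_, rfl⟩
  have L0 : 0 < L := by rw [hL]; positivity
  have t01 : 0 < tt 1 - tt 0 := sub_pos.2 (S.smono one_pos)
  obtain ⟨h, hh0, hh1, hh2⟩ : ∃ h, 0 < h ∧ h ≤ hi / 8 ∧ h ≤ 40000 * (tt 1 - tt 0) / cE :=
    ⟨_, lt_min (by linarith) (by positivity), min_le_left _ _, min_le_right _ _⟩
  rw [le_div_iff₀ hE] at hh2
  obtain ⟨J0, hJ0⟩ := S.exists_J hK h
  obtain ⟨C4, hC4⟩ : ∃ C4, C4 = 8 * (C * (1 + (cE / 20000) ^ (3 / 4 : ℝ) + 2 * √K)) ^ 2 * Cv :=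
    ⟨_, rfl⟩
  have C40 : 0 ≤ C4 := by rw [hC4]; positivity
  obtain ⟨C9, hC9⟩ : ∃ C9, C9 = 3 * C0 / ε * (4 ^ ε) ^ N * (3 * 4 ^ N) ^ 2 + 8 ^ N := ⟨_, rfl⟩
  have C90 : 0 ≤ C9 := by rw [hC9]; positivity
  obtain ⟨c1, hc1⟩ : ∃ c1, c1 = 2 * (L * (1 + J0 * √(CM * C4 * cE))) ^ 2 := ⟨_, rfl⟩
  obtain ⟨c2, hc2⟩ : ∃ c2, c2 = 256 * CM * (cE ^ 2 * C4 * (L * √L) +
    4096 ^ 2 * cE * (C0 * (C9 * (Cv * C ^ 2 * (L * √L))))) := ⟨_, rfl⟩
  obtain ⟨c3, hc3⟩ : ∃ c3, c3 = L * a 0 + 2 * √CM * √L := ⟨_, rfl⟩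
  have c10 : 0 ≤ c1 := by rw [hc1]; positivity
  have c20 : 0 ≤ c2 := by rw [hc2]; positivity
  have c30 : 0 < c3 := by have := S.a_pos; rw [hc3]; positivity
  have l1 := S.a_lim hK
  have v1 := ((l1.sqrt.const_mul C).mul_const ((hi / 8) ^ (-(3 / 4) : ℝ))).eventually_le_const
    (show _ < (1 : ℝ) by simp)
  have v2 := ((l1.pow 2).const_mul (3 * 4 ^ N * A1)).eventually_le_const
    (show _ < hi / 4 by simp [hi0])
  obtain ⟨n0, hn0⟩ := eventually_atTop.1 (v1.and (v2.and (eventually_ge_atTop 1)))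
  have key : ∀ n, ∃ (B : ℝ) (e : ℝ → ℝ), (A0 * a n ^ 2 ≤ B ∧ B ≤ L * a n ^ 2) ∧ (n0 ≤ n →
      ContinuousOn e (Icc (tt n) (tt (n + 1))) ∧ (∀ s ∈ Icc (tt n) (tt (n + 1)),
        EbH H b m s B h (e s) ∧ EbH H b m s B h ((c1 + c2 + c3) * a n)) ∧
      IntegrableOn (An H b (H.Q 0) (a n ^ 2) (8 * B)) (Icc (tt n) (tt (n + 1))) ∧
      ∫ s in tt n..tt (n + 1), e s ^ 2 ≤
        θ * (∫ s in tt n..tt (n + 1), An H b (H.Q 0) (a n ^ 2) (8 * B) s) + (c1 + c2 + c3) *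
          (a n ^ 4 * (1 + ((n + 1) * memH a tt n) ^ 2 * (tt (n + 1) - tt n)))) := fun n => by
    have an := S.ap hK n
    have p4 : ∀ i : ℕ, A1 * a n ^ 2 ≤ 4 ^ i * (A1 * a n ^ 2) := fun i =>
      le_mul_of_one_le_left (by positivity) (one_le_pow₀ (by norm_num))
    have q0 : A0 * a n ^ 2 ≤ A1 * a n ^ 2 := mul_le_mul_of_nonneg_right A4 (sq_nonneg _)
    have q1 : 0 < A1 * a n ^ 2 := by positivity
    have q2 : 128 * a n ^ 2 ≤ A1 * a n ^ 2 := mul_le_mul_of_nonneg_right A3 (sq_nonneg _)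
    by_cases hn : n0 ≤ n
    swap
    · exact ⟨A1 * a n ^ 2, fun _ => 0, ⟨q0, by rw [hL]; linarith [p4 (N + 1)]⟩, fun h => absurd h hn⟩
    obtain ⟨w1, w2, w3⟩ := hn0 n hn
    have Nn := S.nk n
    have t0' : tt n ∈ Icc (tt n) (tt (n + 1)) := ⟨le_rfl, Nn.st.2.1.le⟩
    have Z : Xd H (tt n) (tt (n + 1)) (4 * a n ^ 2) (hi / 4) del ((2 * cc + 8) * del) (C * √(a n)) Cv
        b (b' n) (X n) (X' n) :=
      { nk := Nn.mono (by linarith [sq_nonneg (a n)]) (by linarith) le_rfl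
        xc := (hX n).xc
        lo_pos := by positivity
        hi_pos := by linarith
        del_nn := hd
        del_le := hd1
        ν_le := hd2
        Cv_nn := Cv0
        van := fun t ht x l u => (hX n).van t ht x (by linarith [p4 N]) u (le_trans
          (mul_le_mul_of_nonneg_left (Real.rpow_le_rpow_of_nonpos (by linarith) (by linarith)
            (by norm_num)) (by positivity)) w1)
        bd := fun x l u => (hX n).bd _ t0' x l u
        vol := fun β hβ => by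
          have := O.int.fin _ (Nn.st.mem t0')
          refine le_trans (measureReal_mono ?_) (S.vol n _ t0' β (by linarith))
          exact fun x hx => ⟨le_trans (by linarith [sq_nonneg (a n)]) hx.1, hx.2⟩ }
    obtain ⟨i, hi1, hi2⟩ := layer A O.int hEst hC0 hPg hθ' Z e0 e1 hd3 (Bs := A1 * a n ^ 2)
      (by linarith) (by linarith)
    obtain ⟨B0, hB0⟩ : ∃ B0, B0 = 4 ^ (i + 1) * (A1 * a n ^ 2) := ⟨_, rfl⟩
    rw [← hB0] at hi2
    have r1 : A1 * a n ^ 2 ≤ B0 := hB0 ▸ p4 _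
    have r2 : 4 * B0 ≤ L * a n ^ 2 := by
      have : (4 : ℝ) ^ (i + 1) ≤ 4 ^ (N + 1) := pow_le_pow_right₀ (by norm_num) (by omega)
      rw [hL, hB0]; linarith [mul_le_mul_of_nonneg_right this q1.le]
    have r3 : 8 * K ^ 2 * a n ^ 2 ≤ A1 * a n ^ 2 := mul_le_mul_of_nonneg_right A2 (sq_nonneg _)
    obtain ⟨e, f1, f2, f3⟩ := S.strip hK hE hsm O hd hd1 hd5 hC hX R hr ht0 hd6 hh (m := m)
      (J := J0 * (n + 1)) w3 (C4 := C4) (B0 := B0) (h := h) hC4.ge hCM (by linarith) (by linarith)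
      (by linarith) ((hJ0 n).trans_le
        (mul_le_mul_of_nonneg_left (by linarith [sq_nonneg (a n)]) (by positivity)))
    refine ⟨4 * B0, e, ⟨by linarith, r2⟩, fun _ => ⟨f1, fun s hs => ⟨f2 s hs,
      (S.ebH_crude hK (CM := CM) (by linarith) r2 fun p l u k hk => S.crude O R hr ht0 hd hd1 hd6 hh hs
        (by linarith) (by linarith) (hCM k hk)).mono
          (mul_le_mul_of_nonneg_right (by linarith) an.le)⟩,
      an_int A O.int Nn.st Nn.sm (A.sm_Q 0 Nn.st) _ _, f3.trans ?_⟩⟩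
    have g1 := ta_mono A O.int Nn.st Nn.sm (A.sm_pow 2 (hX n).xc.tm.sm) (A.sm_Q 0 Nn.st)
      (l := A1 * a n ^ 2) (u := 3 * 4 ^ i * (A1 * a n ^ 2)) (l' := a n ^ 2) (u' := 8 * (4 * B0))
      (fun t ht => O.evo.Q_nonneg 0 t (Nn.st.mem ht)) fun t ht x l u => by
        have : (4 : ℝ) ^ i ≤ 4 ^ N := pow_le_pow_right₀ (by norm_num) hi1.le
        have := mul_le_mul_of_nonneg_right this q1.le
        refine Or.inr ⟨by linarith [sq_nonneg (a n)], ?_, (hX n).le t ht x (by linarith) (by linarith)⟩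
        rw [hB0, pow_succ]; linarith [p4 i]
    change _ ≤ θ * TA H (tt n) (tt (n + 1)) b (H.Q 0) (a n ^ 2) (8 * (4 * B0)) + _
    generalize TA H (tt n) (tt (n + 1)) b (H.Q 0) (a n ^ 2) (8 * (4 * B0)) = Zq at g1 ⊢
    have g0 : 0 ≤ Zq := le_trans (ta_nn Nn.st.2.1.le fun _ _ _ => sq_nonneg _) g1
    have g2 : ∀ y, 0 ≤ y → y ≤ L * a n ^ 2 → y * √y ≤ L * √L * a n ^ 3 := fun y y0 y1 => by
      have : √y ≤ √L * a n := by
        rw [← Real.sqrt_sq an.le, ← Real.sqrt_mul L0.le]; exact Real.sqrt_le_sqrt y1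
      exact (mul_le_mul y1 this (Real.sqrt_nonneg _) (by positivity)).trans_eq (by ring)
    have B00 : 0 < B0 := by linarith
    have g3 := g2 (4 * B0) (by linarith) r2
    have g4 := g2 (A1 * a n ^ 2) q1.le (by linarith)
    have m1 := memH_ge (a := a) S.smono.monotone n
    have d0 : 0 ≤ tt (n + 1) - tt n := sub_nonneg.2 Nn.st.2.1.le
    obtain ⟨μ, hμ⟩ : ∃ μ, μ = (n + 1) * memH a tt n := ⟨_, rfl⟩
    rw [← hμ]
    have μ1 : 1 ≤ μ := hμ ▸ one_le_mul_of_one_le_of_one_le (by linarith [n.cast_nonneg (α := ℝ)]) m1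
    have g5 : 4 * B0 * (1 + (J0 * (n + 1) : ℕ) * (√(CM * C4 * cE) * memH a tt n)) ≤
        L * (1 + J0 * √(CM * C4 * cE)) * (a n ^ 2 * μ) := by
      calc _ = 4 * B0 * (1 + J0 * √(CM * C4 * cE) * μ) := by rw [hμ]; push_cast; ring
        _ ≤ L * a n ^ 2 * (μ + J0 * √(CM * C4 * cE) * μ) := by gcongr
        _ = _ := by ring
    have g6 : (C * √(a n)) ^ 2 = C ^ 2 * a n := by rw [mul_pow, Real.sq_sqrt an.le]
    rw [g6, ← hC9] at hi2
    calc _ ≤ 2 * (L * (1 + J0 * √(CM * C4 * cE)) * (a n ^ 2 * μ)) ^ 2 * (tt (n + 1) - tt n) +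
          256 * CM * (cE ^ 2 * C4 * (a n * (L * √L * a n ^ 3)) + 4096 ^ 2 * cE *
            (C0 * (2 * θ' * Zq + C9 * (Cv * (C ^ 2 * a n) * (L * √L * a n ^ 3))))) := by
          refine add_le_add (mul_le_mul_of_nonneg_right (mul_le_mul_of_nonneg_left
            (pow_le_pow_left₀ (by positivity) g5 2) (by norm_num)) d0)
            (mul_le_mul_of_nonneg_left (add_le_add (mul_le_mul_of_nonneg_left
              (mul_le_mul_of_nonneg_left g3 an.le) (by positivity))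
            (mul_le_mul_of_nonneg_left (hi2.trans (mul_le_mul_of_nonneg_left (add_le_add
              (mul_le_mul_of_nonneg_left g1 (by positivity)) (mul_le_mul_of_nonneg_left
                (mul_le_mul_of_nonneg_left g4 (by positivity)) C90)) hC0.le)) (by positivity)))
              (by positivity))
      _ = 256 * CM * (4096 ^ 2 * cE * (C0 * (2 * θ'))) * Zq +
          (c1 * (a n ^ 4 * (μ ^ 2 * (tt (n + 1) - tt n))) + c2 * a n ^ 4) := by
          rw [hc1, hc2]; ring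
      _ ≤ _ := by
          refine add_le_add (mul_le_mul_of_nonneg_right hθ g0) ?_
          have u1 : 0 ≤ a n ^ 4 * (μ ^ 2 * (tt (n + 1) - tt n)) := by positivity
          have u2 : 0 ≤ a n ^ 4 := by positivity
          linarith [mul_nonneg c10 u2, mul_nonneg c20 u1, mul_nonneg c30.le u1, mul_nonneg c30.le u2]
  choose B e hB he using key
  exact ⟨L, c1 + c2 + c3, h, n0, B, e, by linarith, hh0, hB, he⟩

end Rd

theorem ev_le {f : ℝ → ℝ} {c : ℝ} (hf : Continuous f) (h : f 0 < c) : ∀ᶠ δ in 𝓝[>] 0, f δ ≤ c :=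
  mem_nhdsWithin_of_mem_nhds (hf.continuousAt.tendsto.eventually_le_const h)

/-- the scalar form of block P -/
theorem ph_main (O : H.Ok) (E : H.EReg) : PH H := by
  intro t0 K Cv θ m ht hK hθ
  obtain ⟨ε0, cE, r0, Ck, h1, h2, h3, R⟩ := exists_er O.dist E ht
  obtain ⟨cc, hcc, hP⟩ := exists_phSub O.alg O.evo
  obtain ⟨C0, hC0, hEst⟩ := est O.alg O.int
  set CM := ∑ k ∈ Finset.range (m + 1), Ck k * 200 ^ (6 + 2 * k) with hCM
  have p : ∀ k ∈ Finset.range (m + 1), 0 ≤ Ck k * 200 ^ (6 + 2 * k) := fun k _ => by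
    have := (R k).1; positivity
  have hCM1 : ∀ k ≤ m, Ck k * 200 ^ (6 + 2 * k) ≤ CM := fun k hk =>
    Finset.single_le_sum p (Finset.mem_range.2 (by omega))
  have CM0 : 0 < CM := lt_of_lt_of_le (by have := (R 0).1; positivity) (hCM1 0 m.zero_le)
  set θ' := θ / (256 * CM * (4096 ^ 2 * cE * (C0 * 2))) with hθ'
  have θ0 : 0 < θ' := by positivity
  set ε := min (1 / 4) (θ' / 4) with hε
  have e0 : 0 < ε := lt_min (by norm_num) (by linarith)
  have e1 : ε ≤ 1 / 4 := min_le_left _ _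
  have e2 : (4 : ℝ) ^ ε < 1 + θ' := by
    have := rpow_one_add_le_one_add_mul_self (s := 3) (p := ε) (by norm_num) e0.le (by linarith)
    have e3 : ε ≤ θ' / 4 := min_le_right _ _
    norm_num at this; linarith
  obtain ⟨N, -, hN⟩ := pigeon (C := 3 * C0 / ε) θ0 (by positivity) e2
  obtain ⟨δ, ⟨d1, d2, d3, d4, d5, d6, d7⟩, d0⟩ := (((ev_le (f := fun δ => δ) (c := 1 / 50) (by fun_prop)
    (by norm_num)).and ((ev_le (f := fun δ => (2 * cc + 8) * δ) (c := 1 / 50) (by fun_prop)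
    (by norm_num)).and ((ev_le (f := fun δ => 11 * δ + 3 * ((2 * cc + 8) * δ)) (c := ε) (by fun_prop)
    (by simpa using e0)).and ((ev_le (f := fun δ => cc * δ * (4 + (K ^ 2) ^ (1 / 16 : ℝ)))
    (c := 3 * (1 / 16)) (by fun_prop) (by norm_num)).and ((ev_le (f := fun δ => δ * cE) (c := 10000)
    (by fun_prop) (by norm_num)).and ((ev_le (f := fun δ => 64 * δ ^ 2 * Cv) (c := ε0) (by fun_prop)
    (by simpa using h1)).and (ev_le (f := fun δ => δ) (c := r0 ^ 2) (by fun_prop)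
    (by positivity)))))))).and self_mem_nhdsWithin).exists
  refine ⟨δ, d0, fun a tt hi del c b b' S hd hh ht0 A => ?_⟩
  have l1 := S.a_lim hK
  have c0 := S.c_pos
  have K0 : 0 < K := by linarith
  have v1 := (l1.const_mul (K * cE)).eventually_le_const (show _ < 5000 * c by simp [c0])
  have v2 := (((l1.const_mul (16 * K)).div_const c).rpow_const (p := 1 / 16)
    (Or.inr (by norm_num))).eventually_le_const (show _ < 1 - (1 / K) ^ (1 / 16 : ℝ) by
      have := Real.rpow_lt_one (x := 1 / K) (z := 1 / 16) (by positivity)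
        ((div_lt_one K0).2 (by linarith)) (by norm_num)
      simp only [mul_zero, zero_div]
      rw [Real.zero_rpow (by norm_num)]; linarith)
  obtain ⟨n1, w1, w2⟩ := (v1.and v2).exists
  have S1 := (S.mono hd).shift hK n1
  exact Out.unshift S.smono.monotone (S1.ph0 O hK R h2 h3 hcc hP hC0 hEst hCM1 θ0.le
    (le_of_eq (by rw [hθ']; field_simp)) e0 e1 hN (ht0.trans (S.smono.monotone (by omega))) d0.le d1 d2
    d3 d4 d5 d6 (hh.trans d7) w1 (S1.small hK w2) A)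

end Crest.Agent.N207.NP

end
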