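import Crest.Agent.N207.NP.Jet

/-!
# Row 207, block P (helper85): the estimates on one strip
-/

set_option autoImplicit false
set_option linter.dupNamespace false
set_option linter.unusedSectionVars false
open Set MeasureTheory Filter Topology
open scoped ContDiff

noncomputable section

namespace Crest.Agent.N207.NP

variable {M : Type*} [TopologicalSpace M] [CompactSpace M] [MeasurableSpace M]
  [OpensMeasurableSpace M] {H : HC M}

theorem four_rpow_le : (4 : ℝ) ^ (7 / 4 : ℝ) ≤ 49 / 4 := by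
  refine le_of_pow_le_pow_left₀ (n := 4) (by norm_num) (by norm_num) ?_
  rw [← Real.rpow_natCast, ← Real.rpow_mul (by norm_num)]
  norm_num

theorem one_le_tail {y : ℝ} {j : ℕ} (h0 : 0 < y) (h : y ≤ 4096 * 4 ^ j) :
    1 ≤ 4096 ^ 2 * (49 / 4) ^ j * y ^ (-(7 / 4) : ℝ) := by
  rw [Real.rpow_neg h0.le, ← div_eq_mul_inv, one_le_div (Real.rpow_pos_of_pos h0 _)]
  refine (Real.rpow_le_rpow h0.le h (by norm_num)).trans ?_
  rw [Real.mul_rpow (by norm_num) (by positivity), ← Real.rpow_natCast 4 j,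
    ← Real.rpow_mul (by norm_num), mul_comm (j : ℝ), Real.rpow_mul (by norm_num), Real.rpow_natCast]
  refine mul_le_mul ?_ (pow_le_pow_left₀ (by positivity) four_rpow_le j) (by positivity)
    (by positivity)
  rw [← Real.rpow_natCast]
  exact Real.rpow_le_rpow_of_exponent_le (by norm_num) (by norm_num)

/-- the two estimates of `est` -/
def Est (H : HC M) (C0 : ℝ) : Prop :=
  ∀ {s0 s1 lo hi del ν D Cv B0 : ℝ} {b b' X X' : ℝ → M → ℝ},
    Xd H s0 s1 lo hi del ν D Cv b b' X X' → lo ≤ B0 →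
    TA H s0 s1 b (fun t x => (b t x / B0) ^ (-(7 / 4) : ℝ) * X t x ^ 2) (2 * B0) hi ≤
      C0 * (TA H s0 s1 b (fun t x => X t x ^ 2) B0 (2 * B0) + Cv * D ^ 2 * (B0 * √B0)) ∧
    ∀ ε B1 : ℝ, 0 < ε → ε ≤ 1 / 4 → 11 * del + 3 * ν ≤ ε → B0 ≤ B1 → B1 ≤ hi →
      TA H s0 s1 b (fun t x => X t x ^ 2) (2 * B0) B1 ≤ C0 / ε * (B1 / B0) ^ ε *
        (TA H s0 s1 b (fun t x => X t x ^ 2) B0 (2 * B0) +
          (B1 / B0) ^ 2 * (Cv * D ^ 2 * (B0 * √B0)))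

/-- the conclusion of `pigeon` -/
def Pg (θ q C : ℝ) (N : ℕ) : Prop :=
  ∀ (l S : ℕ → ℝ) (D : ℝ), 0 ≤ D → 0 ≤ l 0 → 0 ≤ S 0 →
    (∀ i < N, S i + l (i + 1) ≤ S (i + 1)) → S N ≤ C * q ^ N * l 0 + D →
    ∃ i < N, l (i + 1) ≤ θ * (l 0 + S i) + D

/-- a good layer -/
theorem layer (A : H.Alg) (I : H.Intg) {C0 θ ε s0 s1 lo hi del ν D Cv Bs : ℝ} {N : ℕ}
    {b b' X X' : ℝ → M → ℝ} (hE : Est H C0) (hC0 : 0 < C0)
    (hP : Pg θ (4 ^ ε) (3 * C0 / ε) N) (hθ : 0 ≤ θ) (Z : Xd H s0 s1 lo hi del ν D Cv b b' X X')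
    (e0 : 0 < ε) (e1 : ε ≤ 1 / 4) (e2 : 11 * del + 3 * ν ≤ ε) (h1 : lo ≤ Bs)
    (h2 : 3 * 4 ^ N * Bs ≤ hi) :
    ∃ i < N, TA H s0 s1 b (fun t x => (b t x / (4 ^ (i + 1) * Bs)) ^ (-(7 / 4) : ℝ) * X t x ^ 2)
      (2 * (4 ^ (i + 1) * Bs)) hi ≤
        C0 * (2 * θ * TA H s0 s1 b (fun t x => X t x ^ 2) Bs (3 * 4 ^ i * Bs) +
          (3 * C0 / ε * (4 ^ ε) ^ N * (3 * 4 ^ N) ^ 2 + 8 ^ N) * (Cv * D ^ 2 * (Bs * √Bs))) := by
  have B0 : 0 < Bs := Z.lo_pos.trans_le h1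
  have Nn := Z.nk
  have sX := A.sm_pow 2 Z.xc.tm.sm
  have nn : ∀ l u, 0 ≤ TA H s0 s1 b (fun t x => X t x ^ 2) l u := fun l u =>
    ta_nn Nn.st.2.1.le fun _ _ _ => sq_nonneg _
  have d0 : 0 ≤ Cv * D ^ 2 * (Bs * √Bs) := by have := Z.Cv_nn; positivity
  have p4 : ∀ i : ℕ, Bs ≤ 4 ^ i * Bs := fun i =>
    le_mul_of_one_le_left B0.le (one_le_pow₀ (by norm_num))
  have a1 := (hE Z h1).2 ε (3 * 4 ^ N * Bs) e0 e1 e2 (by linarith [p4 N]) h2
  rw [mul_div_cancel_right₀ _ B0.ne'] at a1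
  have a2 : (3 * 4 ^ N : ℝ) ^ ε ≤ 3 * (4 ^ ε) ^ N := by
    rw [Real.mul_rpow (by norm_num) (by positivity), ← Real.rpow_natCast 4 N,
      ← Real.rpow_mul (by norm_num), mul_comm (N : ℝ), Real.rpow_mul (by norm_num),
      Real.rpow_natCast]
    refine mul_le_mul_of_nonneg_right ?_ (by positivity)
    simpa using Real.rpow_le_rpow_of_exponent_le (x := 3) (y := ε) (z := 1) (by norm_num)
      (by linarith)
  obtain ⟨i, hi1, hi2⟩ := hP
    (fun i => TA H s0 s1 b (fun t x => X t x ^ 2) (4 ^ i * Bs) (2 * (4 ^ i * Bs)))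
    (fun i => TA H s0 s1 b (fun t x => X t x ^ 2) (2 * Bs) (3 * 4 ^ i * Bs))
    (3 * C0 / ε * (4 ^ ε) ^ N * (3 * 4 ^ N) ^ 2 * (Cv * D ^ 2 * (Bs * √Bs))) (by positivity)
    (nn _ _) (nn _ _) (fun i _ => ta_add A I Nn.st Nn.sm sX (fun _ _ _ => sq_nonneg _)
      (by rw [pow_succ]; linarith [p4 i]) (by linarith [p4 (i + 1)])
      (by rw [pow_succ]; linarith [p4 i]) (by rw [pow_succ]; linarith [p4 i])) (by
        simp only [pow_zero, one_mul]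
        refine a1.trans ((mul_le_mul_of_nonneg_right (mul_le_mul_of_nonneg_left a2 (by positivity))
          (add_nonneg (nn _ _) (by positivity))).trans_eq ?_)
        ring)
  refine ⟨i, hi1, (hE Z (h1.trans (p4 _))).1.trans (mul_le_mul_of_nonneg_left ?_ hC0.le)⟩
  have m : ∀ l u, Bs ≤ l → u ≤ 3 * 4 ^ i * Bs → TA H s0 s1 b (fun t x => X t x ^ 2) l u ≤
      TA H s0 s1 b (fun t x => X t x ^ 2) Bs (3 * 4 ^ i * Bs) := fun l u p q =>
    ta_mono A I Nn.st Nn.sm sX sX (fun _ _ _ => sq_nonneg _) fun t ht x p1 q1 =>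
      Or.inr ⟨p.trans p1, q1.trans q, le_rfl⟩
  have b1 := m (4 ^ 0 * Bs) (2 * (4 ^ 0 * Bs)) (p4 0) (by rw [pow_zero]; linarith [p4 i])
  have b2 := m (2 * Bs) _ (by linarith) le_rfl
  have b3 := mul_le_mul_of_nonneg_left (add_le_add b1 b2) hθ
  have b4 : 4 ^ (i + 1) * Bs * √(4 ^ (i + 1) * Bs) ≤ 8 ^ N * (Bs * √Bs) := by
    have e : √(4 ^ (i + 1) * Bs) = 2 ^ (i + 1) * √Bs := by
      rw [Real.sqrt_mul (by positivity), show (4 : ℝ) = 2 ^ 2 by norm_num, ← pow_mul, mul_comm 2,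
        pow_mul, Real.sqrt_sq (by positivity)]
    have e2 : (4 : ℝ) ^ (i + 1) * 2 ^ (i + 1) ≤ 8 ^ N := by
      rw [← mul_pow]; exact pow_le_pow_right₀ (by norm_num) hi1 |>.trans' (by norm_num)
    rw [e]
    nlinarith [mul_le_mul_of_nonneg_right e2 (show 0 ≤ Bs * √Bs by positivity)]
  have b5 := mul_le_mul_of_nonneg_left b4 (show 0 ≤ Cv * D ^ 2 by have := Z.Cv_nn; positivity)
  exact (add_le_add (hi2.trans (add_le_add b3 le_rfl)) b5).trans_eq (by ring)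

namespace Rd

variable {a tt : ℕ → ℝ} {hi del K c Cv ν C cE : ℝ} {b : ℝ → M → ℝ} {b' : ℕ → ℝ → M → ℝ}
  {X X' : ℕ → ℝ → M → ℝ} (S : Rd H a tt hi del K c Cv b b')
include S

theorem crude (O : H.Ok) {t0 ε0 r0 : ℝ} {Ck : ℕ → ℝ} (R : ER H t0 ε0 cE r0 Ck) (hr : 0 < r0)
    (ht0 : t0 ≤ tt 0) (hd : 0 ≤ del) (hd1 : del ≤ 1 / 50) (he : 64 * del ^ 2 * Cv ≤ ε0)
    (hh : hi ≤ r0 ^ 2) {n k : ℕ} {s CM : ℝ} (hs : s ∈ Icc (tt n) (tt (n + 1))) {p : M}
    (h1 : 4 * a n ^ 2 ≤ b s p) (h2 : 4 * b s p ≤ hi) (hCM : Ck k * 200 ^ (6 + 2 * k) ≤ CM) :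
    √(b s p) ^ k * √(H.Q k s p) ≤ √CM / √(b s p) := by
  have β0 := (S.nk n).pos s hs p
  have q := (S.er O R hr ht0 hd hd1 he hh hs h1 h2 k).1
  have k0 := (R k).1
  have e2 : (√(b s p) / 200) ^ (2 + 2 * k) = b s p * b s p ^ k / 200 ^ (2 + 2 * k) := by
    rw [div_pow, show 2 + 2 * k = 2 * (1 + k) by ring, pow_mul, Real.sq_sqrt β0.le, pow_add, pow_one]
  have a1 : Ck k * 200 ^ (2 + 2 * k) ≤ CM :=
    le_trans (mul_le_mul_of_nonneg_left (pow_le_pow_right₀ (by norm_num) (by omega)) k0.le) hCM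
  rw [← Real.sqrt_div' _ β0.le, ← Real.sqrt_sq (show 0 ≤ √(b s p) ^ k by positivity),
    ← Real.sqrt_mul (sq_nonneg _), ← pow_mul, mul_comm k 2, pow_mul, Real.sq_sqrt β0.le]
  refine Real.sqrt_le_sqrt ((mul_le_mul_of_nonneg_left q (pow_pos β0 k).le).trans ?_)
  rw [e2]
  refine le_trans (le_of_eq ?_) (div_le_div_of_nonneg_right a1 β0.le)
  field_simp

theorem ebH_crude {m n : ℕ} {s B h CM L : ℝ} (hK : 4 ≤ K) (hB : 0 < B) (hL : B ≤ L * a n ^ 2)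
    (hcr : ∀ p, B ≤ b s p → b s p ≤ h → ∀ k ≤ m, √(b s p) ^ k * √(H.Q k s p) ≤ √CM / √(b s p)) :
    EbH H b m s B h ((L * a 0 + 2 * √CM * √L) * a n) := by
  have an := S.ap hK n
  have sB : 0 < √B := Real.sqrt_pos.2 hB
  have L0 : 0 ≤ L := nonneg_of_mul_nonneg_left (hB.le.trans hL) (by positivity)
  refine ⟨fun j => √CM / √B * (1 / 2) ^ j, fun j => by positivity, fun j p h1 _ h3 k hk => ?_,
    fun N => ?_⟩
  · refine (hcr p (le_trans (le_mul_of_one_le_left hB.le (one_le_pow₀ (by norm_num))) h1) h3 k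
      hk).trans ?_
    have e : 2 ^ j * √B ≤ √(b s p) := Real.le_sqrt_of_sq_le (by
      rw [mul_pow, Real.sq_sqrt hB.le, ← pow_mul, mul_comm j 2, pow_mul]; norm_num; exact h1)
    refine (div_le_div_of_nonneg_left (Real.sqrt_nonneg _) (by positivity) e).trans_eq ?_
    simp only [one_div, inv_pow]; field_simp
  · rw [← Finset.mul_sum]
    have a1 := mul_le_mul_of_nonneg_left (sum_geometric_two_le N)
      (show 0 ≤ √CM * √B by positivity)
    have a2 : √B ≤ √L * a n := by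
      rw [← Real.sqrt_sq an.le, ← Real.sqrt_mul L0]; exact Real.sqrt_le_sqrt hL
    have a3 := mul_le_mul_of_nonneg_left a2 (Real.sqrt_nonneg CM)
    have a4 := mul_le_mul_of_nonneg_left (S.a_anti hK n.zero_le) (mul_nonneg L0 an.le)
    have e : B * (1 + √CM / √B * ∑ j ∈ Finset.range N, (1 / 2 : ℝ) ^ j) =
        B + √CM * √B * ∑ j ∈ Finset.range N, (1 / 2 : ℝ) ^ j := by
      nth_rewrite 1 [← Real.mul_self_sqrt hB.le]
      field_simp
      linear_combination Real.mul_self_sqrt hB.le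
    rw [e]; nlinarith

/-- the error function on one strip -/
theorem strip (hK : 4 ≤ K) (hE : 0 < cE) (hsm : K * cE * a 0 ≤ 5000 * c) (O : H.Ok) (hd : 0 ≤ del)
    (hd1 : del ≤ 1 / 50) (hdE : del * cE ≤ 10000) (hC : 1 ≤ C)
    (hX : ∀ m, Xs H a tt hi ν C b m (X m) (X' m)) {t0 ε0 r0 : ℝ} {Ck : ℕ → ℝ}
    (R : ER H t0 ε0 cE r0 Ck) (hr : 0 < r0) (ht0 : t0 ≤ tt 0) (he : 64 * del ^ 2 * Cv ≤ ε0)
    (hh : hi ≤ r0 ^ 2) {m n J : ℕ} (hn : 1 ≤ n) {C4 CM B0 h : ℝ}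
    (hC4 : 8 * (C * (1 + (cE / 20000) ^ (3 / 4 : ℝ) + 2 * √K)) ^ 2 * Cv ≤ C4)
    (hCM : ∀ k ≤ m, Ck k * 200 ^ (6 + 2 * k) ≤ CM) (h1 : 8 * K ^ 2 * a n ^ 2 ≤ 4 * B0)
    (h2 : 8 * h ≤ hi) (h3 : cE * h / 40000 ≤ tt 1 - tt 0) (hJ : h < 4 ^ J * (4 * B0)) :
    ∃ e : ℝ → ℝ, ContinuousOn e (Icc (tt n) (tt (n + 1))) ∧
      (∀ s ∈ Icc (tt n) (tt (n + 1)), EbH H b m s (4 * B0) h (e s)) ∧
      ∫ s in tt n..tt (n + 1), e s ^ 2 ≤
        2 * (4 * B0 * (1 + J * (√(CM * C4 * cE) * memH a tt n))) ^ 2 * (tt (n + 1) - tt n) +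
        256 * CM * (cE ^ 2 * C4 * (a n * (4 * B0 * √(4 * B0))) + 4096 ^ 2 * cE *
          TA H (tt n) (tt (n + 1)) b (fun t x => (b t x / B0) ^ (-(7 / 4) : ℝ) * X n t x ^ 2)
            (2 * B0) (hi / 4)) := by
  have A := O.alg
  have an := S.ap hK n
  have B4 : 0 < 4 * B0 := lt_of_lt_of_le (by positivity) h1
  have B00 : 0 < B0 := by linarith
  have C40 : 0 ≤ C4 := le_trans (by have := S.Cv_nn; positivity) hC4
  have m1 := memH_ge (a := a) S.smono.monotone n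
  have CM0 : 0 ≤ CM := le_trans (by have := (R 0).1; positivity) (hCM 0 m.zero_le)
  have I := fun j : ℕ => S.hf_int O hX n (w := cE * (512 * (4 ^ j * (4 * B0))) / 40000)
    (by positivity) (C4 * a n * √(512 * (4 ^ j * (4 * B0)))) (4 ^ j * (4 * B0) / 2)
    (min (1024 * (4 ^ j * (4 * B0))) (hi / 4))
  obtain ⟨e, e1, e2, e3⟩ := err_fun (μ := √(CM * C4 * cE) * memH a tt n) (C5 := √(2 * CM)) J
    (S.nk n).st.2.1.le B4 (by positivity) (Real.sqrt_nonneg _) (fun j => by positivity)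
    (fun j => (I j).1) fun j s _ => hf_nn (by positivity) s
  refine ⟨e, e1, fun s hs => ⟨_, fun j => ?_, fun j p p1 p2 p3 k hk => ?_, e2 s hs⟩, e3.trans ?_⟩
  · split_ifs
    · positivity
    · exact le_rfl
  · have p4 : 4 * B0 ≤ 4 ^ j * (4 * B0) := le_mul_of_one_le_left B4.le (one_le_pow₀ (by norm_num))
    have hj : j < J := (pow_lt_pow_iff_right₀ (show (1 : ℝ) < 4 by norm_num)).1
      (lt_of_mul_lt_mul_right ((p1.trans p3).trans_lt hJ) B4.le)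
    rw [if_pos hj]
    exact S.jet hK hE hsm O hd hd1 hdE hC hX R hr ht0 he hh hn hs hC4 (hCM k hk) (h1.trans p4) p1
      (by linarith) (by linarith) (le_trans (by gcongr) h3)
  · rw [Real.sq_sqrt (by positivity)]
    set T := TA H (tt n) (tt (n + 1)) b (fun t x => (b t x / B0) ^ (-(7 / 4) : ℝ) * X n t x ^ 2)
      (2 * B0) (hi / 4) with hT
    have N := S.nk n
    have sX := A.sm_pow 2 (hX n).xc.tm.sm
    have sT := A.sm_mul (A.sm_comp isOpen_Ioi (cd_rpow (-(7 / 4)))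
      (f := fun t x => b t x / B0) (fun t ht x => div_pos (N.pos t ht x) B00)
        (by simpa [div_eq_inv_mul] using A.sm_cmul B0⁻¹ N.sm)) sX
    have T0 : 0 ≤ T := ta_nn N.st.2.1.le fun t ht x => by have := N.pos t ht x; positivity
    set Y := cE ^ 2 * C4 * (a n * (4 * B0 * √(4 * B0))) + 4096 ^ 2 * cE * T with hY
    have Y0 : 0 ≤ Y := by positivity
    have a1 : ∑ j ∈ Finset.range J, (8 / 7) ^ j * (4 * B0) ^ 2 / (4 ^ j * (4 * B0)) ^ 3 *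
        (cE * (512 * (4 ^ j * (4 * B0))) / 40000 *
          ∫ σ in (tt n - cE * (512 * (4 ^ j * (4 * B0))) / 40000)..tt (n + 1),
            hf H b (X n) (tt n) (C4 * a n * √(512 * (4 ^ j * (4 * B0)))) (4 ^ j * (4 * B0) / 2)
              (min (1024 * (4 ^ j * (4 * B0))) (hi / 4)) σ) ≤
        ∑ j ∈ Finset.range J, Y * (7 / 8) ^ j := by
      refine Finset.sum_le_sum fun j _ => ?_
      rw [(I j).2]
      have p4 : 4 * B0 ≤ 4 ^ j * (4 * B0) := le_mul_of_one_le_left B4.le (one_le_pow₀ (by norm_num))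
      have b1 := ta_mono A O.int N.st N.sm sX (A.sm_cmul (4096 ^ 2 * (49 / 4) ^ j) sT)
        (l := 4 ^ j * (4 * B0) / 2) (u := min (1024 * (4 ^ j * (4 * B0))) (hi / 4)) (l' := 2 * B0)
        (u' := hi / 4) (fun t ht x => by have := N.pos t ht x; positivity) fun t ht x l u =>
          Or.inr ⟨by linarith, u.trans (min_le_right _ _), by
            rw [← mul_assoc]
            refine le_mul_of_one_le_left (sq_nonneg _) (one_le_tail (div_pos (N.pos t ht x) B00) ?_)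
            rw [div_le_iff₀ B00]; linarith [u.trans (min_le_left _ _)]⟩
      rw [ta_cmul, ← hT] at b1
      have b2 : √(512 * (4 ^ j * (4 * B0))) ≤ 23 * (2 ^ j * √(4 * B0)) := by
        rw [Real.sqrt_le_left (by positivity), mul_pow, mul_pow, Real.sq_sqrt B4.le, ← pow_mul,
          mul_comm j 2, pow_mul]
        have : 0 ≤ (4 : ℝ) ^ j * (4 * B0) := by positivity
        norm_num; linarith
      have b3 : (8 / 7) ^ j * (4 * B0) ^ 2 / (4 ^ j * (4 * B0)) ^ 3 *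
          (cE * (512 * (4 ^ j * (4 * B0))) / 40000) = 512 / 40000 * cE * (1 / 14 : ℝ) ^ j := by
        have : (1 / 14 : ℝ) ^ j = (8 / 7) ^ j / (4 ^ j) ^ 2 := by
          rw [← pow_mul, mul_comm j 2, pow_mul, ← div_pow]; norm_num
        rw [this]; field_simp
      rw [← mul_assoc, b3]
      have c1 : (1 / 14 : ℝ) ^ j * (49 / 4) ^ j = (7 / 8) ^ j := by rw [← mul_pow]; norm_num
      have c2 : (1 / 14 : ℝ) ^ j * 4 ^ j * 2 ^ j ≤ (7 / 8) ^ j := by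
        rw [← mul_pow, ← mul_pow]; exact pow_le_pow_left₀ (by norm_num) (by norm_num) j
      calc _ ≤ 512 / 40000 * cE * (1 / 14 : ℝ) ^ j * (cE * (512 * (4 ^ j * (4 * B0))) / 40000 *
            (C4 * a n * (23 * (2 ^ j * √(4 * B0)))) + 4096 ^ 2 * (49 / 4) ^ j * T) := by gcongr
        _ = 512 / 40000 * (512 / 40000 * 23) * (cE ^ 2 * C4 * (a n * (4 * B0 * √(4 * B0)))) *
            ((1 / 14 : ℝ) ^ j * 4 ^ j * 2 ^ j) +
            512 / 40000 * (4096 ^ 2 * cE * T) * ((1 / 14 : ℝ) ^ j * (49 / 4) ^ j) := by ring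
        _ ≤ 1 * (cE ^ 2 * C4 * (a n * (4 * B0 * √(4 * B0)))) * (7 / 8) ^ j +
            1 * (4096 ^ 2 * cE * T) * (7 / 8) ^ j := by rw [c1]; gcongr <;> norm_num
        _ = _ := by rw [hY]; ring
    rw [← Finset.mul_sum] at a1
    have a2 := a1.trans (mul_le_mul_of_nonneg_left (geo_le (by norm_num) le_rfl J) Y0)
    nlinarith [mul_le_mul_of_nonneg_left a2 CM0]

end Rd

end Crest.Agent.N207.NP

end
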