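import Crest.Agent.N207.NP.St
import Crest.Agent.N207.AI.Evo
import Crest.Agent.N207.V.Basic

/-!
# Row 207, block P (helper60): `PEST` from `RAD`, `CURV`, `PH`, part 1 (geometry of the top neck)
-/

set_option autoImplicit false
set_option linter.dupNamespace false
set_option linter.unusedSectionVars false

open scoped ContDiff Manifold Topology
open Set MeasureTheory Filter
open Crest.GeometryTopology.CoordMetric Crest.GeometryTopology.ChartCurvature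
  Crest.GeometryTopology.MetricFamily

noncomputable section

namespace Crest.Agent.N207.NP.Pe

open Sk

theorem wt_nonneg (a b : ℝ) (y : E4) : 0 ≤ wt a b y := by unfold wt; positivity

theorem wt_le_two {a b : ℝ} {x : E4} (ha : 0 < a) (hx : x ∈ shell a b) : wt a b x ≤ 2 := by
  have h0 : 0 < ‖x‖ := ha.trans hx.1
  have h1 : √(a / ‖x‖) ≤ 1 := Real.sqrt_le_one.2 ((div_le_one h0).2 hx.1.le)
  have h2 : √(‖x‖ / b) ≤ 1 := Real.sqrt_le_one.2 ((div_le_one (h0.trans hx.2)).2 hx.2.le)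
  unfold wt; linarith

theorem sqrt_le_rpow {q κ y : ℝ} (hq : 0 ≤ q) (hκ : 0 ≤ κ) (hy : 0 < y) (hy1 : y ≤ 1)
    (h : q ^ 2 ≤ κ ^ 4 * y) : √q ≤ κ * y ^ (1 / 16 : ℝ) := by
  have h1 : y ≤ (y ^ (1 / 16 : ℝ)) ^ 4 := by
    rw [← Real.rpow_natCast, ← Real.rpow_mul hy.le]
    have := Real.rpow_le_rpow_of_exponent_ge hy hy1 (show (1 / 16 : ℝ) * (4 : ℕ) ≤ 1 by norm_num)
    rwa [Real.rpow_one] at this
  have h2 : 0 ≤ κ * y ^ (1 / 16 : ℝ) := mul_nonneg hκ (Real.rpow_nonneg hy.le _)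
  refine le_of_pow_le_pow_left₀ (n := 4) (by norm_num) h2 ?_
  have h3 : √q ^ 4 = q ^ 2 := by
    rw [show (4 : ℕ) = 2 * 2 from rfl, pow_mul, Real.sq_sqrt hq]
  rw [h3, mul_pow]
  exact h.trans (mul_le_mul_of_nonneg_left h1 (by positivity))

theorem sum_far {σ r : ℝ} (hσ : 0 ≤ σ) (hr : 0 ≤ r) (n : ℕ) :
    ∑ j ∈ Finset.range n, (if 2 ^ j * σ ≤ r then 2 ^ (j + 1) * σ else 0) ≤ 4 * r := by
  have h1 : ∀ n : ℕ, ∑ j ∈ Finset.range n, (if 2 ^ j * σ ≤ r then 2 ^ (j + 1) * σ else 0) ≤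
      2 ^ (n + 1) * σ := fun n => by
    induction n with
    | zero => simp only [Finset.range_zero, Finset.sum_empty]; positivity
    | succ n ih =>
      rw [Finset.sum_range_succ]
      have : (0 : ℝ) ≤ 2 ^ (n + 1) * σ := by positivity
      split_ifs <;> rw [pow_succ _ (n + 1)] <;> linarith
  induction n with
  | zero => simp only [Finset.range_zero, Finset.sum_empty]; positivity
  | succ n ih =>
    rw [Finset.sum_range_succ]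
    split_ifs with h
    · have := h1 n
      rw [pow_succ] at this ⊢
      linarith
    · linarith

variable {M : Type*} [TopologicalSpace M] [ChartedSpace E4 M] [IsManifold 𝓘(ℝ, E4) ∞ M]
  [T3Space M] [ConnectedSpace M] [MeasurableSpace M] [BorelSpace M] [CompactSpace M]

theorem not_mem_Om {N : Sk.Nk M} (hT : N.Top) {x : E4} (hx : x ∈ shell N.a N.b) :
    N.Ψ x ∉ N.Om ‖x‖ := by
  rintro (h | ⟨y, hy, e⟩)
  · exact hT.disj x hx h
  · obtain ⟨γ, -, hγ⟩ := (hT.fib y ⟨hy.1, hy.2.trans hx.2⟩ x hx).1 e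
    have := hy.2
    rw [← hγ, LinearIsometryEquiv.norm_map] at this
    exact lt_irrefl _ this

/-- transfer of a point between two comparable necks -/
theorem transfer {N N' : Sk.Nk M} (hT : N.Top) {r R : ℝ} (hc : Cmp N N' r R) {x : E4}
    (hx : x ∈ shell N.a N.b) (hr : r ≤ ‖x‖) (hR : ‖x‖ ≤ R / 4) :
    ∃ x' : E4, N'.Ψ x' = N.Ψ x ∧ ‖x‖ / 2 ≤ ‖x'‖ ∧ ‖x'‖ ≤ 21 / 10 * ‖x‖ := by
  have h0 : 0 < ‖x‖ := hT.a_pos.trans hx.1
  have h1 : N.Ψ x ∈ N'.Om (21 / 10 * ‖x‖) :=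
    (hc (21 / 10 * ‖x‖) ⟨by linarith, by linarith⟩).1 (Or.inr ⟨x, ⟨hx.1, by linarith⟩, rfl⟩)
  have h2 : N.Ψ x ∉ N'.Om (‖x‖ / 2) := fun h =>
    not_mem_Om hT hx ((hc ‖x‖ ⟨hr, by linarith⟩).2 h)
  rcases h1 with h | ⟨y, hy, e⟩
  · exact (h2 (Or.inl h)).elim
  · exact ⟨y, e, not_lt.1 fun h => h2 (Or.inr ⟨y, ⟨hy.1, h⟩, e⟩), hy.2.le⟩

theorem rc_nonneg (g : Met 4 M) (k : ℕ) (p : M) : 0 ≤ g.rc k p := AI.m_nsq_nonneg g _ p

theorem mass_nonneg (g : Met 4 M) (A : Set M) : 0 ≤ mass g A :=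
  integral_nonneg fun p => rc_nonneg g 0 p

theorem mass_mono (g : Met 4 M) {A A' : Set M} (h : A ⊆ A') : mass g A ≤ mass g A' := by
  have := V.isFinite g
  exact setIntegral_mono_set (((g.sm_rc 0).continuous.integrable_of_hasCompactSupport
    (HasCompactSupport.of_compactSpace _)).integrableOn)
    (Eventually.of_forall fun p => rc_nonneg g 0 p) h.eventuallyLE

variable {F : Flow M} {τ : TopD M} {m1 : ℕ} {η V : ℝ} {Cs : ℕ → ℝ}

section Ok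

variable (h : τ.Ok F m1 η Cs V)
include h

theorem K_pos : 0 < τ.K := by linarith [h.K_ge]

theorem lam_pos (n : ℕ) : 0 < τ.lam n := div_pos h.l0_pos (pow_pos (K_pos h) n)

theorem lam_anti {n n' : ℕ} (hn : n ≤ n') : τ.lam n' ≤ τ.lam n :=
  div_le_div_of_nonneg_left h.l0_pos.le (pow_pos (K_pos h) n)
    (pow_le_pow_right₀ (by linarith [h.K_ge]) hn)

theorem lam_add (n k : ℕ) : τ.lam (n + k) = τ.lam n / τ.K ^ k := by
  simp only [TopD.lam, pow_add, div_div]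

theorem R_pos : 0 < τ.R :=
  (mul_pos (pow_pos (K_pos h) 2) h.l0_pos).trans_le h.l0_le

theorem lam_le_one (n : ℕ) : τ.lam n ≤ 1 := by
  have h1 : τ.lam n ≤ τ.lam 0 := lam_anti h (Nat.zero_le n)
  have h2 : τ.lam 0 = τ.l0 := by simp [TopD.lam]
  have h3 := h.K_ge
  have h4 := h.l0_pos
  have h5 : 16 ≤ τ.K ^ 2 := by nlinarith
  nlinarith [h.l0_le, h.R_le]

theorem lam_lim : Tendsto τ.lam atTop (𝓝 0) :=
  tendsto_const_nhds.div_atTop (tendsto_pow_atTop_atTop_of_one_lt (by linarith [h.K_ge]))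

theorem d_pos (n : ℕ) : 0 < τ.d n := (mul_pos h.c_pos (lam_pos h n)).trans_le (h.d_ge n)

theorem t_lt (n : ℕ) : τ.t n < τ.t (n + 1) := sub_pos.1 (d_pos h n)

theorem t_mono : Monotone τ.t := monotone_nat_of_le_succ fun n => (t_lt h n).le

theorem lt_T {n : ℕ} {s : ℝ} (hs : s ≤ τ.t n) : s < F.T := hs.trans_lt (h.lt n)

theorem exists_I {n : ℕ} {s : ℝ} (hs : s ∈ Icc (τ.t n) (τ.t (n + 1))) :
    ∃ n', n ≤ n' ∧ s ∈ τ.I n' := by
  rcases hs.2.lt_or_eq with e | e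
  · exact ⟨n, le_rfl, hs.1, e⟩
  · exact ⟨n + 1, n.le_succ, e.ge, e ▸ t_lt h (n + 1)⟩

theorem good_self {n : ℕ} {s : ℝ} (hs : s ∈ τ.I n) : Good (F.m s) (τ.N s) m1 η Cs V :=
  h.good n s hs s le_rfl (le_add_of_nonneg_right (mul_pos h.c_pos (lam_pos h n)).le)
    (lt_T h hs.2.le)

theorem mem_ge (n : ℕ) : 1 ≤ τ.mem n :=
  le_add_of_nonneg_right (Finset.sum_nonneg fun _ _ =>
    div_nonneg (Real.sqrt_nonneg _) (Real.rpow_nonneg (d_pos h _).le _))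

theorem be_ge (n : ℕ) : 1 ≤ τ.be n := by
  have := mem_ge h n
  have h2 : (0 : ℝ) ≤ n := n.cast_nonneg
  unfold TopD.be; nlinarith

theorem P_nonneg (n : ℕ) : 0 ≤ τ.P n := by
  have := d_pos h n
  have := lam_pos h n
  unfold TopD.P; positivity

theorem Z_nonneg (ρ : ℕ → ℝ) (n : ℕ) : 0 ≤ τ.Z F ρ n :=
  intervalIntegral.integral_nonneg (t_lt h n).le fun _ _ => mass_nonneg _ _

theorem memH_le {A : ℝ} (hA : 1 ≤ A) (n0 n : ℕ) :
    memH (fun k => A * τ.lam (n0 + k)) (fun k => τ.t (n0 + k)) n ≤ √A * τ.mem (n0 + n) := by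
  have hs : 1 ≤ √A := Real.one_le_sqrt.2 hA
  have hn : ∀ j, 0 ≤ √(τ.lam j) / τ.d (j + 1) ^ (3 / 4 : ℝ) := fun j =>
    div_nonneg (Real.sqrt_nonneg _) (Real.rpow_nonneg (d_pos h _).le _)
  have h1 : ∑ j ∈ Finset.range (n - 1), √(τ.lam (n0 + j)) / τ.d (n0 + j + 1) ^ (3 / 4 : ℝ) ≤
      ∑ j ∈ Finset.range (n0 + n - 1), √(τ.lam j) / τ.d (j + 1) ^ (3 / 4 : ℝ) := by
    rcases n with _ | n
    · simpa using Finset.sum_nonneg fun j _ => hn j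
    · rw [show n0 + (n + 1) - 1 = n0 + n from rfl, Finset.sum_range_add, Nat.add_sub_cancel]
      exact le_add_of_nonneg_left (Finset.sum_nonneg fun j _ => hn j)
  have h2 : memH (fun k => A * τ.lam (n0 + k)) (fun k => τ.t (n0 + k)) n = 1 + √A *
      ∑ j ∈ Finset.range (n - 1), √(τ.lam (n0 + j)) / τ.d (n0 + j + 1) ^ (3 / 4 : ℝ) := by
    simp only [memH, Finset.mul_sum, Real.sqrt_mul (zero_le_one.trans hA), mul_div_assoc]
    rfl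
  rw [h2, TopD.mem, mul_add, mul_one]
  exact add_le_add hs (mul_le_mul_of_nonneg_left h1 (Real.sqrt_nonneg _))

end Ok

/-- the output of `RAD` -/
structure RD (F : Flow M) (τ : TopD M) (A R' δ : ℝ) (n0 : ℕ) (b : ℝ → M → ℝ)
    (b' : ℕ → ℝ → M → ℝ) : Prop where
  nk : ∀ n, Nk F.hc (τ.t (n0 + n)) (τ.t (n0 + n + 1)) ((A * τ.lam (n0 + n)) ^ 2) (R' ^ 2) δ b (b' n)
  o1 : ∀ k, n0 ≤ k → ∀ s ∈ τ.I k, ∀ p, (A * τ.lam k) ^ 2 ≤ b s p → b s p ≤ R' ^ 2 →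
    ∃ x ∈ shell (τ.lam k) τ.R, (τ.N s).Ψ x = p ∧ ‖x‖ ^ 2 / 2 ≤ b s p ∧ b s p ≤ 2 * ‖x‖ ^ 2
  o2 : ∀ k, n0 ≤ k → ∀ s ∈ τ.I k, ∀ x : E4, A * τ.lam k ≤ ‖x‖ → ‖x‖ ≤ R' →
    ‖x‖ ^ 2 / 2 ≤ b s ((τ.N s).Ψ x) ∧ b s ((τ.N s).Ψ x) ≤ 2 * ‖x‖ ^ 2

variable {A R' δ : ℝ} {n0 : ℕ} {b : ℝ → M → ℝ} {b' : ℕ → ℝ → M → ℝ}

theorem RD.mono (D : RD F τ A R' δ n0 b b') (h : τ.Ok F m1 η Cs V) (hA : 0 ≤ A) {A1 R1 : ℝ}
    (h1 : A ≤ A1) (h2 : 0 ≤ R1) (h3 : R1 ≤ R') : RD F τ A1 R1 δ n0 b b' := by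
  have e1 : ∀ k, A * τ.lam k ≤ A1 * τ.lam k := fun k =>
    mul_le_mul_of_nonneg_right h1 (lam_pos h k).le
  have e2 : ∀ k, (A * τ.lam k) ^ 2 ≤ (A1 * τ.lam k) ^ 2 := fun k =>
    pow_le_pow_left₀ (mul_nonneg hA (lam_pos h k).le) (e1 k) 2
  have e3 : R1 ^ 2 ≤ R' ^ 2 := pow_le_pow_left₀ h2 h3 2
  exact ⟨fun n => (D.nk n).mono (e2 _) e3 le_rfl,
    fun k hk s hs p a c => D.o1 k hk s hs p ((e2 k).trans a) (c.trans e3),
    fun k hk s hs x a c => D.o2 k hk s hs x ((e1 k).trans a) (c.trans h3)⟩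

/-- the point of the neck, at every time of the closed interval -/
theorem RD.pt (D : RD F τ A R' δ n0 b b') (h : τ.Ok F m1 η Cs V) (hA : 0 ≤ A) {n : ℕ} {s : ℝ}
    (hs : s ∈ Icc (τ.t (n0 + n)) (τ.t (n0 + n + 1))) :
    ∃ k, n0 + n ≤ k ∧ s ∈ τ.I k ∧ ∀ p, (A * τ.lam (n0 + n)) ^ 2 ≤ b s p → b s p ≤ R' ^ 2 →
      ∃ x ∈ shell (τ.lam k) τ.R, (τ.N s).Ψ x = p ∧ ‖x‖ ^ 2 / 2 ≤ b s p ∧ b s p ≤ 2 * ‖x‖ ^ 2 := by
  obtain ⟨k, hk, hsk⟩ := exists_I h hs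
  refine ⟨k, hk, hsk, fun p a c => D.o1 k ((Nat.le_add_right _ _).trans hk) s hsk p
    (le_trans (pow_le_pow_left₀ (mul_nonneg hA (lam_pos h k).le)
      (mul_le_mul_of_nonneg_left (lam_anti h hk) hA) 2) a) c⟩

/-- the scalar data -/
theorem RD.rd (D : RD F τ A R' δ n0 b b') (h : τ.Ok F m1 η Cs V) {C0 ε0 κ : ℝ} (hC : 0 < C0)
    (hε : 0 < ε0) (hη : η ≤ ε0 / 2) (hm : 2 ≤ m1)
    (hcv : ∀ (G : MetricField 4) (U : Set E4) (x : E4) (s ε : ℝ), IsRiemannianOn G U → x ∈ U →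
      0 < s → ε ≤ ε0 → JG 2 G x s ε → √(nsq G (rmT G) x) ≤ C0 * ε / s ^ 2)
    (hκ : 0 < κ) (hδ : C0 * ε0 * κ ≤ δ) (hA : 1 ≤ A) (hAκ : 2 ≤ A * κ ^ 2) (hR : 0 < R')
    (hR1 : 2 * R' ≤ κ ^ 2 * τ.R) (hR2 : 2 * R' ≤ τ.R) :
    Rd F.hc (fun k => A * τ.lam (n0 + k)) (fun k => τ.t (n0 + k)) (R' ^ 2) δ τ.K (τ.c / A)
      (16 * |V|) b b' where
  nk := D.nk
  a_pos := mul_pos (by linarith) (lam_pos h _)
  a_eq n := by simp only [add_zero, lam_add h n0 n, mul_div_assoc]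
  hi_pos := by positivity
  c_pos := div_pos h.c_pos (by linarith)
  d_ge n := by
    have := h.d_ge (n0 + n)
    have e : τ.c / A * (A * τ.lam (n0 + n)) = τ.c * τ.lam (n0 + n) := by field_simp
    rw [e]; exact this
  dec n s hs p a c := by
    obtain ⟨k, hk, hsk, hp⟩ := D.pt h (by linarith) hs
    obtain ⟨x, hx, rfl, h1, h2⟩ := hp p a c
    have hl := lam_pos h k
    have hl' := lam_pos h (n0 + n)
    have hll := lam_anti h hk
    have hT := h.top k s hsk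
    have hx' : x ∈ shell (τ.N s).a (τ.N s).b := by rwa [h.a_eq k s hsk, h.b_eq k s hsk]
    have h0 : 0 < ‖x‖ := hl.trans hx.1
    have hj := (good_self h hsk).jet x hx'
    rw [h.a_eq k s hsk, h.b_eq k s hsk] at hj
    have hw := wt_nonneg (τ.lam k) τ.R x
    have hw2 := wt_le_two hl hx
    have hj2 : JG 2 ((F.m s).pm (τ.N s).Ψ) x ‖x‖ (ε0 / 2 * wt (τ.lam k) τ.R x) :=
      fun i hi u v => (hj i (hi.trans hm) u v).trans (mul_le_mul_of_nonneg_right hη hw)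
    have h3 := hcv _ _ x ‖x‖ _ (hT.par.riem (F.m s)) hx' h0 (by nlinarith) hj2
    have h4 : F.hc.N 0 s ((τ.N s).Ψ x) =
        nsq ((F.m s).pm (τ.N s).Ψ) (rmT ((F.m s).pm (τ.N s).Ψ)) x := hT.par.par_rm (F.m s) 0 hx'
    rw [h4]
    refine h3.trans ?_
    set β := b s ((τ.N s).Ψ x) with hβ
    have hb : 0 < β := lt_of_lt_of_le (by positivity) h1
    have hRp := R_pos h
    have hA0 : 0 < A := by linarith
    have q1 : √(τ.lam k / ‖x‖) ≤ κ * ((A * τ.lam (n0 + n)) ^ 2 / β) ^ (1 / 16 : ℝ) := by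
      refine sqrt_le_rpow (by positivity) hκ.le (by positivity) ((div_le_one hb).2 a) ?_
      rw [div_pow, ← mul_div_assoc, div_le_div_iff₀ (by positivity) hb]
      have e1 : τ.lam k ^ 2 ≤ τ.lam (n0 + n) ^ 2 := pow_le_pow_left₀ hl.le hll 2
      have e2 : 4 ≤ (A * κ ^ 2) ^ 2 := by nlinarith
      have e3 : τ.lam k ^ 2 * β ≤ τ.lam (n0 + n) ^ 2 * (2 * ‖x‖ ^ 2) :=
        mul_le_mul e1 h2 hb.le (by positivity)
      have e4 : 4 * (τ.lam (n0 + n) ^ 2 * ‖x‖ ^ 2) ≤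
          (A * κ ^ 2) ^ 2 * (τ.lam (n0 + n) ^ 2 * ‖x‖ ^ 2) :=
        mul_le_mul_of_nonneg_right e2 (by positivity)
      have e5 : 0 ≤ τ.lam (n0 + n) ^ 2 * ‖x‖ ^ 2 := by positivity
      nlinarith
    have q2 : √(‖x‖ / τ.R) ≤ κ * (β / R' ^ 2) ^ (1 / 16 : ℝ) := by
      refine sqrt_le_rpow (by positivity) hκ.le (by positivity)
        ((div_le_one (by positivity)).2 c) ?_
      rw [div_pow, ← mul_div_assoc, div_le_div_iff₀ (by positivity) (by positivity)]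
      have e2 : (2 * R') ^ 2 ≤ (κ ^ 2 * τ.R) ^ 2 := pow_le_pow_left₀ (by positivity) hR1 2
      have e3 : ‖x‖ ^ 2 * R' ^ 2 ≤ 2 * β * R' ^ 2 :=
        mul_le_mul_of_nonneg_right (by linarith) (by positivity)
      have e4 : β * (2 * R') ^ 2 ≤ β * (κ ^ 2 * τ.R) ^ 2 := mul_le_mul_of_nonneg_left e2 hb.le
      have e5 : 0 ≤ β * R' ^ 2 := by positivity
      nlinarith
    set Y := ((A * τ.lam (n0 + n)) ^ 2 / β) ^ (1 / 16 : ℝ) + (β / R' ^ 2) ^ (1 / 16 : ℝ) with hY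
    have hY0 : 0 ≤ Y := by positivity
    have q3 : wt (τ.lam k) τ.R x ≤ κ * Y := by rw [hY, mul_add]; exact add_le_add q1 q2
    rw [div_mul_eq_mul_div δ, div_le_div_iff₀ (by positivity) hb]
    have q4 : C0 * (ε0 / 2 * wt (τ.lam k) τ.R x) * β ≤
        C0 * (ε0 / 2 * (κ * Y)) * (2 * ‖x‖ ^ 2) := by gcongr
    have q5 : C0 * ε0 * κ * (Y * ‖x‖ ^ 2) ≤ δ * (Y * ‖x‖ ^ 2) :=
      mul_le_mul_of_nonneg_right hδ (by positivity)
    nlinarith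
  vol n s hs β hβ := by
    obtain ⟨k, hk, hsk, hp⟩ := D.pt h (by linarith) hs
    have hl := lam_pos h k
    have hl' := lam_pos h (n0 + n)
    have hll := lam_anti h hk
    rcases lt_or_ge β ((A * τ.lam (n0 + n)) ^ 2) with hlt | hge
    · have : {x | (A * τ.lam (n0 + n)) ^ 2 ≤ b s x ∧ b s x ≤ β} = ∅ :=
        eq_empty_of_forall_notMem fun x hx => by linarith [hx.1, hx.2]
      rw [this, measureReal_empty]; positivity
    have hb : 0 < β := lt_of_lt_of_le (by positivity) hge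
    have hsq := Real.sq_sqrt hb.le
    have hs0 := Real.sqrt_pos.2 hb
    have r1 : τ.lam k ≤ 2 * √β := by
      have : A * τ.lam (n0 + n) ≤ √β := Real.le_sqrt_of_sq_le hge
      nlinarith
    have r2 : 2 * √β ≤ τ.R := by
      have : √β ≤ R' := Real.sqrt_le_iff.2 ⟨hR.le, hβ⟩
      linarith
    have hv := h.vol k s hsk s le_rfl (le_add_of_nonneg_right (mul_pos h.c_pos hl).le)
      (lt_T h hsk.2.le) (2 * √β) ⟨r1, r2⟩
    have := N207.V.isFinite (F.m s)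
    have hsub : {x | (A * τ.lam (n0 + n)) ^ 2 ≤ b s x ∧ b s x ≤ β} ⊆ (τ.N s).Om (2 * √β) := by
      intro p hp'
      obtain ⟨x, hx, rfl, h1, -⟩ := hp p hp'.1 (hp'.2.trans hβ)
      refine Or.inr ⟨x, ⟨by rw [h.a_eq k s hsk]; exact hx.1, ?_⟩, rfl⟩
      refine lt_of_pow_lt_pow_left₀ 2 (by positivity) ?_
      have := hp'.2
      nlinarith
    refine (measureReal_mono (μ := (F.m s).vol) hsub).trans (hv.trans ?_)
    have e : (2 * √β) ^ 4 = 16 * β ^ 2 := by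
      rw [mul_pow, show (4 : ℕ) = 2 * 2 from rfl, pow_mul √β, hsq]; norm_num
    rw [e]
    nlinarith [le_abs_self V, sq_nonneg β]

/-- the annular mass is at most the mass in the chart -/
theorem RD.an_le (D : RD F τ A R' δ n0 b b') (h : τ.Ok F m1 η Cs V) {k : ℕ} (hk : n0 ≤ k) {s : ℝ}
    (hs : s ∈ τ.I k) {B r : ℝ} (hB : 8 * B ≤ R' ^ 2) (hr : 0 < r) (hBr : 32 * B ≤ r ^ 2) :
    An F.hc b (F.hc.Q 0) ((A * τ.lam k) ^ 2) (8 * B) s ≤ τ.ms F r s := by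
  refine mass_mono (F.m s) fun p hp => ?_
  obtain ⟨x, hx, rfl, h1, -⟩ := D.o1 k hk s hs p hp.1 (hp.2.trans hB)
  refine Or.inr ⟨x, ⟨by rw [h.a_eq k s hs]; exact hx.1, ?_⟩, rfl⟩
  refine lt_of_pow_lt_pow_left₀ 2 hr.le ?_
  have := hp.2
  have h0 : 0 < ‖x‖ := (lam_pos h k).trans hx.1
  nlinarith

end Crest.Agent.N207.NP.Pe

end
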