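import Crest.Agent.N207.NP.An

/-!
# Row 207, block P (helper85): tail estimate, growth estimate, pigeonhole
-/

set_option autoImplicit false
set_option linter.dupNamespace false
set_option linter.unusedSectionVars false
open Set MeasureTheory Filter Topology
open scoped ContDiff

noncomputable section

namespace Crest.Agent.N207.NP

/-- the profile -/
def gp (σ B0 B1 y : ℝ) : ℝ := (y / B0) ^ (σ / 2) * (1 + y / B1) ^ (-((σ + 3 / 4) / 2))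

section gp
variable {σ B0 B1 y : ℝ} (hB : 0 < B0) (hB1 : 0 < B1)
include hB hB1

theorem gp_cd : ContDiffOn ℝ ∞ (gp σ B0 B1) (Ioi 0) := by
  refine ContDiffOn.mul ((cd_rpow _).comp (f := fun y => y / B0) (by fun_prop) fun y hy => ?_)
    ((cd_rpow _).comp (f := fun y => 1 + y / B1) (by fun_prop) fun y hy => ?_)
  · exact div_pos hy hB
  · have : 0 < y := hy
    simp only [mem_Ioi]; positivity

theorem gp_sq (hy : 0 < y) :
    gp σ B0 B1 y ^ 2 = (y / B0) ^ σ * (1 + y / B1) ^ (-(σ + 3 / 4)) := by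
  rw [gp, mul_pow, ← Real.rpow_natCast, ← Real.rpow_natCast, ← Real.rpow_mul (by positivity),
    ← Real.rpow_mul (by positivity)]
  congr 2 <;> push_cast <;> ring

theorem gp_der (h1 : 3 / 4 ≤ σ) (hy : 0 < y) :
    (y * deriv (gp σ B0 B1) y) ^ 2 ≤ σ ^ 2 / 4 * gp σ B0 B1 y ^ 2 := by
  have p1 : 0 < y / B0 := div_pos hy hB
  have p2 : 0 < 1 + y / B1 := by positivity
  have d1 := ((hasDerivAt_id y).div_const B0).rpow_const (p := σ / 2) (Or.inl p1.ne')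
  have d2 := (((hasDerivAt_id y).div_const B1).const_add 1).rpow_const
    (p := -((σ + 3 / 4) / 2)) (Or.inl p2.ne')
  have d : deriv (gp σ B0 B1) y = _ := (d1.mul d2).deriv
  simp only [id] at d
  rw [Real.rpow_sub_one p1.ne', Real.rpow_sub_one p2.ne'] at d
  set z := y / B1 / (1 + y / B1) with hz
  have z0 : 0 ≤ z := by positivity
  have z1 : z ≤ 1 := by rw [hz, div_le_one p2]; linarith
  have e : y * deriv (gp σ B0 B1) y = (σ - (σ + 3 / 4) * z) / 2 * gp σ B0 B1 y := by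
    rw [d, gp, hz]; field_simp; ring
  rw [e, mul_pow]
  refine mul_le_mul_of_nonneg_right ?_ (sq_nonneg _)
  have a1 : 0 ≤ (σ + 3 / 4) * z := by positivity
  have a2 : (σ + 3 / 4) * z ≤ σ + 3 / 4 := mul_le_of_le_one_right (by linarith) z1
  nlinarith

theorem gp_up (h1 : 0 ≤ σ) (h2 : σ ≤ 1) (hy : 0 < y) (h : y ≤ 2 * B0) : gp σ B0 B1 y ^ 2 ≤ 2 := by
  rw [gp_sq hB hB1 hy]
  have a1 : (y / B0) ^ σ ≤ 2 := by
    refine (Real.rpow_le_rpow (by positivity) ((div_le_iff₀ hB).2 h) h1).trans ?_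
    simpa using Real.rpow_le_rpow_of_exponent_le (x := 2) (by norm_num) h2
  have a2 : (1 + y / B1) ^ (-(σ + 3 / 4)) ≤ 1 :=
    Real.rpow_le_one_of_one_le_of_nonpos (by have := div_pos hy hB1; linarith) (by linarith)
  calc _ ≤ 2 * 1 := mul_le_mul a1 a2 (by positivity) (by norm_num)
    _ = 2 := by norm_num

omit hB hB1 in
theorem two_rpow_ge {e : ℝ} (he : e ≤ 2) : (1 / 4 : ℝ) ≤ 2 ^ (-e) := by
  have := Real.rpow_le_rpow_of_exponent_le (x := 2) (by norm_num) (neg_le_neg he)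
  rw [Real.rpow_neg (by norm_num)] at this
  norm_num at this ⊢
  exact this

omit hB1 in
theorem gp_lo_a (h : B0 ≤ y) :
    1 / (4 * B0) * (y / B0) ^ (-(7 / 4) : ℝ) ≤ gp (3 / 4) B0 B0 y ^ 2 / y := by
  have hy : 0 < y := hB.trans_le h
  have p1 : 1 ≤ y / B0 := (one_le_div hB).2 h
  have p0 : 0 < y / B0 := by linarith
  rw [gp_sq hB hB hy]
  have a1 : (2 * (y / B0)) ^ (-(3 / 4 + 3 / 4) : ℝ) ≤ (1 + y / B0) ^ (-(3 / 4 + 3 / 4) : ℝ) :=
    Real.rpow_le_rpow_of_nonpos (by positivity) (by linarith) (by norm_num)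
  rw [Real.mul_rpow (by norm_num) p0.le] at a1
  have a2 := two_rpow_ge (e := 3 / 4 + 3 / 4) (by norm_num)
  have a3 : (y / B0) ^ (-(7 / 4) : ℝ) =
      (y / B0) ^ (3 / 4 : ℝ) * (y / B0) ^ (-(3 / 4 + 3 / 4) : ℝ) / (y / B0) := by
    rw [← Real.rpow_add p0, ← Real.rpow_sub_one p0.ne']; norm_num
  have a4 := Real.rpow_nonneg p0.le (3 / 4 : ℝ)
  have a5 := Real.rpow_nonneg p0.le (-(3 / 4 + 3 / 4) : ℝ)
  rw [a3, le_div_iff₀ hy]
  have e : 1 / (4 * B0) * ((y / B0) ^ (3 / 4 : ℝ) * (y / B0) ^ (-(3 / 4 + 3 / 4) : ℝ) / (y / B0)) * y =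
      (y / B0) ^ (3 / 4 : ℝ) * (1 / 4 * (y / B0) ^ (-(3 / 4 + 3 / 4) : ℝ)) := by
    field_simp
  rw [e]
  exact mul_le_mul_of_nonneg_left ((mul_le_mul_of_nonneg_right a2 a5).trans a1) a4

theorem gp_lo_b (h1 : 0 ≤ σ) (h2 : σ ≤ 1) (hy : 0 < y) (h : y ≤ B1) :
    1 / (4 * B0) * (B1 / B0) ^ (σ - 1) ≤ gp σ B0 B1 y ^ 2 / y := by
  have p0 : 0 < y / B0 := div_pos hy hB
  rw [gp_sq hB hB1 hy]
  have a1 : (2 : ℝ) ^ (-(σ + 3 / 4)) ≤ (1 + y / B1) ^ (-(σ + 3 / 4)) :=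
    Real.rpow_le_rpow_of_nonpos (by positivity) (by have := (div_le_one hB1).2 h; linarith)
      (by linarith)
  have a2 := (two_rpow_ge (e := σ + 3 / 4) (by linarith)).trans a1
  have a3 : (B1 / B0) ^ (σ - 1) ≤ (y / B0) ^ (σ - 1) :=
    Real.rpow_le_rpow_of_nonpos p0 (div_le_div_of_nonneg_right h hB.le) (by linarith)
  rw [Real.rpow_sub_one p0.ne'] at a3
  have a4 := Real.rpow_nonneg p0.le σ
  rw [le_div_iff₀ hy]
  calc _ ≤ 1 / (4 * B0) * ((y / B0) ^ σ / (y / B0)) * y := by gcongr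
    _ = (y / B0) ^ σ * (1 / 4) := by field_simp
    _ ≤ _ := mul_le_mul_of_nonneg_left a2 a4

theorem gp_init (h1 : 0 ≤ σ) (h2 : σ ≤ 1) (h3 : B0 ≤ B1) (hy : 0 < y) {X D : ℝ} (hX : 0 ≤ X)
    (h : X ≤ D * y ^ (-(3 / 4) : ℝ)) : gp σ B0 B1 y ^ 2 * X ^ 2 ≤
      (B1 / B0) ^ 2 * D ^ 2 / (B0 * √B0) * (y / B0) ^ (-(9 / 4) : ℝ) := by
  have p0 : 0 < y / B0 := div_pos hy hB
  have p1 : 1 ≤ B1 / B0 := (one_le_div hB).2 h3
  have a1 : (1 + y / B1) ^ (-(σ + 3 / 4)) ≤ (B1 / B0) ^ 2 * (y / B0) ^ (-(σ + 3 / 4)) := by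
    have e : y / B1 = (y / B0) / (B1 / B0) := by field_simp
    refine (Real.rpow_le_rpow_of_nonpos (div_pos hy hB1) (by linarith) (by linarith)).trans ?_
    rw [e, Real.div_rpow p0.le (by linarith),
      Real.rpow_neg (show 0 ≤ B1 / B0 by linarith) (σ + 3 / 4), div_inv_eq_mul, mul_comm]
    refine mul_le_mul_of_nonneg_right ?_ (Real.rpow_nonneg p0.le _)
    rw [← Real.rpow_natCast]
    exact Real.rpow_le_rpow_of_exponent_le p1 (by push_cast; linarith)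
  have a2 : X ^ 2 ≤ D ^ 2 / (B0 * √B0) * (y / B0) ^ (-(3 / 2) : ℝ) := by
    refine (pow_le_pow_left₀ hX h 2).trans_eq ?_
    rw [mul_pow, ← Real.rpow_natCast (y ^ _), ← Real.rpow_mul hy.le, Real.div_rpow hy.le hB.le,
      Real.rpow_neg hB.le, Real.sqrt_eq_rpow, ← Real.rpow_one_add' hB.le (by norm_num)]
    norm_num
    field_simp
  have a3 : (y / B0) ^ (-(9 / 4) : ℝ) =
      (y / B0) ^ σ * (y / B0) ^ (-(σ + 3 / 4)) * (y / B0) ^ (-(3 / 2) : ℝ) := by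
    rw [← Real.rpow_add p0, ← Real.rpow_add p0]; congr 1; ring
  rw [gp_sq hB hB1 hy, a3]
  calc _ ≤ (y / B0) ^ σ * ((B1 / B0) ^ 2 * (y / B0) ^ (-(σ + 3 / 4))) *
        (D ^ 2 / (B0 * √B0) * (y / B0) ^ (-(3 / 2) : ℝ)) := by gcongr
    _ = _ := by ring

end gp

/-- the pigeonhole principle -/
theorem pigeon {θ q C : ℝ} (hθ : 0 < θ) (hq0 : 0 ≤ q) (hq : q < 1 + θ) :
    ∃ N : ℕ, 1 ≤ N ∧ ∀ (l S : ℕ → ℝ) (D : ℝ), 0 ≤ D → 0 ≤ l 0 → 0 ≤ S 0 →
      (∀ i < N, S i + l (i + 1) ≤ S (i + 1)) → S N ≤ C * q ^ N * l 0 + D →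
      ∃ i < N, l (i + 1) ≤ θ * (l 0 + S i) + D := by
  have p : 0 < 1 + θ := by linarith
  have t1 := tendsto_pow_atTop_nhds_zero_of_lt_one (r := 1 / (1 + θ)) (by positivity)
    ((div_lt_one p).2 (by linarith))
  have t2 := (tendsto_pow_atTop_nhds_zero_of_lt_one (r := q / (1 + θ)) (by positivity)
    ((div_lt_one p).2 hq)).const_mul C
  have t3 := (t1.add t2).eventually_le_const (show (0 : ℝ) + C * 0 < 1 by simp)
  obtain ⟨N, hN, hN1⟩ := (t3.and (eventually_ge_atTop 1)).exists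
  refine ⟨N, hN1, fun l S D hD hl hS h1 h2 => ?_⟩
  by_contra hc
  push Not at hc
  have k : ∀ i, i + 1 ≤ N → (1 + θ) ^ (i + 1) * l 0 + D < l 0 + S (i + 1) := fun i => by
    induction i with
    | zero =>
      intro h
      have a1 := hc 0 h
      have a2 := h1 0 h
      rw [pow_succ, pow_zero]
      nlinarith [mul_nonneg hθ.le hS]
    | succ i ih =>
      intro h
      have a1 := ih (by omega)
      have a2 := hc (i + 1) h
      have a3 := h1 (i + 1) h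
      rw [pow_succ (1 + θ) (i + 1)]
      nlinarith [mul_lt_mul_of_pos_left a1 p]
  obtain ⟨i, rfl⟩ : ∃ i, N = i + 1 := ⟨N - 1, by omega⟩
  have a1 := k i le_rfl
  have a2 : 1 + C * q ^ (i + 1) ≤ (1 + θ) ^ (i + 1) := by
    rw [div_pow, div_pow, one_pow, ← mul_div_assoc, ← add_div, div_le_one (pow_pos p _)] at hN
    exact hN
  nlinarith [mul_le_mul_of_nonneg_right a2 hl]

variable {M : Type*} [TopologicalSpace M] [CompactSpace M] [MeasurableSpace M]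
  [OpensMeasurableSpace M] {H : HC M}

/-- `∫ₜ An` -/
def TA (H : HC M) (s0 s1 : ℝ) (b f : ℝ → M → ℝ) (l u : ℝ) : ℝ := ∫ t in s0..s1, An H b f l u t

/-- the data of the energy estimates on one strip -/
structure Xd (H : HC M) (s0 s1 lo hi del ν D Cv : ℝ) (b b' X X' : ℝ → M → ℝ) : Prop where
  nk : Nk H s0 s1 lo hi del b b'
  xc : Xc H s0 s1 lo hi ν b X X'
  lo_pos : 0 < lo
  hi_pos : 0 < hi
  del_nn : 0 ≤ del
  del_le : del ≤ 1 / 50
  ν_le : ν ≤ 1 / 50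
  Cv_nn : 0 ≤ Cv
  van : ∀ t ∈ Icc s0 s1, ∀ x, hi / 2 ≤ b t x → b t x ≤ hi → X t x = 0
  bd : ∀ x, lo ≤ b s0 x → b s0 x ≤ hi → X s0 x ≤ D * b s0 x ^ (-(3 / 4) : ℝ)
  vol : ∀ β ≤ hi, (H.vol s0).real {x | lo ≤ b s0 x ∧ b s0 x ≤ β} ≤ Cv * β ^ 2

variable (A : H.Alg) (I : H.Intg)
include A I

theorem ta_mono {s0 s1 l u l' u' : ℝ} {b f g : ℝ → M → ℝ} (hs : H.St s0 s1) (hb : H.Sm s0 s1 b)
    (hf : H.Sm s0 s1 f) (hg : H.Sm s0 s1 g) (h0 : ∀ t ∈ Icc s0 s1, ∀ x, 0 ≤ g t x)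
    (h : ∀ t ∈ Icc s0 s1, ∀ x, l ≤ b t x → b t x ≤ u →
      f t x ≤ 0 ∨ (l' ≤ b t x ∧ b t x ≤ u' ∧ f t x ≤ g t x)) :
    TA H s0 s1 b f l u ≤ TA H s0 s1 b g l' u' :=
  intervalIntegral.integral_mono_on hs.2.1.le (an_ii A I hs hb hf _ _) (an_ii A I hs hb hg _ _)
    fun t ht => an_mono A I (hs.mem ht) (A.sm_s0 hb t ht) (A.sm_s0 hf t ht) (A.sm_s0 hg t ht)
      (h0 t ht) (h t ht)

omit A I in
theorem ta_nn {s0 s1 l u : ℝ} {b f : ℝ → M → ℝ} (hs : s0 ≤ s1)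
    (h0 : ∀ t ∈ Icc s0 s1, ∀ x, 0 ≤ f t x) : 0 ≤ TA H s0 s1 b f l u :=
  intervalIntegral.integral_nonneg hs fun t ht => an_nn (h0 t ht)

omit A I in
theorem ta_cmul {s0 s1 l u : ℝ} {b f : ℝ → M → ℝ} (c : ℝ) :
    TA H s0 s1 b (fun t x => c * f t x) l u = c * TA H s0 s1 b f l u := by
  simp only [TA, An, integral_const_mul, intervalIntegral.integral_const_mul]

theorem ta_add {s0 s1 l u l' u' : ℝ} {b f : ℝ → M → ℝ} (hs : H.St s0 s1) (hb : H.Sm s0 s1 b)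
    (hf : H.Sm s0 s1 f) (h0 : ∀ t ∈ Icc s0 s1, ∀ x, 0 ≤ f t x) {u'' : ℝ} (h1 : u < l')
    (h2 : u' ≤ u'') (h3 : l ≤ l') (h4 : u ≤ u'') :
    TA H s0 s1 b f l u + TA H s0 s1 b f l' u' ≤ TA H s0 s1 b f l u'' := by
  rw [TA, TA, ← intervalIntegral.integral_add (an_ii A I hs hb hf _ _) (an_ii A I hs hb hf _ _)]
  refine intervalIntegral.integral_mono_on hs.2.1.le
    ((an_ii A I hs hb hf _ _).add (an_ii A I hs hb hf _ _)) (an_ii A I hs hb hf _ _) fun t ht => ?_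
  have cb := A.s0_cont (A.sm_s0 hb t ht)
  have j := fun l u => ind_int cb (A.integrable I (hs.mem ht) (A.sm_s0 hf t ht)) l u
  rw [an_eq cb, an_eq cb, an_eq cb, ← integral_add (j _ _) (j _ _)]
  refine integral_mono ((j _ _).add (j _ _)) (j _ _) fun x => ?_
  simp only [← add_mul]
  refine mul_le_mul_of_nonneg_right ?_ (h0 t ht x)
  unfold ind
  split_ifs with a1 a2 a3 a4 a5 a6 a7 <;> try norm_num
  · linarith [a1.2, a2.1]
  · linarith [a1.2, a2.1]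
  · exact a4 ⟨a1.1, a1.2.trans h4⟩
  · exact a6 ⟨h3.trans a5.1, a5.2.trans h2⟩

/-- the tail estimate (a) and the growth estimate (b) -/
theorem est : ∃ C0, 0 < C0 ∧ ∀ {s0 s1 lo hi del ν D Cv B0 : ℝ} {b b' X X' : ℝ → M → ℝ},
    Xd H s0 s1 lo hi del ν D Cv b b' X X' → lo ≤ B0 →
    TA H s0 s1 b (fun t x => (b t x / B0) ^ (-(7 / 4) : ℝ) * X t x ^ 2) (2 * B0) hi ≤
      C0 * (TA H s0 s1 b (fun t x => X t x ^ 2) B0 (2 * B0) + Cv * D ^ 2 * (B0 * √B0)) ∧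
    ∀ ε B1 : ℝ, 0 < ε → ε ≤ 1 / 4 → 11 * del + 3 * ν ≤ ε → B0 ≤ B1 → B1 ≤ hi →
      TA H s0 s1 b (fun t x => X t x ^ 2) (2 * B0) B1 ≤ C0 / ε * (B1 / B0) ^ ε *
        (TA H s0 s1 b (fun t x => X t x ^ 2) B0 (2 * B0) +
          (B1 / B0) ^ 2 * (Cv * D ^ 2 * (B0 * √B0))) := by
  obtain ⟨C0, hC, hm⟩ := master A I
  refine ⟨8 * (C0 + 512), by positivity, ?_⟩
  intro s0 s1 lo hi del ν D Cv B0 b b' X X' Z hlo
  have hB : 0 < B0 := Z.lo_pos.trans_le hlo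
  have N := Z.nk
  have h0 : s0 ∈ Icc s0 s1 := ⟨le_rfl, N.st.2.1.le⟩
  have sX := A.sm_pow 2 Z.xc.tm.sm
  have l0 : 0 ≤ TA H s0 s1 b (fun t x => X t x ^ 2) B0 (2 * B0) :=
    ta_nn N.st.2.1.le fun _ _ _ => sq_nonneg _
  have d0 : 0 ≤ Cv * D ^ 2 * (B0 * √B0) := by have := Z.Cv_nn; positivity
  have key : ∀ σ B1 κ w u : ℝ, ∀ f : ℝ → M → ℝ, 3 / 4 ≤ σ → σ ≤ 1 → B0 ≤ B1 → 0 ≤ κ → u ≤ hi →
      κ ≤ 2 - 8 * del - 3 * ν - (2 + 9 / 4 * del) * σ ^ 2 → H.Sm s0 s1 f →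
      (∀ t ∈ Icc s0 s1, ∀ x, 2 * B0 ≤ b t x → b t x ≤ u →
        w * f t x ≤ gp σ B0 B1 (b t x) ^ 2 / b t x * X t x ^ 2) →
      κ * (w * TA H s0 s1 b f (2 * B0) u) * B0 ≤ (C0 + 512) *
        (TA H s0 s1 b (fun t x => X t x ^ 2) B0 (2 * B0) +
          (B1 / B0) ^ 2 * (Cv * D ^ 2 * (B0 * √B0))) := by
    intro σ B1 κ w u f h1 h2 h3 hκ hu hκ1 hf hw
    have hB1 : 0 < B1 := hB.trans_le h3
    have cg := gp_cd (σ := σ) hB hB1
    have sg := A.sm_pow 2 (A.sm_comp isOpen_Ioi cg N.pos N.sm)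
    have s1' := A.sm_mul (A.sm_div sg N.sm N.pos) sX
    have m := hm N Z.xc cg hB hlo Z.hi_pos Z.del_nn Z.del_le (σ := σ) (by nlinarith)
      (by linarith [Z.del_le, Z.ν_le]) (fun y hy => gp_der hB hB1 h1 hy)
      (fun y hy => gp_up hB hB1 (by linarith) h2 hy) Z.van
    have a1 := ta_mono A I N.st N.sm (A.sm_cmul w hf) s1' (l := 2 * B0) (u := u) (l' := 2 * B0)
      (u' := hi) (fun t ht x => by have := N.pos t ht x; positivity)
      fun t ht x p q => Or.inr ⟨p, q.trans hu, hw t ht x p q⟩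
    rw [ta_cmul] at a1
    have σ0 : 0 ≤ σ := by linarith
    have a2 := an_init A I (f := fun t x => gp σ B0 B1 (b t x) ^ 2 * X t x ^ 2) (N.st.mem h0)
      (N.tm.fix A h0) (A.sm_s0 (A.sm_mul sg sX) _ h0) hB hlo
      (D := (B1 / B0) ^ 2 * D ^ 2 / (B0 * √B0)) (by positivity) Z.Cv_nn Z.hi_pos.le Z.vol
      fun x p q => gp_init hB hB1 σ0 h2 h3 (N.pos _ h0 x) (Z.xc.nn _ h0 x)
        (Z.bd x (hlo.trans p) q)
    have a3 : 0 ≤ TA H s0 s1 b (fun t x => gp σ B0 B1 (b t x) ^ 2 / b t x * X t x ^ 2) (2 * B0) hi :=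
      ta_nn N.st.2.1.le fun t ht x => by have := N.pos t ht x; positivity
    have a4 := (mul_le_mul_of_nonneg_left a1 hκ).trans
      ((mul_le_mul_of_nonneg_right hκ1 a3).trans (m.trans (add_le_add a2 le_rfl)))
    have a5 := mul_le_mul_of_nonneg_right a4 hB.le
    have sq : √B0 * √B0 = B0 := Real.mul_self_sqrt hB.le
    have sp : 0 < √B0 := Real.sqrt_pos.2 hB
    have e : (512 * Cv * ((B1 / B0) ^ 2 * D ^ 2 / (B0 * √B0)) * B0 ^ 2 + C0 / B0 *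
        ∫ t in s0..s1, An H b (fun t x => X t x ^ 2) B0 (2 * B0) t) * B0 =
        512 * ((B1 / B0) ^ 2 * (Cv * D ^ 2 * (B0 * √B0))) +
          C0 * TA H s0 s1 b (fun t x => X t x ^ 2) B0 (2 * B0) := by
      rw [TA]; set z := B1 / B0; field_simp
      linear_combination (-(512 * Cv * z ^ 2 * D ^ 2 * B0)) * sq
    rw [e] at a5
    nlinarith [mul_nonneg (sq_nonneg (B1 / B0)) d0]
  constructor
  · have := key (3 / 4) B0 (1 / 2) (1 / (4 * B0)) hi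
      (fun t x => (b t x / B0) ^ (-(7 / 4) : ℝ) * X t x ^ 2) le_rfl (by norm_num) le_rfl
      (by norm_num) le_rfl (by linarith [Z.del_le, Z.ν_le])
      (A.sm_mul (A.sm_comp isOpen_Ioi (cd_rpow _) (fun t ht x => div_pos (N.pos t ht x) hB)
        (by simpa [div_eq_inv_mul] using A.sm_cmul B0⁻¹ N.sm)) sX) fun t ht x p q => by
        rw [← mul_assoc]
        exact mul_le_mul_of_nonneg_right (gp_lo_a hB (by linarith)) (sq_nonneg _)
    rw [div_self hB.ne', one_pow, one_mul] at this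
    have e : ∀ z : ℝ, 1 / 2 * (1 / (4 * B0) * z) * B0 = z / 8 := fun z => by field_simp; ring
    rw [e] at this
    linarith
  · intro ε B1 e0 e1 e2 h3 hu
    have hB1 : 0 < B1 := hB.trans_le h3
    have := key (1 - ε) B1 ε (1 / (4 * B0) * (B1 / B0) ^ (1 - ε - 1)) B1
      (fun t x => X t x ^ 2) (by linarith) (by linarith) h3 e0.le hu
      (by nlinarith [Z.del_nn, mul_nonneg Z.del_nn e0.le]) sX fun t ht x p q =>
        mul_le_mul_of_nonneg_right (gp_lo_b hB hB1 (by linarith) (by linarith) (N.pos t ht x) q)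
          (sq_nonneg _)
    have p : 0 < (B1 / B0) ^ ε := Real.rpow_pos_of_pos (div_pos hB1 hB) _
    rw [show 1 - ε - 1 = -ε by ring, Real.rpow_neg (div_pos hB1 hB).le] at this
    have e : ∀ z : ℝ, ε * (1 / (4 * B0) * ((B1 / B0) ^ ε)⁻¹ * z) * B0 =
        z / (4 / ε * (B1 / B0) ^ ε) := fun z => by field_simp
    rw [e, div_le_iff₀ (by positivity)] at this
    refine this.trans ?_
    have q : 0 ≤ TA H s0 s1 b (fun t x => X t x ^ 2) B0 (2 * B0) +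
        (B1 / B0) ^ 2 * (Cv * D ^ 2 * (B0 * √B0)) := by positivity
    set w := TA H s0 s1 b (fun t x => X t x ^ 2) B0 (2 * B0) +
        (B1 / B0) ^ 2 * (Cv * D ^ 2 * (B0 * √B0))
    have : 0 ≤ (C0 + 512) / ε * (B1 / B0) ^ ε * w := by positivity
    calc _ = 4 * ((C0 + 512) / ε * (B1 / B0) ^ ε * w) := by ring
      _ ≤ 8 * ((C0 + 512) / ε * (B1 / B0) ^ ε * w) := by linarith
      _ = _ := by ring

end Crest.Agent.N207.NP

end
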