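import Crest.Agent.N207.NP.Win
import Crest.Agent.N207.NP.Bar

/-!
# Row 207, block P (helper85): the subsolution `X ≈ (|Ric| - C mem)₊` on every strip
-/

set_option autoImplicit false
set_option linter.dupNamespace false
set_option linter.unusedSectionVars false
open Set MeasureTheory Filter Topology
open scoped ContDiff

noncomputable section

namespace Crest.Agent.N207.NP

variable {M : Type*} [TopologicalSpace M] [CompactSpace M] [MeasurableSpace M]
  [OpensMeasurableSpace M] {H : HC M}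

theorem memH_ge {a tt : ℕ → ℝ} (h : Monotone tt) (n : ℕ) : 1 ≤ memH a tt n :=
  le_add_of_nonneg_right (Finset.sum_nonneg fun j _ => div_nonneg (Real.sqrt_nonneg _)
    (Real.rpow_nonneg (sub_nonneg.2 (h (by omega))) _))

theorem memH_mono {a tt : ℕ → ℝ} (h : Monotone tt) : Monotone (memH a tt) := fun m n hmn => by
  unfold memH
  refine add_le_add le_rfl (Finset.sum_le_sum_of_subset_of_nonneg
    (Finset.range_mono (by omega)) fun j _ _ => div_nonneg (Real.sqrt_nonneg _)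
    (Real.rpow_nonneg (sub_nonneg.2 (h (by omega))) _))

theorem memH_term {a tt : ℕ → ℝ} (h : Monotone tt) {m n : ℕ} (hm : m + 2 ≤ n) :
    √(a m) / (tt (m + 2) - tt (m + 1)) ^ (3 / 4 : ℝ) ≤ memH a tt n := by
  have := Finset.single_le_sum (s := Finset.range (n - 1))
    (f := fun j => √(a j) / (tt (j + 2) - tt (j + 1)) ^ (3 / 4 : ℝ))
    (fun j _ => div_nonneg (Real.sqrt_nonneg _) (Real.rpow_nonneg (sub_nonneg.2 (h (by omega))) _))
    (Finset.mem_range.2 (show m < n - 1 by omega))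
  unfold memH; linarith

/-- the properties of the subsolution on the `n`-th strip -/
structure Xs (H : HC M) (a tt : ℕ → ℝ) (hi ν C : ℝ) (b : ℝ → M → ℝ) (n : ℕ)
    (X X' : ℝ → M → ℝ) : Prop where
  xc : Xc H (tt n) (tt (n + 1)) (4 * a n ^ 2) (hi / 4) ν b X X'
  le : ∀ t ∈ Icc (tt n) (tt (n + 1)), ∀ x, 4 * a n ^ 2 ≤ b t x → b t x ≤ hi / 4 →
    X t x ^ 2 ≤ H.Q 0 t x
  ge : ∀ t ∈ Icc (tt n) (tt (n + 1)), ∀ x, 4 * a n ^ 2 ≤ b t x → b t x ≤ hi / 4 →
    √(H.Q 0 t x) ≤ X t x + C * memH a tt n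
  bd : ∀ t ∈ Icc (tt n) (tt (n + 1)), ∀ x, 4 * a n ^ 2 ≤ b t x → b t x ≤ hi / 4 →
    X t x ≤ C * √(a n) * b t x ^ (-(3 / 4) : ℝ)
  van : ∀ t ∈ Icc (tt n) (tt (n + 1)), ∀ x, 4 * a n ^ 2 ≤ b t x → b t x ≤ hi / 4 →
    C * √(a n) * b t x ^ (-(3 / 4) : ℝ) ≤ 1 → X t x = 0

namespace Rd

variable {a tt : ℕ → ℝ} {hi del K c Cv : ℝ} {b : ℝ → M → ℝ} {b' : ℕ → ℝ → M → ℝ}
  (S : Rd H a tt hi del K c Cv b b')
include S

theorem sq (hK : 4 ≤ K) (hd : 0 ≤ del) (hd1 : del ≤ 1 / 50) {C1 : ℝ} (hC : 0 ≤ C1)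
    (hcr : ∀ n, ∀ t ∈ Icc (tt n) (tt (n + 1)), ∀ x, 4 * a n ^ 2 ≤ b t x → 4 * b t x ≤ hi →
      √(H.Q 0 t x) ≤ C1 / √(b t x)) :
    Sq H (fun n => 2 * a n) tt (hi / 4) del (1 / 16) del K C1 b b' where
  nk n := (S.nk n).mono (by nlinarith [sq_nonneg (a n)]) (by linarith [S.hi_pos]) le_rfl
  a_pos n := by linarith [S.ap hK n]
  a_le n := by rw [S.a_succ hK n]; linarith
  K_ge := by linarith
  hi_pos := by linarith [S.hi_pos]
  C1_nn := hC
  del_le := hd1
  γ_nn := by norm_num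
  γ_le := le_rfl
  ν_nn := hd
  dec n t ht x l u := by
    have hb := (S.nk n).pos t ht x
    have hh := S.hi_pos
    refine (S.dec n t ht x (by nlinarith [sq_nonneg (a n)]) (by linarith)).trans
      (mul_le_mul_of_nonneg_left (add_le_add ?_ ?_) (div_nonneg hd hb.le))
    · exact Real.rpow_le_rpow (by positivity)
        (div_le_div_of_nonneg_right (by nlinarith [sq_nonneg (a n)]) hb.le) (by norm_num)
    · exact Real.rpow_le_rpow (by positivity)
        (div_le_div_of_nonneg_left hb.le (by linarith) (by linarith)) (by norm_num)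
  crude n t ht x l u := hcr n t ht x (by linarith) (by linarith)

theorem Gf_le (hK : 4 ≤ K) {C1 : ℝ} (hC : 0 ≤ C1) (c0 : ℝ) (n : ℕ) {t : ℝ}
    (ht : t ∈ Icc (tt n) (tt (n + 1))) (x : M) :
    Gf (fun n => 2 * a n) tt K C1 c0 b n t x ≤ 4 * (C1 * √(2 * K)) * (memH a tt n - 1) +
      (1 + √K) * (C1 * √(2 * K)) * √(a n) * b t x ^ (-(3 / 4) : ℝ) + c0 := by
  have hb := (S.nk n).pos t ht x
  have eA : ∀ m, Am (fun n => 2 * a n) K C1 m = C1 * √(2 * K) * √(a m) := fun m => by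
    rw [Am, ← Real.sqrt_eq_rpow, mul_assoc, ← Real.sqrt_mul (by linarith)]; congr 2; ring
  have p0 : 0 ≤ C1 * √(2 * K) := mul_nonneg hC (Real.sqrt_nonneg _)
  have p1 := Real.rpow_nonneg hb.le (-(3 / 4) : ℝ)
  simp only [Gf, eA, memH, add_sub_cancel_left]
  rw [pw, sh0]
  rcases n with _ | n
  · have := mul_nonneg (mul_nonneg (mul_nonneg (Real.sqrt_nonneg K) p0) (Real.sqrt_nonneg (a 0))) p1
    simp only [Finset.range_zero, Finset.sum_empty, Nat.zero_sub]
    nlinarith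
  rw [Finset.sum_range_succ, Nat.add_sub_cancel, Finset.mul_sum]
  have a1 : ∑ m ∈ Finset.range n, C1 * √(2 * K) * √(a m) * pw b (1 / 4) (tt (m + 1)) (-(3 / 4)) t x ≤
      ∑ m ∈ Finset.range n,
        4 * (C1 * √(2 * K)) * (√(a m) / (tt (m + 2) - tt (m + 1)) ^ (3 / 4 : ℝ)) := by
    refine Finset.sum_le_sum fun m hm => ?_
    have hm := Finset.mem_range.1 hm
    have d0 : 0 < tt (m + 2) - tt (m + 1) := sub_pos.2 (S.smono (by omega))
    have d1 := S.smono.monotone (show m + 2 ≤ n + 1 by omega)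
    have b1 : pw b (1 / 4) (tt (m + 1)) (-(3 / 4)) t x ≤
        ((tt (m + 2) - tt (m + 1)) / 4) ^ (-(3 / 4) : ℝ) :=
      Real.rpow_le_rpow_of_nonpos (by linarith) (by simp only [sh]; linarith [ht.1]) (by norm_num)
    have b2 : (4 : ℝ) ^ (3 / 4 : ℝ) ≤ 4 := by
      simpa using Real.rpow_le_rpow_of_exponent_le (x := 4) (y := 3 / 4) (z := 1) (by norm_num)
        (by norm_num)
    rw [Real.rpow_neg (by linarith), Real.div_rpow d0.le (by norm_num), inv_div] at b1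
    have b3 := b1.trans (div_le_div_of_nonneg_right b2 (Real.rpow_nonneg d0.le _))
    refine (mul_le_mul_of_nonneg_left b3 (mul_nonneg p0 (Real.sqrt_nonneg _))).trans_eq ?_
    ring
  have a2 : pw b (1 / 4) (tt (n + 1)) (-(3 / 4)) t x ≤ b t x ^ (-(3 / 4) : ℝ) :=
    Real.rpow_le_rpow_of_nonpos hb (by simp only [sh]; linarith [ht.1]) (by norm_num)
  have a3 : √(a n) = √K * √(a (n + 1)) := by
    rw [S.a_succ hK n, Real.sqrt_mul (by linarith)]
  have a4 := mul_le_mul_of_nonneg_left a2 (mul_nonneg p0 (Real.sqrt_nonneg (a n)))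
  rw [a3] at a4 ⊢
  nlinarith

theorem sub (O : H.Ok) (hK : 4 ≤ K) (hd : 0 ≤ del) (hd1 : del ≤ 1 / 50) {C1 cc : ℝ} (hC : 0 ≤ C1)
    (hcr : ∀ n, ∀ t ∈ Icc (tt n) (tt (n + 1)), ∀ x, 4 * a n ^ 2 ≤ b t x → 4 * b t x ≤ hi →
      √(H.Q 0 t x) ≤ C1 / √(b t x)) (hcc : 1 ≤ cc) (hP : PhSub H cc)
    (hν : cc * del * (4 + (K ^ 2) ^ (1 / 16 : ℝ)) ≤ 3 * (1 / 16))
    (hs : Small (fun n => 2 * a n) tt (1 / 16)) :
    ∃ C, 1 ≤ C ∧ ∀ n, ∃ X X', Xs H a tt hi ((2 * cc + 8) * del) C b n X X' := by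
  have A := O.alg
  have Z := S.sq hK hd hd1 hC hcr
  set c0 := 1 + C1 / (2 * a 0) + C1 / √(hi / 4) with hc0
  set CW := 4 + (K ^ 2) ^ (1 / 16 : ℝ) with hCW
  set E := C1 * √(2 * K) with hE
  have E0 : 0 ≤ E := mul_nonneg hC (Real.sqrt_nonneg _)
  have c1 : 1 ≤ c0 := by
    have := div_nonneg hC (show 0 ≤ 2 * a 0 by linarith [S.a_pos])
    have := div_nonneg hC (Real.sqrt_nonneg (hi / 4))
    linarith
  have W1 : 1 ≤ CW := by have := Real.rpow_nonneg (sq_nonneg K) (1 / 16 : ℝ); linarith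
  set C2 := c0 + 2 + 4 * E + (1 + √K) * E with hC2
  have sK := Real.sqrt_nonneg K
  have E1 : 0 ≤ (1 + √K) * E := by positivity
  have C22 : 2 ≤ C2 := by linarith
  refine ⟨CW * C2, by nlinarith, fun n => ?_⟩
  obtain ⟨W', G⟩ := Z.wg A hs (by linarith) hν n
  obtain ⟨f', T, hf⟩ := hP (S.nk n).st
  have m1 := memH_ge (a := a) S.smono.monotone n
  have β2 : 2 ≤ C2 * memH a tt n := by nlinarith
  obtain ⟨X', TX, hX⟩ := sub_Gp A (S.nk n).st G T (β := C2 * memH a tt n) (by linarith)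
    (fun t _ x => mul_nonneg (by linarith) (Real.sqrt_nonneg _)) hf
  have e4 : (2 * a n) ^ 2 = 4 * a n ^ 2 := by ring
  simp only [e4] at G hX
  have P := Z.p1 A O.evo hs (by linarith) hP hν (c0 := c0) le_rfl n
  simp only [e4] at P
  have key : ∀ t ∈ Icc (tt n) (tt (n + 1)), ∀ x, 4 * a n ^ 2 ≤ b t x → b t x ≤ hi / 4 →
      ph H t x - C2 * memH a tt n * Wf (fun n => 2 * a n) tt (hi / 4) (1 / 16) b n t x + 1 ≤
        Wf (fun n => 2 * a n) tt (hi / 4) (1 / 16) b n t x *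
          (C2 * √(a n) * b t x ^ (-(3 / 4) : ℝ) - 1) := fun t ht x l u => by
    have a1 := P t ht x l u
    have a2 := S.Gf_le hK hC c0 n ht x
    have a3 := G.one t ht x l u
    have a4 := mul_nonneg (Real.sqrt_nonneg (a n))
      (Real.rpow_nonneg ((S.nk n).pos t ht x).le (-(3 / 4) : ℝ))
    rw [← hE] at a2
    have a5 : Gf (fun n => 2 * a n) tt K C1 c0 b n t x ≤
        C2 * memH a tt n + C2 * √(a n) * b t x ^ (-(3 / 4) : ℝ) - 2 := by
      have b1 : (1 + √K) * E * (√(a n) * b t x ^ (-(3 / 4) : ℝ)) ≤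
          C2 * (√(a n) * b t x ^ (-(3 / 4) : ℝ)) := mul_le_mul_of_nonneg_right (by linarith) a4
      have b2 : 4 * E * (memH a tt n - 1) ≤ C2 * (memH a tt n - 1) :=
        mul_le_mul_of_nonneg_right (by linarith) (by linarith)
      nlinarith
    nlinarith [mul_le_mul_of_nonneg_left a5 (show 0 ≤ Wf (fun n => 2 * a n) tt (hi / 4) (1 / 16) b n t x
      by linarith)]
  refine ⟨_, X', ⟨TX, fun t _ x => Gp_nonneg _, fun t ht x l u => ?_, fun t ht x l u => ?_⟩,
    fun t ht x l u => ?_, fun t ht x l u => ?_, fun t ht x l u => ?_, fun t ht x l u h => ?_⟩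
  · refine (hX t ht x l u).trans (mul_le_mul_of_nonneg_right ?_ (Gp_nonneg _))
    have hb := (S.nk n).pos t ht x
    have a1 := S.sqN_le hd ht (x := x) (by nlinarith [sq_nonneg (a n)]) (by linarith [S.hi_pos])
    refine (mul_le_mul_of_nonneg_left a1 (by linarith)).trans ?_
    rw [← mul_div_assoc]
    exact div_le_div_of_nonneg_right (by nlinarith) hb.le
  · have hb := (S.nk n).pos t ht x
    have hm := (S.nk n).st.mem ht
    have a1 := S.sqN_le hd ht (x := x) (by nlinarith [sq_nonneg (a n)]) (by linarith [S.hi_pos])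
    have a2 : |H.R t x| ≤ 4 * √(H.N 0 t x) := by
      refine abs_le_of_sq_le_sq' ?_ (by positivity) |> abs_le.2
      rw [mul_pow, Real.sq_sqrt (O.evo.N_nonneg 0 t hm x)]
      linarith [O.evo.R_sq t hm x, O.evo.Q_le 0 t hm x]
    refine (a2.trans (mul_le_mul_of_nonneg_left a1 (by norm_num))).trans ?_
    rw [← mul_div_assoc]
    exact div_le_div_of_nonneg_right (by nlinarith) hb.le
  · have hm := (S.nk n).st.mem ht
    rw [← Real.le_sqrt (Gp_nonneg _) (O.evo.Q_nonneg 0 t hm x)]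
    refine Gp_le' (Real.sqrt_nonneg _) ?_
    nlinarith [ph_le O.evo hm x, G.one t ht x l u]
  · have a1 := le_Gp (ph H t x - C2 * memH a tt n *
      Wf (fun n => 2 * a n) tt (hi / 4) (1 / 16) b n t x)
    have a2 := mul_le_mul_of_nonneg_left (G.le t ht x l u) (show 0 ≤ C2 * memH a tt n by linarith)
    linarith [le_ph (H := H) t x]
  · have a4 : 0 ≤ C2 * √(a n) * b t x ^ (-(3 / 4) : ℝ) := mul_nonneg (by positivity)
      (Real.rpow_nonneg ((S.nk n).pos t ht x).le _)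
    have a5 := mul_le_mul_of_nonneg_right (G.le t ht x l u) a4
    refine Gp_le' (by nlinarith) ((key t ht x l u).trans ?_)
    nlinarith [G.one t ht x l u]
  · have a4 : 0 ≤ C2 * √(a n) * b t x ^ (-(3 / 4) : ℝ) := mul_nonneg (by positivity)
      (Real.rpow_nonneg ((S.nk n).pos t ht x).le _)
    have a5 : C2 * √(a n) * b t x ^ (-(3 / 4) : ℝ) ≤ 1 := by nlinarith
    refine Gp_zero ?_
    nlinarith [key t ht x l u, G.one t ht x l u]

end Rd

end Crest.Agent.N207.NP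

end
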