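import Crest.Agent.N207.NP.Pig

/-!
# Row 207, block P (helper85): parabolic windows on the neck, epsilon regularity at the centre
-/

set_option autoImplicit false
set_option linter.dupNamespace false
set_option linter.unusedSectionVars false
open Set MeasureTheory Filter Topology
open scoped ContDiff

noncomputable section

namespace Crest.Agent.N207.NP

local notation "st" => Real.smoothTransition

/-- bump: `1` on `[1/2, 2]`, `0` off `[1/4, 4]` -/
def bp (s : ℝ) : ℝ := st (4 * s - 1) * st (2 - s / 2)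

theorem bp_cd : ContDiff ℝ ∞ bp := (st_cd.comp (by fun_prop)).mul (st_cd.comp (by fun_prop))

theorem bp_nn (s : ℝ) : 0 ≤ bp s :=
  mul_nonneg (Real.smoothTransition.nonneg _) (Real.smoothTransition.nonneg _)

theorem bp_le (s : ℝ) : bp s ≤ 1 := mul_le_one₀ (Real.smoothTransition.le_one _)
  (Real.smoothTransition.nonneg _) (Real.smoothTransition.le_one _)

theorem bp_zero {s : ℝ} (h : s < 1 / 4 ∨ 4 < s) : bp s = 0 := by
  rcases h with h | h
  · rw [bp, Real.smoothTransition.zero_of_nonpos (by linarith), zero_mul]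
  · rw [bp, Real.smoothTransition.zero_of_nonpos (x := 2 - s / 2) (by linarith), mul_zero]

/-- the clamp -/
def cl (y : ℝ) : ℝ := ∫ v in (0 : ℝ)..y, bp v

theorem cl_d (y : ℝ) : HasDerivAt cl (bp y) y :=
  (bp_cd.continuous.integral_hasStrictDerivAt 0 y).hasDerivAt

theorem cl_deriv : deriv cl = bp := funext fun y => (cl_d y).deriv

theorem cl_cd : ContDiff ℝ ∞ cl := by
  rw [contDiff_infty_iff_deriv, cl_deriv]
  exact ⟨fun u => (cl_d u).differentiableAt, bp_cd⟩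

theorem cl_mono : Monotone cl :=
  monotone_of_deriv_nonneg (fun u => (cl_d u).differentiableAt) fun u => cl_deriv ▸ bp_nn u

theorem cl_sub {u v : ℝ} (h1 : 1 / 2 ≤ u) (h2 : u ≤ v) (h3 : v ≤ 2) : cl v - cl u = v - u := by
  rw [cl, cl, intervalIntegral.integral_interval_sub_left
    (bp_cd.continuous.intervalIntegrable _ _) (bp_cd.continuous.intervalIntegrable _ _),
    intervalIntegral.integral_congr (g := fun _ => 1)]
  · simp
  · intro w hw
    rw [uIcc_of_le h2] at hw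
    simp only [bp]
    rw [Real.smoothTransition.one_of_one_le (by linarith [hw.1]),
      Real.smoothTransition.one_of_one_le (by linarith [hw.2]), one_mul]

theorem cl_key {y : ℝ} (h : |cl y - cl 1| < 1 / 2) : 1 / 2 ≤ y ∧ y ≤ 2 := by
  rw [abs_lt] at h
  constructor
  · by_contra hc
    have := cl_mono (not_le.1 hc).le
    linarith [cl_sub (u := 1 / 2) (v := 1) le_rfl (by norm_num) (by norm_num)]
  · by_contra hc
    have := cl_mono (not_le.1 hc).le
    linarith [cl_sub (u := 1) (v := 2) (by norm_num) (by norm_num) le_rfl]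

variable {M : Type*} [TopologicalSpace M] [CompactSpace M] [MeasurableSpace M]
  [OpensMeasurableSpace M] {H : HC M}

section strip
variable {s0 s1 lo hi del β : ℝ} {b b' : ℝ → M → ℝ} (N : Nk H s0 s1 lo hi del b b')
  (hβ : 0 < β) (h1 : lo ≤ β / 4) (h2 : 4 * β ≤ hi)
include N hβ h1 h2

omit N in
theorem bp_reg {y : ℝ} (h : ¬ (lo ≤ y ∧ y ≤ hi ∧ y ≤ 4 * β)) : bp (y / β) = 0 := by
  refine bp_zero ?_
  rw [div_lt_iff₀ hβ, lt_div_iff₀ hβ]
  by_contra hc
  push Not at hc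
  exact h ⟨by linarith [hc.1], by linarith [hc.2], hc.2⟩

theorem cl_space (A : H.Alg) (D : H.Dist) (hd : del ≤ 1 / 50) {t : ℝ} (ht : t ∈ Icc s0 s1)
    (p z : M) : |cl (b t z / β) - cl (b t p / β)| ≤ 5 / √β * H.d t p z := by
  have hm := N.st.mem ht
  have sb := N.tm.fix A ht
  have c1 : ContDiff ℝ ∞ fun y => √β / 5 * cl (y / β) :=
    contDiff_const.mul (cl_cd.comp (by fun_prop))
  have sp : 0 < √β := Real.sqrt_pos.2 hβ
  have d1 : ∀ y, deriv (fun y => √β / 5 * cl (y / β)) y = √β / 5 * (bp (y / β) * (1 / β)) :=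
    fun y => (((cl_d _).comp y ((hasDerivAt_id y).div_const β)).const_mul _).deriv
  have := D.lip t hm (x := p) (y := z) (r := H.d t p z + 1) (A.s0_compU c1 sb) (fun w _ => ?_)
    (by linarith)
  · rw [← mul_sub, abs_mul, abs_of_pos (by positivity : 0 < √β / 5)] at this
    calc _ = 5 / √β * (√β / 5 * |cl (b t z / β) - cl (b t p / β)|) := by field_simp
      _ ≤ _ := mul_le_mul_of_nonneg_left this (by positivity)
  · rw [A.gam_compU2 hm c1 sb, d1]
    by_cases hw : lo ≤ b t w ∧ b t w ≤ hi ∧ b t w ≤ 4 * β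
    · have g := (abs_le.1 (N.gam t ht w hw.1 hw.2.1)).2
      have g0 := A.gam_nonneg t hm sb w
      have hb := N.pos t ht w
      have g1 : H.gam t (b t) (b t) w ≤ 25 * β := by nlinarith [hw.2.2]
      have g2 : bp (b t w / β) ^ 2 ≤ 1 := pow_le_one₀ (bp_nn _) (bp_le _)
      have e : (√β / 5 * (bp (b t w / β) * (1 / β))) ^ 2 = bp (b t w / β) ^ 2 / (25 * β) := by
        rw [mul_pow, div_pow, Real.sq_sqrt hβ.le]; field_simp; ring
      rw [e, div_mul_eq_mul_div, div_le_one (by positivity)]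
      nlinarith
    · rw [bp_reg hβ h1 h2 hw]; simp

theorem cl_time (hd : 0 ≤ del) {s t : ℝ} (hs : s ∈ Icc s0 s1) (ht : t ∈ Icc s0 s1) (hst : s ≤ t)
    (z : M) : |cl (b t z / β) - cl (b s z / β)| ≤ del / β * (t - s) := by
  have := (convex_Icc s0 s1).norm_image_sub_le_of_norm_hasDerivWithin_le
    (f := fun s => cl (b s z / β)) (f' := fun s => bp (b s z / β) * (b' s z / β)) (C := del / β)
    (fun s hs => (cl_d _).comp_hasDerivWithinAt s ((N.dt s hs z).div_const β)) (fun s hs => ?_) hs ht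
  · rwa [Real.norm_eq_abs, Real.norm_eq_abs, abs_of_nonneg (sub_nonneg.2 hst)] at this
  · by_cases hw : lo ≤ b s z ∧ b s z ≤ hi ∧ b s z ≤ 4 * β
    · rw [Real.norm_eq_abs, abs_mul, abs_of_nonneg (bp_nn _), abs_div, abs_of_pos hβ]
      exact (mul_le_of_le_one_left (by positivity) (bp_le _)).trans
        (div_le_div_of_nonneg_right (N.dtb s hs z hw.1 hw.2.1) hβ.le)
    · rw [bp_reg hβ h1 h2 hw]; simp only [zero_mul, norm_zero]; positivity

end strip

theorem exists_strip {tt : ℕ → ℝ} {σ : ℝ} (h0 : tt 0 ≤ σ) (n : ℕ) (h : σ ≤ tt (n + 1)) :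
    ∃ m ≤ n, σ ∈ Icc (tt m) (tt (m + 1)) := by
  induction n with
  | zero => exact ⟨0, le_rfl, h0, h⟩
  | succ n ih =>
    rcases le_total σ (tt (n + 1)) with h1 | h1
    · obtain ⟨m, hm, h2⟩ := ih h1
      exact ⟨m, by omega, h2⟩
    · exact ⟨n + 1, le_rfl, h1, h⟩

/-- epsilon regularity at the centre -/
def ER (H : HC M) (t0 ε0 cE r0 : ℝ) (Ck : ℕ → ℝ) : Prop :=
  ∀ k, 0 < Ck k ∧ ∀ t ∈ Ico t0 H.T, ∀ x, ∀ r, 0 < r → r ≤ r0 → H.en t x r ≤ ε0 →
    H.Q k t x ≤ Ck k / r ^ (2 + 2 * k) ∧ H.Q k t x ≤ Ck k / r ^ (6 + 2 * k) *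
      ∫ s in (t - cE * r ^ 2)..t, ∫ z in H.B t x r, H.Q 0 s z ∂H.vol s

theorem exists_er (D : H.Dist) (E : H.EReg) {t0 : ℝ} (h : 0 < t0) :
    ∃ ε0 cE r0 Ck, 0 < ε0 ∧ 0 < cE ∧ 0 < r0 ∧ ER H t0 ε0 cE r0 Ck := by
  obtain ⟨ε0, c, r0, h1, h2, h3, -, h4⟩ := E t0 h
  choose Ck h5 h6 using h4
  refine ⟨ε0, c, r0, Ck, h1, h2, h3, fun k => ⟨h5 k, fun t ht x r hr hr1 he => ?_⟩⟩
  have hm : t ∈ Ioo 0 H.T := ⟨h.trans_le ht.1, ht.2⟩
  have := h6 k t ht x r hr hr1 he x (by show H.d t x x < r / 2; rw [D.self t hm x]; linarith)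
  exact ⟨(this.1 t hm (by simp only [sub_self, abs_zero]; positivity)).2, this.2⟩

namespace Rd

variable {a tt : ℕ → ℝ} {hi del K c Cv : ℝ} {b : ℝ → M → ℝ} {b' : ℕ → ℝ → M → ℝ}
  (S : Rd H a tt hi del K c Cv b b')
include S

theorem smono : StrictMono tt := strictMono_nat_of_lt_succ fun n => (S.nk n).st.2.1

theorem Cv_nn : 0 ≤ Cv := by
  have h := le_trans measureReal_nonneg (S.vol 0 _ ⟨le_rfl, (S.nk 0).st.2.1.le⟩ hi le_rfl)
  exact nonneg_of_mul_nonneg_left h (pow_pos S.hi_pos 2)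

theorem ap (hK : 4 ≤ K) (n : ℕ) : 0 < a n := by
  rw [S.a_eq n]; exact div_pos S.a_pos (pow_pos (by linarith) n)

theorem a_succ (hK : 4 ≤ K) (n : ℕ) : a n = K * a (n + 1) := by
  rw [S.a_eq n, S.a_eq (n + 1), pow_succ]; field_simp

theorem a_anti (hK : 4 ≤ K) : Antitone a := antitone_nat_of_succ_le fun n => by
  have := S.ap hK (n + 1); rw [S.a_succ hK n]; nlinarith

theorem sqN_le {n : ℕ} (hd : 0 ≤ del) {t : ℝ} (ht : t ∈ Icc (tt n) (tt (n + 1))) {x : M}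
    (l : a n ^ 2 ≤ b t x) (u : b t x ≤ hi) : √(H.N 0 t x) ≤ 2 * del / b t x := by
  have hb := (S.nk n).pos t ht x
  have h1 : (a n ^ 2 / b t x) ^ (1 / 16 : ℝ) ≤ 1 :=
    Real.rpow_le_one (by positivity) ((div_le_one hb).2 l) (by norm_num)
  have h2 : (b t x / hi) ^ (1 / 16 : ℝ) ≤ 1 :=
    Real.rpow_le_one (div_pos hb S.hi_pos).le ((div_le_one S.hi_pos).2 u) (by norm_num)
  refine (S.dec n t ht x l u).trans ?_
  calc _ ≤ del / b t x * 2 := mul_le_mul_of_nonneg_left (by linarith) (div_nonneg hd hb.le)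
    _ = _ := by ring

theorem cl_times (hd : 0 ≤ del) {β : ℝ} (hβ : 0 < β) (h2 : 4 * β ≤ hi) {m n : ℕ} (hmn : m ≤ n)
    (h1 : ∀ k, m ≤ k → k ≤ n → a k ^ 2 ≤ β / 4) {σ : ℝ} (hσ : σ ∈ Icc (tt m) (tt (m + 1))) (z : M) :
    ∀ s ∈ Icc (tt n) (tt (n + 1)), σ ≤ s →
      |cl (b s z / β) - cl (b σ z / β)| ≤ del / β * (s - σ) := by
  induction n, hmn using Nat.le_induction with
  | base => exact fun s hs h => cl_time (S.nk m) hβ (h1 m le_rfl le_rfl) h2 hd hσ hs h z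
  | succ n hmn ih =>
    intro s hs _
    have a1 := ih (fun k p q => h1 k p (by omega)) (tt (n + 1)) ⟨(S.nk n).st.2.1.le, le_rfl⟩
      (hσ.2.trans (S.smono.monotone (by omega)))
    have a2 := cl_time (S.nk (n + 1)) hβ (h1 _ (by omega) le_rfl) h2 hd
      ⟨le_rfl, (S.nk (n + 1)).st.2.1.le⟩ hs hs.1 z
    have := abs_sub_le (cl (b s z / β)) (cl (b (tt (n + 1)) z / β)) (cl (b σ z / β))
    linarith

/-- the parabolic window stays in the double annulus -/
theorem win (A : H.Alg) (D : H.Dist) (hd : 0 ≤ del) (hd1 : del ≤ 1 / 50) {m n : ℕ} (hmn : m ≤ n)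
    {s σ : ℝ} (hs : s ∈ Icc (tt n) (tt (n + 1))) (hσ : σ ∈ Icc (tt m) (tt (m + 1))) (h : σ ≤ s)
    {p z : M} (h2 : 4 * b s p ≤ hi) (h1 : ∀ k, m ≤ k → k ≤ n → a k ^ 2 ≤ b s p / 4)
    (h3 : del * (s - σ) ≤ b s p / 4) (hz : z ∈ H.B s p (√(b s p) / 200)) :
    b s p / 2 ≤ b σ z ∧ b σ z ≤ 2 * b s p := by
  have hβ := (S.nk n).pos s hs p
  have sp : 0 < √(b s p) := Real.sqrt_pos.2 hβ
  have a1 := S.cl_times hd hβ h2 hmn h1 hσ z s hs h
  have a2 := cl_space (S.nk n) hβ (h1 n hmn le_rfl) h2 A D hd1 hs p z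
  rw [div_self hβ.ne'] at a2
  have a3 : 5 / √(b s p) * H.d s p z ≤ 1 / 40 := by
    have : H.d s p z < √(b s p) / 200 := hz
    rw [div_mul_eq_mul_div, div_le_iff₀ sp]; linarith
  have a4 : del / b s p * (s - σ) ≤ 1 / 4 := by
    rw [div_mul_eq_mul_div, div_le_iff₀ hβ]; linarith
  have a5 := abs_sub_le (cl (b σ z / b s p)) (cl (b s z / b s p)) (cl 1)
  rw [abs_sub_comm] at a1
  have := cl_key (y := b σ z / b s p) (by linarith)
  rw [le_div_iff₀ hβ, div_le_iff₀ hβ] at this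
  exact ⟨by linarith [this.1], this.2⟩

omit S in
/-- an integral over a subset of an annulus -/
theorem int_le_an (A : H.Alg) (I : H.Intg) {t l u : ℝ} (ht : t ∈ Ioo 0 H.T) {f g : ℝ → M → ℝ}
    (hb : H.S0 (b t)) (hf : H.S0 (f t)) (hg : H.S0 (g t)) (h0 : ∀ x, 0 ≤ f t x) {U : Set M}
    (hU : ∀ z ∈ U, l ≤ b t z ∧ b t z ≤ u) (h : ∀ z, l ≤ b t z → b t z ≤ u → f t z ≤ g t z) :
    ∫ z in U, f t z ∂H.vol t ≤ An H b g l u t := by
  refine le_trans (setIntegral_mono_set (t := {x | l ≤ b t x ∧ b t x ≤ u})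
    (A.integrable I ht hf).integrableOn (Eventually.of_forall h0)
    (LE.le.eventuallyLE (show U ≤ _ from hU))) ?_
  exact setIntegral_mono_on (A.integrable I ht hf).integrableOn (A.integrable I ht hg).integrableOn
    (ms_set (A.s0_cont hb) l u) fun z hz => h z hz.1 hz.2

theorem an_const (I : H.Intg) {n : ℕ} {t l u w : ℝ} (ht : t ∈ Icc (tt n) (tt (n + 1))) (hw : 0 ≤ w)
    (hl : a n ^ 2 ≤ l) (hu : u ≤ hi) : An H b (fun _ _ => w) l u t ≤ w * (Cv * u ^ 2) := by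
  have := I.fin t ((S.nk n).st.mem ht)
  rw [An, setIntegral_const, smul_eq_mul, mul_comm]
  refine mul_le_mul_of_nonneg_left (le_trans (measureReal_mono ?_) (S.vol n t ht u hu)) hw
  exact fun x hx => ⟨hl.trans hx.1, hx.2⟩

/-- epsilon regularity applies on the neck -/
theorem er (O : H.Ok) {t0 ε0 cE r0 : ℝ} {Ck : ℕ → ℝ} (R : ER H t0 ε0 cE r0 Ck) (hr : 0 < r0)
    (ht0 : t0 ≤ tt 0) (hd : 0 ≤ del) (hd1 : del ≤ 1 / 50) (he : 64 * del ^ 2 * Cv ≤ ε0)
    (hh : hi ≤ r0 ^ 2) {n : ℕ} {s : ℝ} (hs : s ∈ Icc (tt n) (tt (n + 1))) {p : M}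
    (h1 : 4 * a n ^ 2 ≤ b s p) (h2 : 4 * b s p ≤ hi) (k : ℕ) :
    H.Q k s p ≤ Ck k / (√(b s p) / 200) ^ (2 + 2 * k) ∧
      H.Q k s p ≤ Ck k / (√(b s p) / 200) ^ (6 + 2 * k) *
        ∫ σ in (s - cE * (√(b s p) / 200) ^ 2)..s,
          ∫ z in H.B s p (√(b s p) / 200), H.Q 0 σ z ∂H.vol σ := by
  have hβ := (S.nk n).pos s hs p
  have sp : 0 < √(b s p) := Real.sqrt_pos.2 hβ
  have hm := (S.nk n).st.mem hs
  refine (R k).2 s ⟨ht0.trans ((S.smono.monotone n.zero_le).trans hs.1), hm.2⟩ p _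
    (by positivity) ?_ ?_
  · have : √(b s p) ≤ r0 := Real.sqrt_le_iff.2 ⟨hr.le, by linarith⟩
    linarith
  · have a1 := int_le_an O.alg O.int hm (f := H.N 0) (g := fun _ _ => (4 * del / b s p) ^ 2)
      ((S.nk n).tm.fix O.alg hs) (O.alg.s0_N hm 0) (O.alg.s0_const _) (O.evo.N_nonneg 0 s hm)
      (U := H.B s p (√(b s p) / 200)) (l := b s p / 2) (u := 2 * b s p)
      (fun z hz => S.win O.alg O.dist hd hd1 le_rfl hs hs le_rfl h2
        (fun k p q => by rw [le_antisymm q p]; linarith) (by rw [sub_self, mul_zero]; positivity) hz)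
      fun z l u => by
        have b1 := S.sqN_le hd hs (x := z) (by nlinarith [sq_nonneg (a n)]) (by linarith)
        have b2 : 2 * del / b s z ≤ 4 * del / b s p := by
          rw [div_le_div_iff₀ (by linarith) hβ]; nlinarith
        exact (Real.sqrt_le_left (by positivity)).1 (b1.trans b2)
    have a2 := S.an_const O.int hs (w := (4 * del / b s p) ^ 2) (l := b s p / 2) (u := 2 * b s p)
      (sq_nonneg _) (by nlinarith [sq_nonneg (a n)]) (by linarith)
    refine (a1.trans a2).trans (le_trans (le_of_eq ?_) he)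
    field_simp; ring

end Rd

end Crest.Agent.N207.NP

end
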