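import Crest.Agent.N207.NP.Defs

/-!
# Row 207, block P (helper85): the bounded weight `W` and the barrier on one strip
-/

set_option autoImplicit false
set_option linter.dupNamespace false
set_option linter.unusedSectionVars false
open Set MeasureTheory Filter Topology
open scoped ContDiff

noncomputable section

namespace Crest.Agent.N207.NP

variable {M : Type*} [TopologicalSpace M] [CompactSpace M] [MeasurableSpace M] {H : HC M}
variable {s0 s1 lo hi del : ℝ} {b b' f f' g g' V W W' : ℝ → M → ℝ}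

theorem sum_ind {P : (ℝ → M → ℝ) → (ℝ → M → ℝ) → Prop} (h0 : P (fun _ _ => 0) fun _ _ => 0)
    (hadd : ∀ f f' g g', P f f' → P g g' →
      P (fun t x => f t x + g t x) fun t x => f' t x + g' t x)
    (F F' : ℕ → ℝ → M → ℝ) (n : ℕ) (h : ∀ m < n, P (F m) (F' m)) :
    P (fun t x => ∑ m ∈ Finset.range n, F m t x) fun t x => ∑ m ∈ Finset.range n, F' m t x := by
  induction n with
  | zero => simpa using h0
  | succ n ih =>
    simp only [Finset.sum_range_succ]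
    exact hadd _ _ _ _ (ih fun m hm => h m (by omega)) (h n (by omega))

/-- nonnegative supersolutions with controlled gradient along `b` -/
structure Zc (H : HC M) (s0 s1 lo hi μ : ℝ) (b f f' : ℝ → M → ℝ) : Prop where
  tm : Tm H s0 s1 f f'
  nn : ∀ t ∈ Icc s0 s1, ∀ x, 0 ≤ f t x
  sup : ∀ t ∈ Icc s0 s1, ∀ x, lo ≤ b t x → b t x ≤ hi → 0 ≤ box H f f' t x
  gam : ∀ t ∈ Icc s0 s1, ∀ x, lo ≤ b t x → b t x ≤ hi → |H.gam t (f t) (b t) x| ≤ μ * f t x

/-- the properties of the weight -/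
structure Wg (H : HC M) (s0 s1 lo hi CW : ℝ) (b V W W' : ℝ → M → ℝ) : Prop where
  tm : Tm H s0 s1 W W'
  one : ∀ t ∈ Icc s0 s1, ∀ x, lo ≤ b t x → b t x ≤ hi → 1 ≤ W t x
  le : ∀ t ∈ Icc s0 s1, ∀ x, lo ≤ b t x → b t x ≤ hi → W t x ≤ CW
  gam : ∀ t ∈ Icc s0 s1, ∀ x, lo ≤ b t x → b t x ≤ hi → |H.gam t (W t) (b t) x| ≤ 13 / 50 * W t x
  sup : ∀ t ∈ Icc s0 s1, ∀ x, lo ≤ b t x → b t x ≤ hi → V t x * W t x ≤ box H W W' t x

/-- admissible brackets -/
structure Gc (H : HC M) (s0 s1 lo hi : ℝ) (b W g g' : ℝ → M → ℝ) : Prop where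
  tm : Tm H s0 s1 g g'
  nn : ∀ t ∈ Icc s0 s1, ∀ x, 0 ≤ g t x
  sup : ∀ t ∈ Icc s0 s1, ∀ x, lo ≤ b t x → b t x ≤ hi →
    2 * H.gam t (W t) (g t) x ≤ W t x * box H g g' t x

theorem rpow_mul_le {p z y γ : ℝ} (hp : 0 ≤ p) (hz : 0 < z) (hy : z ≤ y) (hγ : 0 ≤ γ) :
    p ^ γ * y ^ (-γ) ≤ (p / z) ^ γ := by
  have hy0 : 0 < y := hz.trans_le hy
  rw [Real.rpow_neg hy0.le, ← div_eq_mul_inv, ← Real.div_rpow hp hy0.le]
  exact Real.rpow_le_rpow (div_nonneg hp hy0.le) (div_le_div_of_nonneg_left hp hz hy) hγ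

section
variable (A : H.Alg) (N : Nk H s0 s1 lo hi del b b') {μ : ℝ}
include A N

theorem Zc.zero : Zc H s0 s1 lo hi μ b (fun _ _ => 0) fun _ _ => 0 where
  tm := Tm.const A 0
  nn _ _ _ := le_rfl
  sup t ht x _ _ := (box_const A N.st ht x 0).ge
  gam t ht x _ _ := by rw [A.gam_const (N.st.mem ht) 0 (N.tm.fix A ht)]; simp

theorem Zc.add (F : Zc H s0 s1 lo hi μ b f f') (G : Zc H s0 s1 lo hi μ b g g') :
    Zc H s0 s1 lo hi μ b (fun t x => f t x + g t x) fun t x => f' t x + g' t x where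
  tm := F.tm.add A G.tm
  nn t ht x := add_nonneg (F.nn t ht x) (G.nn t ht x)
  sup t ht x l u := by
    rw [box_add A N.st ht x F.tm G.tm]; exact add_nonneg (F.sup t ht x l u) (G.sup t ht x l u)
  gam t ht x l u := by
    rw [A.gam_add t (N.st.mem ht) (F.tm.fix A ht) (G.tm.fix A ht) (N.tm.fix A ht)]
    refine (abs_add_le _ _).trans ?_
    linarith [F.gam t ht x l u, G.gam t ht x l u]

theorem Zc.blk {k τ γ c : ℝ} (hk : ∀ t ∈ Icc s0 s1, 0 ≤ k * (t - τ)) (hk1 : k ≤ 1 / 4)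
    (hd : del ≤ 1 / 50) (hγ : 0 ≤ γ) (hγ1 : γ ≤ 1 / 16) (hc : 0 ≤ c) :
    Zc H s0 s1 lo hi (4 * (1 + del) * γ) b (fun t x => c * pw b k τ (-γ) t x)
      fun t x => c * pw' b b' k τ (-γ) t x where
  tm := (tm_pw A N hk _).cmul A c
  nn t ht x := mul_nonneg hc (Real.rpow_nonneg (sh_pos N hk ht x).le _)
  sup t ht x l u := by
    rw [box_cmul A N.st ht x c (tm_pw A N hk _)]
    refine mul_nonneg hc (le_trans ?_ (box_pw_ge A N hk hγ ht l u))
    refine mul_nonneg (mul_nonneg hγ (Real.rpow_nonneg (sh_pos N hk ht x).le _)) ?_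
    have hd0 : 0 ≤ del := (abs_nonneg _).trans (N.lap t ht x l u)
    nlinarith
  gam t ht x l u := by
    rw [A.gam_cmul (N.st.mem ht) c ((tm_pw A N hk _).fix A ht) (N.tm.fix A ht), abs_mul,
      abs_of_nonneg hc]
    have := abs_gam_pw A N hk (-γ) ht l u
    rw [abs_neg, abs_of_nonneg hγ] at this
    nlinarith [mul_le_mul_of_nonneg_left this hc]

omit A N in
theorem k0 (s0 s1 : ℝ) : ∀ t ∈ Icc s0 s1, 0 ≤ (0 : ℝ) * (t - 0) := fun _ _ => by simp

omit A N in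
theorem sh0 (b : ℝ → M → ℝ) (t : ℝ) (x : M) : sh b 0 0 t x = b t x := by simp [sh]

/-- the weight `2 + Z + (lo/b)^γ - (b/hi)^γ` -/
theorem wg_of {Z Z' : ℝ → M → ℝ} {γ ν CZ : ℝ} (hlo : 0 < lo) (hd : del ≤ 1 / 50) (hγ : 0 ≤ γ)
    (hγ1 : γ ≤ 1 / 16) (hZ : Zc H s0 s1 lo hi (4 * (1 + del) * γ) b Z Z')
    (hZ1 : ∀ t ∈ Icc s0 s1, ∀ x, lo ≤ b t x → b t x ≤ hi → Z t x ≤ CZ) (hν0 : 0 ≤ ν)
    (hν : ν * (3 + CZ) ≤ 3 * γ)
    (hV : ∀ t ∈ Icc s0 s1, ∀ x, lo ≤ b t x → b t x ≤ hi →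
      V t x ≤ ν / b t x * ((lo / b t x) ^ γ + (b t x / hi) ^ γ)) :
    Wg H s0 s1 lo hi (3 + CZ) b V
      (fun t x => 2 + Z t x + lo ^ γ * pw b 0 0 (-γ) t x - hi ^ (-γ) * pw b 0 0 γ t x)
      fun t x => 0 + Z' t x + lo ^ γ * pw' b b' 0 0 (-γ) t x - hi ^ (-γ) * pw' b b' 0 0 γ t x := by
  have k := k0 s0 s1
  have T1 := (Tm.const (s0 := s0) (s1 := s1) A 2).add A hZ.tm
  have TP := (tm_pw A N k (-γ)).cmul A (lo ^ γ)
  have TQ := (tm_pw A N k γ).cmul A (hi ^ (-γ))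
  have eP : ∀ t ∈ Icc s0 s1, ∀ x, lo ^ γ * pw b 0 0 (-γ) t x = (lo / b t x) ^ γ := fun t ht x => by
    have := (N.pos t ht x).le
    rw [pw, sh0, Real.rpow_neg this, Real.div_rpow hlo.le this, div_eq_mul_inv]
  have eQ : ∀ t ∈ Icc s0 s1, ∀ x, b t x ≤ hi →
      hi ^ (-γ) * pw b 0 0 γ t x = (b t x / hi) ^ γ := fun t ht x u => by
    have := N.pos t ht x
    have h2 : 0 ≤ hi := by linarith
    rw [pw, sh0, Real.rpow_neg h2, Real.div_rpow this.le h2]; ring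
  have bP : ∀ t ∈ Icc s0 s1, ∀ x, lo ≤ b t x → 0 ≤ (lo / b t x) ^ γ ∧ (lo / b t x) ^ γ ≤ 1 :=
    fun t ht x l => by
      have := N.pos t ht x
      exact ⟨by positivity, Real.rpow_le_one (by positivity) ((div_le_one this).2 l) hγ⟩
  have bQ : ∀ t ∈ Icc s0 s1, ∀ x, b t x ≤ hi → 0 ≤ (b t x / hi) ^ γ ∧ (b t x / hi) ^ γ ≤ 1 :=
    fun t ht x u => by
      have := N.pos t ht x
      have h2 : 0 < hi := by linarith
      exact ⟨by positivity, Real.rpow_le_one (by positivity) ((div_le_one h2).2 u) hγ⟩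
  refine ⟨(T1.add A TP).sub A TQ, fun t ht x l u => ?_, fun t ht x l u => ?_,
    fun t ht x l u => ?_, fun t ht x l u => ?_⟩
  · rw [eP t ht, eQ t ht x u]
    linarith [(bP t ht x l).1, (bQ t ht x u).2, hZ.nn t ht x]
  · rw [eP t ht, eQ t ht x u]
    linarith [(bP t ht x l).2, (bQ t ht x u).1, hZ1 t ht x l u]
  · have hm := N.st.mem ht
    have hb := N.tm.fix A ht
    have hh : 0 ≤ hi := (N.pos t ht x).le.trans u
    rw [A.gam_sub hm ((T1.add A TP).fix A ht) (TQ.fix A ht) hb,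
      A.gam_add t hm (T1.fix A ht) (TP.fix A ht) hb,
      A.gam_add t hm (A.s0_const 2) (hZ.tm.fix A ht) hb, A.gam_const hm 2 hb,
      A.gam_cmul hm _ ((tm_pw A N k _).fix A ht) hb, A.gam_cmul hm _ ((tm_pw A N k _).fix A ht) hb]
    have h1 := mul_le_mul_of_nonneg_left (abs_gam_pw A N k (-γ) ht l u) (Real.rpow_nonneg hlo.le γ)
    have h2 := mul_le_mul_of_nonneg_left (abs_gam_pw A N k γ ht l u) (Real.rpow_nonneg hh (-γ))
    rw [← abs_of_nonneg (Real.rpow_nonneg hlo.le γ), ← abs_mul,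
      abs_of_nonneg (Real.rpow_nonneg hlo.le γ), abs_neg, abs_of_nonneg hγ] at h1
    rw [← abs_of_nonneg (Real.rpow_nonneg hh (-γ)), ← abs_mul,
      abs_of_nonneg (Real.rpow_nonneg hh (-γ)), abs_of_nonneg hγ] at h2
    have h3 := hZ.gam t ht x l u
    have e1 := eP t ht x
    have e2 := eQ t ht x u
    have hd0 : 0 ≤ del := (abs_nonneg _).trans (N.lap t ht x l u)
    have hμ : 4 * (1 + del) * γ ≤ 13 / 50 := by nlinarith
    have hμ0 : 0 ≤ 4 * (1 + del) * γ := by positivity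
    have b1 := bP t ht x l
    have b2 := bQ t ht x u
    have b3 := hZ.nn t ht x
    rw [abs_le] at h1 h2 h3 ⊢
    rw [e1, e2]
    have h4 : lo ^ γ * (4 * (1 + del) * γ * pw b 0 0 (-γ) t x) ≤ 13 / 50 * (lo / b t x) ^ γ := by
      rw [← e1] at b1 ⊢; nlinarith
    have h5 : hi ^ (-γ) * (4 * (1 + del) * γ * pw b 0 0 γ t x) ≤ 13 / 50 * (b t x / hi) ^ γ := by
      rw [← e2] at b2 ⊢; nlinarith
    have h6 : 4 * (1 + del) * γ * Z t x ≤ 13 / 50 * Z t x := by nlinarith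
    constructor <;> linarith [h1.1, h1.2, h2.1, h2.2, h3.1, h3.2, b2.2]
  · have hb := N.pos t ht x
    have hh : 0 ≤ hi := hb.le.trans u
    have hd0 : 0 ≤ del := (abs_nonneg _).trans (N.lap t ht x l u)
    rw [box_sub A N.st ht x (T1.add A TP) TQ, box_add A N.st ht x T1 TP,
      box_add A N.st ht x (Tm.const A 2) hZ.tm, box_const A N.st ht x,
      box_cmul A N.st ht x _ (tm_pw A N k _), box_cmul A N.st ht x _ (tm_pw A N k _)]
    have h1 := mul_le_mul_of_nonneg_left (box_pw_ge A N k hγ ht l u) (Real.rpow_nonneg hlo.le γ)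
    have e1 := eP t ht x
    have e2 := eQ t ht x u
    have b1 := bP t ht x l
    have b2 := bQ t ht x u
    rw [sh0, Real.rpow_sub_one hb.ne'] at h1
    rw [pw, sh0] at e1 e2
    have h2 : 3 * γ * ((lo / b t x) ^ γ / b t x) ≤
        lo ^ γ * box H (pw b 0 0 (-γ)) (pw' b b' 0 0 (-γ)) t x := by
      refine le_trans ?_ h1
      have : lo ^ γ * (γ * (b t x ^ (-γ) / b t x) * (8 - 2 * del - 0 - 4 * (1 + del) * (γ + 1))) =
          γ * ((lo / b t x) ^ γ / b t x) * (8 - 2 * del - 0 - 4 * (1 + del) * (γ + 1)) := by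
        rw [← e1]; ring
      rw [this]
      have h3 : 0 ≤ γ * ((lo / b t x) ^ γ / b t x) := mul_nonneg hγ (div_nonneg b1.1 hb.le)
      have h4 : 3 ≤ 8 - 2 * del - 0 - 4 * (1 + del) * (γ + 1) := by nlinarith
      nlinarith
    have h3 : hi ^ (-γ) * box H (pw b 0 0 γ) (pw' b b' 0 0 γ) t x ≤
        -(3 * γ * ((b t x / hi) ^ γ / b t x)) := by
      rw [box_pw A N k γ ht x, sh0, Real.rpow_sub_one hb.ne']
      have g1 := abs_le.1 (N.gam t ht x l u)
      have g2 := abs_le.1 (N.lap t ht x l u)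
      have g3 := abs_le.1 (N.dtb t ht x l u)
      have g0 := div_nonneg (A.gam_nonneg t (N.st.mem ht) (N.tm.fix A ht) x) hb.le
      have g4 : H.gam t (b t) (b t) x / b t x ≤ 4 * (1 + del) := by
        rw [div_le_iff₀ hb]; nlinarith
      have g5 : b' t x + 0 - H.lap t (b t) x - (γ - 1) * (H.gam t (b t) (b t) x / b t x) ≤ -3 := by
        nlinarith
      have h3 : 0 ≤ γ * ((b t x / hi) ^ γ / b t x) := mul_nonneg hγ (div_nonneg b2.1 hb.le)
      have : ∀ z, hi ^ (-γ) * (γ * (b t x ^ γ / b t x) * z) =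
          γ * ((b t x / hi) ^ γ / b t x) * z := fun z => by rw [← e2]; ring
      rw [this]
      nlinarith
    have h4 := hZ.sup t ht x l u
    have h5 := hV t ht x l u
    have h6 := hZ1 t ht x l u
    have h7 := hZ.nn t ht x
    simp only [pw, sh0]
    rw [e1, e2]
    set P := (lo / b t x) ^ γ
    set Q := (b t x / hi) ^ γ
    have h8 : V t x * (2 + Z t x + P - Q) ≤ ν / b t x * (P + Q) * (2 + Z t x + P - Q) :=
      mul_le_mul_of_nonneg_right h5 (by linarith [b1.1, b2.2])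
    have h9 : 0 ≤ (P + Q) / b t x := div_nonneg (by linarith [b1.1, b2.1]) hb.le
    have h10 : ν * (2 + Z t x + P - Q) ≤ 3 * γ :=
      le_trans (mul_le_mul_of_nonneg_left (by linarith [b1.2, b2.1]) hν0) hν
    have h11 : ν / b t x * (P + Q) * (2 + Z t x + P - Q) =
        (P + Q) / b t x * (ν * (2 + Z t x + P - Q)) := by ring
    have h12 : (P + Q) / b t x * (3 * γ) = 3 * γ * (P / b t x) + 3 * γ * (Q / b t x) := by ring
    linarith [mul_le_mul_of_nonneg_left h10 h9]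

variable {CW : ℝ} (G : Wg H s0 s1 lo hi CW b V W W')
include G

theorem Gc.const {c : ℝ} (hc : 0 ≤ c) : Gc H s0 s1 lo hi b W (fun _ _ => c) fun _ _ => 0 where
  tm := Tm.const A c
  nn _ _ _ := hc
  sup t ht x _ _ := by
    rw [box_const A N.st ht x c, A.gam_const' (N.st.mem ht) c (G.tm.fix A ht)]; simp

theorem Gc.add (F : Gc H s0 s1 lo hi b W f f') (F2 : Gc H s0 s1 lo hi b W g g') :
    Gc H s0 s1 lo hi b W (fun t x => f t x + g t x) fun t x => f' t x + g' t x where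
  tm := F.tm.add A F2.tm
  nn t ht x := add_nonneg (F.nn t ht x) (F2.nn t ht x)
  sup t ht x l u := by
    rw [box_add A N.st ht x F.tm F2.tm,
      A.gam_add' (N.st.mem ht) (F.tm.fix A ht) (F2.tm.fix A ht) (G.tm.fix A ht)]
    linarith [F.sup t ht x l u, F2.sup t ht x l u]

theorem Gc.blk {k τ c : ℝ} (hk : ∀ t ∈ Icc s0 s1, 0 ≤ k * (t - τ)) (hk1 : k ≤ 1 / 4)
    (hd : del ≤ 1 / 50) (hc : 0 ≤ c) :
    Gc H s0 s1 lo hi b W (fun t x => c * pw b k τ (-(3 / 4)) t x)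
      fun t x => c * pw' b b' k τ (-(3 / 4)) t x where
  tm := (tm_pw A N hk _).cmul A c
  nn t ht x := mul_nonneg hc (Real.rpow_nonneg (sh_pos N hk ht x).le _)
  sup t ht x l u := by
    have hm := N.st.mem ht
    have hW := G.tm.fix A ht
    have hp := (tm_pw A N hk (-(3 / 4))).fix A ht
    rw [box_cmul A N.st ht x c (tm_pw A N hk _), A.gam_cmul' hm c hp hW, A.gam_symm t hm hW hp,
      gam_pw A N hk _ ht hW, A.gam_symm t hm (N.tm.fix A ht) hW]
    have h1 := box_pw_ge A N hk (e := 3 / 4) (by norm_num) ht l u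
    have h2 := abs_le.1 (G.gam t ht x l u)
    have h3 := G.one t ht x l u
    have h4 := Real.rpow_nonneg (sh_pos N hk ht x).le (-(3 / 4) - 1)
    set y := sh b k τ t x ^ (-(3 / 4 : ℝ) - 1)
    have h5 : 3 / 4 * y * (13 / 25) ≤ box H (pw b k τ (-(3 / 4))) (pw' b b' k τ (-(3 / 4))) t x :=
      le_trans (mul_le_mul_of_nonneg_left (by linarith) (by positivity)) h1
    have h6 := mul_le_mul_of_nonneg_left h5 (show 0 ≤ W t x by linarith)
    have h7 := mul_le_mul_of_nonneg_left h2.1 h4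
    have h8 : 2 * (-(3 / 4) * y * H.gam t (W t) (b t) x) ≤
        W t x * box H (pw b k τ (-(3 / 4))) (pw' b b' k τ (-(3 / 4))) t x := by nlinarith
    nlinarith [mul_le_mul_of_nonneg_left h8 hc]

/-- the barrier `W g` is a supersolution -/
theorem Gc.box_ge (F : Gc H s0 s1 lo hi b W g g') {t : ℝ} (ht : t ∈ Icc s0 s1) {x : M}
    (l : lo ≤ b t x) (u : b t x ≤ hi) : V t x * (W t x * g t x) ≤
      box H (fun t x => W t x * g t x) (fun t x => W' t x * g t x + W t x * g' t x) t x := by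
  rw [box_mul A N.st ht x G.tm F.tm]
  nlinarith [F.sup t ht x l u, mul_le_mul_of_nonneg_right (G.sup t ht x l u) (F.nn t ht x)]

/-- comparison on one strip -/
theorem bar_step (F : Gc H s0 s1 lo hi b W g g') (T : Tm H s0 s1 f f') {K : ℝ}
    (hK : ∀ t ∈ Icc s0 s1, ∀ x, lo ≤ b t x → b t x ≤ hi → V t x ≤ K)
    (hf : ∀ t ∈ Icc s0 s1, ∀ x, lo ≤ b t x → b t x ≤ hi → box H f f' t x ≤ V t x * f t x)
    (h0 : ∀ x, lo ≤ b s0 x → b s0 x ≤ hi → f s0 x ≤ W s0 x * g s0 x)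
    (h1 : ∀ t ∈ Icc s0 s1, ∀ x, (b t x = lo ∨ b t x = hi) → f t x ≤ W t x * g t x) :
    ∀ t ∈ Icc s0 s1, ∀ x, lo ≤ b t x → b t x ≤ hi → f t x ≤ W t x * g t x := by
  have := mp A N.st N.sm (T.sub A (G.tm.mul A F.tm)) K
    (fun x l u => sub_nonpos.2 (h0 x l u)) (fun t ht x h => sub_nonpos.2 (h1 t ht x h))
    fun t ht x l u hp => by
      rw [box_sub A N.st ht x T (G.tm.mul A F.tm)]
      have h2 := F.box_ge A N G ht l u
      nlinarith [hf t ht x l u, mul_le_mul_of_nonneg_right (hK t ht x l u) hp.le]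
  exact fun t ht x l u => sub_nonpos.1 (this t ht x l u)

end

end Crest.Agent.N207.NP

end
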